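import Vale.Agent.N352.X.Net
import Vale.Agent.P352X.EG.W
import Vale.Agent.P352X.CA.W2
import Vale.Agent.P352X.R.D1

/-!
# N352, block X: the descent from the double
-/

set_option linter.all false

open Filter Topology Set
open scoped ComplexConjugate

namespace Vale.Agent.N352.G.X

open Vale.Agent.P352 Vale.Agent.P352.GF Vale.Agent.P352.BW Vale.Agent.P352.H246
open Vale.Agent.P352.H496 Vale.Agent.P352.H755 Vale.Agent.P352.H15
open Vale.Agent.P352X Vale.Agent.P352X.EB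
open Vale.Agent.P132 (ModData)
open UniformSpace (Completion)
open Real (exp)

noncomputable section

variable {D D2 : Type*} [NormedAddCommGroup D] [InnerProductSpace ℂ D] [NormedAddCommGroup D2]
  [InnerProductSpace ℂ D2] {c : Cg D} {T : Ix → Ix → Fld D} {k : P352X.Ctx D2}
  {tm : Completion D → Completion D → Completion D2} {l : Fn → Completion D} {f : Fn}
  {u : Completion D →L[ℂ] Completion D}

namespace Ds

theorem n1 (c : Cg D) : ‖c.Om‖ = 1 := Kin.norm_om

theorem pv0 (c : Cg D) : Pv c.Γ false c.Om := by simpa [Pv] using EG.SGx.gv c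

theorem in1 (c : Cg D) : inner ℂ c.Om c.Om = 1 := by
  rw [inner_self_eq_norm_sq_to_K, n1]
  simp

theorem ip_gam (c : Cg D) : Ip c c.Γ fun z => z :=
  ⟨EG.Sh.gm c true, ((EG.sg_row c).gm true).1.symm, ((EG.sg_row c).gm true).2⟩

variable (L : Lk c T k tm)
include L

theorem lf_ug {s : ℝ} {Λ : Ix → V} (hs : 0 < s) (hL : IsLor Λ) (a : V) :
    Lf c.Γ tm c.Om (Ug c.Q s Λ a) (Ug k.Q s Λ a) :=
  let p := ip_ug c hs hL a; ⟨p.uni, p.ev, p.vac, L.U s Λ a hs hL⟩

theorem lf_bo (a : ℝ) : Lf c.Γ tm c.Om (P352X.Bo c.Q a) (P352X.Bo k.Q a) :=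
  lf_ug L (Real.sqrt_pos.2 (mul_pos (Real.exp_pos a) (Real.exp_pos (-a))))
    (Grp.lsc (Real.exp_pos a) (Real.exp_pos (-a))).1 0

theorem lf_md (t : P352X.GRP k) {r : ℝ} (hr : 0 ≤ r) (E : ModData (c.N (Rc r 0)) c.Om) (s : ℝ) :
    Lf c.Γ tm c.Om (E.U s * P352X.Bo c.Q (2 * Real.pi * s))
      (k.SK (r * (1 - exp (-(2 * Real.pi * s))))) := by
  have key : ∀ ξ, ξ = tm c.Om c.Om → ∀ E2 : ModData (k.N (Rc r 0)) ξ,
      Lf c.Γ tm c.Om (E.U s) (E2.U s) := by
    rintro _ rfl E2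
    refine L.dbl.mod (EG.SGx.gv c) (c.hN.gam _) E E2 ?_ ?_ s
    · rintro z ⟨e, x, y, a, b, p, q, h⟩
      exact L.gen _ e x y z (rc_open r) a b p q h
    · rintro z ⟨e, x, y, a, b, p, q, h⟩
      exact L.com _ e x y z (rc_open r) a b p q h
  obtain ⟨E2, h⟩ := t.md r hr
  refine ((key _ L.om E2).mul (lf_bo L _)).cast ?_
  rw [h, mul_assoc, ← t.ugB.add', neg_add_cancel, t.ugB.zero', mul_one]

theorem bw (t : P352X.GRP k) : Bw c := by
  obtain ⟨E⟩ := Sq.ex_md c (rc_open 0) (rc_ne le_rfl) (rc_w0 le_rfl)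
  have key : ∀ s, ∃ a, Ip c (E.U s) (scp (exp a) (exp (-a))) := fun s => by
    have h := (lf_md L t le_rfl E s).mul (lf_bo L (-(2 * Real.pi * s)))
    rw [zero_mul, k.ugK.zero', one_mul, mul_assoc] at h
    generalize 2 * Real.pi * s = r at h
    have p := ip_sc0 c (Real.exp_pos (-r)) (Real.exp_pos (- -r))
    have q1 : Ip c (P352X.Bo c.Q r * P352X.Bo c.Q (-r)) fun z => z :=
      ((ip_sc0 c (Real.exp_pos r) (Real.exp_pos (-r))).mul p).cast fun z => by
      rw [scp_scp _ (Real.exp_pos _).le (Real.exp_pos _).le, ← Real.exp_add, ← Real.exp_add,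
        add_neg_cancel, add_neg_cancel, Real.exp_zero]
      simp only [scp, one_mul, Real.sqrt_one, one_smul, pt_eta]
    have g := ip_gam c
    refine ⟨-r, ?_⟩
    rcases (up_ip c).eq q1 (ip_one c) with a | a <;>
      rcases Lf.eq L.dbl (EG.SGx.gv c) (n1 c) h (lf_bo L _) with b | b <;>
      rw [a] at b <;> simp only [mul_one] at b
    · exact b ▸ p
    · exact b ▸ g.mul p
    · have := congrArg (· * c.Γ) b
      simp only [mul_assoc, EG.SGx.g2, mul_one] at this
      exact this ▸ p.mul g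
    · have := congrArg (· * c.Γ) b
      simp only [mul_assoc, EG.SGx.g2, mul_one] at this
      exact this ▸ g.mul (p.mul g)
  have e := KDa.rc_zero
  generalize Rc 0 0 = O at E key e
  subst e
  exact ⟨E, key⟩

theorem ex_lf (t : P352X.GRP k) {r s : ℝ} (hr : 0 < r) (hs : 0 < s) : ∃ u, Lf c.Γ tm c.Om u (k.SK s) ∧
    ∀ X ∈ c.N (Rc r 0), u * X * star u ∈ M0 c := by
  have h : 0 < r + s := add_pos hr hs
  obtain ⟨E⟩ := Sq.ex_md c (rc_open (r + s)) (rc_ne h.le) (rc_w0 h.le)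
  obtain ⟨a, ha⟩ : ∃ a, exp (2 * Real.pi * a) = (r + s) / r :=
    ⟨Real.log ((r + s) / r) / (2 * Real.pi), by
      rw [mul_div_cancel₀ _ (by positivity), Real.exp_log (by positivity)]⟩
  refine ⟨_, (lf_md L t h.le E a).cast (congrArg _ ?_), fun X hX => ?_⟩
  · rw [Real.exp_neg, ha]
    field_simp
    ring
  · have := (ip_sc0 c (Real.exp_pos (2 * Real.pi * a)) (Real.exp_pos (-(2 * Real.pi * a)))).mem
      (fun z => rc_bo (r := r) _) X hX
    rw [ha, mul_div_cancel₀ _ hr.ne', ← ha] at this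
    have := c.hN.mono _ _ (rc_w0 h.le) _ (E.sg_mem this a)
    rw [star_mul, E.star_U]
    simpa only [ModData.sg, mul_assoc, P352X.Bo, M0] using this

theorem skc (t : P352X.GRP k) {s : ℝ} (hs : 0 < s) (h : Lf c.Γ tm c.Om u (k.SK s)) :
    ∀ Z ∈ (M0 c).commutant, star u * Z * u ∈ (M0 c).commutant := fun Z hZ => by
  refine rc_gen (bw L t) fun r hr X hX => comm_mul hX (conj_comm h.uni (fun X hX => ?_) hZ)
  obtain ⟨v, a, b⟩ := ex_lf L t hr hs
  rcases Lf.eq L.dbl (EG.SGx.gv c) (n1 c) h a with e | e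
  · exact e ▸ b X hX
  · have := c.hN.gam _ _ (b X hX)
    rw [e, star_mul, EG.SGx.gs]
    simpa only [mul_assoc] using this

theorem pot2 (hl : IsPot c.Q T l) (hf : IsTest f) : k.l f = tm (l f) c.Om + tm c.Om (l f) := by
  have d := L.dbl
  refine IsPot.unique (l := fun f => tm (l f) c.Om + tm c.Om (l f)) ⟨fun f g z a b => ?_, ?_,
    fun f hf => ?_, fun s Λ a f v hs hL hf => ?_⟩ k.hl f hf
  · rw [hl.lin f g z a b, d.add_l, d.add_r, d.smul_l, d.smul_r]
    module
  · exact (d.cont.comp (hl.cont.prodMk continuous_const)).add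
      (d.cont.comp (continuous_const.prodMk hl.cont))
  · let A := d.L.flip c.Om + d.L c.Om
    have e : ∀ x, tm x c.Om + tm c.Om x = A x := fun _ => rfl
    rw [e, ← map_smul, hl.trace f hf]
    simp only [GF.tr, EB.Fin'.coe_sum, Completion.coe_smul, map_sum, map_smul, L.T _ _ f hf, e]
  · have h3 : ((s ^ 2 : ℝ) : ℂ) ≠ 0 := Complex.ofReal_ne_zero.2 (by positivity)
    have p := lf_ug L hs hL a
    rw [← Grp.coe hs hL, ← Grp.ug_inner hs hL a (v : Completion D2), map_add, p.tp, p.tp, p.vac,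
      Sq.pot hl a hs hL hf, ← Complex.coe_smul, d.smul_l, d.smul_r, ← smul_add, inner_smul_right,
      Complex.ofReal_inv, mul_inv_cancel_left₀ h3]

theorem flow (hT : c.Q.IsStress T) (hl : IsPot c.Q T l) (F : EB.FLOW k) {s : ℝ} (hs : 0 ≤ s)
    (h : Lf c.Γ tm c.Om u (k.SK s)) (hf : In {z | be z < 0} f) : u (l f) = l (pb 2 s f) := by
  have d := L.dbl
  have h2 : IsTest (pb 2 s f) := (Ap.in_of (O := univ) (Ch0.inn (j := 2) (t := s) (Ap.in_dc hf)
    fun z hz => by
      have : be z < 0 := hf.2.2 hz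
      simp only [rh]
      nlinarith).1 (subset_univ _)).1
  have e := F f s hf hs
  rw [pot2 L hl hf.1, pot2 L hl h2, map_add, h.tp, h.tp, h.vac] at e
  refine sub_eq_zero.1 (d.sym_inj (pv0 c) (fun z => by simpa [z] using n1 c) ?_ ?_)
  · rw [Pv, map_sub, Sq.l_even hT hl h2, ← ContinuousLinearMap.mul_apply, h.ev,
      ContinuousLinearMap.mul_apply, Sq.l_even hT hl hf.1, sg_false, one_smul]
  · rw [← d.L_apply, ← d.L_apply, map_sub, map_sub, ContinuousLinearMap.sub_apply]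
    simp only [d.L_apply]
    linear_combination (norm := module) e

theorem prw (j : P352X.JC k) (hT : c.Q.IsStress T) (hl : IsPot c.Q T l) (hf : In W0 f) :
    Pr (c.N W0) c.Om (l f) (l (bar f)) := fun Z hZ => by
  have d := L.dbl
  have g := gd c
  have ev : ∀ f, IsTest f → Pv c.Γ false (l f) := fun f hf => by
    simpa [Pv] using Sq.l_even hT hl hf
  have pv : ∀ e X, Par c.Γ e X → Pv c.Γ e (X c.Om) := fun e X p => by
    rw [Pv, g.par_app p, EG.SGx.gv]
  have p0 := g.par_po false Z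
  have p1 := g.par_po true Z
  have one : Par c.Γ false 1 := g.par_ev.2 (by simp)
  obtain ⟨z, hz⟩ := d.mp false _ _ p0 one
  have m := L.com W0 false _ _ z (wdg_open _ _ _) (po_mem hZ (g.gam_comm (c.hN.gam _) hZ) false)
    (one_mem _) p0 one hz
  have h := P352X.D1.pr_wdg j hf
  rw [KDa.rc_zero] at h
  have e := h z m
  rw [L.om, d.tp_star hz p0 one, hz, pot2 L hl hf.1, pot2 L hl hf.bar.1, inner_add_right,
    inner_add_left, star_one, ContinuousLinearMap.one_apply,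
    d.inn_l (pv _ _ (g.par_star p0)) (pv0 c), d.inn_l (pv _ _ (g.par_star p0)) (pv0 c),
    d.inn_l (ev _ hf.bar.1) (pv0 c), d.inn_l (pv0 c) (ev _ hf.bar.1), in1, Grp.perpl hl hf.1,
    ← inner_conj_symm (l (bar f)) c.Om, Grp.perpl hl hf.bar.1] at e
  rw [← po_add (Γ := c.Γ) Z, star_add, ContinuousLinearMap.add_apply, ContinuousLinearMap.add_apply,
    inner_add_left, inner_add_right, g.orth (ev _ hf.bar.1) (pv _ _ p1),
    ← inner_conj_symm (star (po c.Γ true Z) c.Om), g.orth (ev _ hf.1) (pv _ _ (g.par_star p1))]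
  simpa using e

theorem mix : MIX c := fun ξ w h => by
  have d := L.dbl
  have p : Pv c.Γ false ξ := by simpa [Pv] using h
  have e := CA.mix_ctx k (tm w c.Om) (tm ξ c.Om)
  rw [show om k.Q = _ from L.om, d.inn_l p (pv0 c), d.inn_l (pv0 c) (pv0 c), in1, mul_one,
    mul_one] at e
  refine e.congr' (eventually_nhdsWithin_of_forall fun r hr => ?_)
  obtain ⟨p1, p2⟩ := CA.lsc_pos hr
  have q := lf_ug L p1 p2 0
  simp only [← Ug_apply _ p1 p2]
  rw [q.tp, q.vac, d.inn_l p (pv0 c), in1, mul_one]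

end Ds

open Ds in
/-- **The descent.** -/
theorem descend (L : Lk c T k tm) (hT : c.Q.IsStress T) (t : P352X.T1 k) (F : EB.FLOW k) :
    ∃ x : Ctx D, x.toCg = c ∧ x.T = T ∧ E0 x ∧ MIX c ∧
      ∀ s, 0 ≤ s → Tp tm (x.SK s) (x.SK s) (k.SK s) := by
  obtain ⟨l, hl, -⟩ := H246.main hT
  have ex : ∀ s : ℝ, ∃ u, (s ≤ 0 → u = 1) ∧ Lf c.Γ tm c.Om u (k.SK (max s 0)) := fun s => by
    rcases le_or_gt s 0 with h | h
    · exact ⟨1, fun _ => rfl, by rw [max_eq_right h, k.ugK.zero']; exact .one⟩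
    · obtain ⟨u, a, -⟩ := ex_lf L t.grp one_pos h
      exact ⟨u, fun b => absurd h b.not_gt, by rwa [max_eq_left h.le]⟩
  choose u h0 hu using ex
  have hu' : ∀ s, 0 ≤ s → Lf c.Γ tm c.Om (u s) (k.SK s) := fun s hs => by
    simpa only [max_eq_left hs] using hu s
  refine ⟨⟨c, T, u, l, hT, hl, fun s => (hu s).uni, h0 0 le_rfl, fun s => (hu s).vac,
    fun s => (hu s).ev⟩, rfl, rfl, ⟨EG.e0_thm c, fun f s hf hs => flow L hT hl F hs (hu' s hs) hf,
    fun f => prw L t.jc hT hl, dual_row, dens_row (bw L t.grp), fun s hs Z hZ => ?_⟩, mix L,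
    fun s hs => (hu' s hs).tp⟩
  rcases hs.eq_or_lt with rfl | hs'
  · simpa [h0 0 le_rfl] using hZ
  · exact skc L t.grp hs' (hu' s hs) Z hZ

end

end Vale.Agent.N352.G.X
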