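import Vale.Agent.N352.X.Tm

/-!
# N352, block X: rows FS REC (helper71)
-/

set_option linter.all false

open MeasureTheory Filter Topology Metric
open scoped SchwartzMap ComplexConjugate ContDiff

namespace Vale.Agent.N352.G.X

open Vale.Agent.P352 Vale.Agent.P352.GF Vale.Agent.P352.BW Vale.Agent.P352.H246
open Vale.Agent.P352.H496 Vale.Agent.P352.H755 Vale.Agent.P352.H15
open Vale.Agent.P352.SubConf (IsAdj)
open Vale.Agent.P352X Vale.Agent.P352X.EB
open UniformSpace (Completion)

noncomputable section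

variable {D : Type*} [NormedAddCommGroup D] [InnerProductSpace ℂ D] {c : Ctx D} {Λ : Type*}
  {x : Lt c Λ}

section

variable {a : Λ} {f g : Fn} {u : Wd Λ}

namespace Fq

lemma tw_nil : TW ([] : Wd Λ) := fun _ h => nomatch h

lemma tw_cons (hf : IsTest f) (hu : TW u) : TW ((a, f) :: u) := List.forall_mem_cons.2 ⟨hf, hu⟩

lemma in_cut (h : ANA) (R : ℕ) (hf : IsTest f) : In Set.univ (cutf R f) := Ap.in_univ' (h.inn R f hf)

lemma cw_cut (h : ANA) (R : ℕ) (hu : TW u) : CW (cutw R u) :=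
  List.forall_mem_map.2 fun p hp => in_cut h R (hu p hp)

lemma d_ap (o : OPS x) {v : Completion D} (hv : D1 c v) : ∀ {u : Wd Λ}, CW u → D1 c (x.ap u v)
  | [], _ => hv
  | _ :: _, h => o.mem _ _ _ (List.forall_mem_cons.1 h).1 (d_ap o hv (List.forall_mem_cons.1 h).2)

lemma d_cut (t : E1 x) (R : ℕ) (hu : TW u) : D1 c (x.ap (cutw R u) c.Om) :=
  d_ap t.ops t.ops.d_vac (cw_cut t.ana R hu)

lemma bar_cut (R : ℕ) (f : Fn) : bar (cutf R f) = cutf R (bar f) := Ap.bar_rmul _ f

lemma ex_evw : ∀ {u : Wd Λ}, TW u → ∃ w, evw w = u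
  | [], _ => ⟨[], rfl⟩
  | p :: _, h => by
    obtain ⟨g, hg⟩ := (List.forall_mem_cons.1 h).1
    obtain ⟨w, rfl⟩ := ex_evw (List.forall_mem_cons.1 h).2
    exact ⟨(p.1, g) :: w, by simp [evw, hg]⟩

lemma lim1 (e : EXT x) (a : Λ) (hf : IsTest f) (hu : TW u) : Tendsto
    (fun R => x.op a (cutf R f) (x.ap (cutw R u) c.Om)) atTop (𝓝 (x.W ((a, f) :: u))) :=
  e.lim _ (tw_cons hf hu)

lemma test_lin (z : ℂ) (hf : IsTest f) (hg : IsTest g) : IsTest fun y => f y + z * g y := by
  obtain ⟨f, rfl⟩ := hf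
  obtain ⟨g, rfl⟩ := hg
  exact ⟨f + z • g, rfl⟩

end Fq

open Fq

theorem wp_row (t : E1 x) (e : EXT x) : WP x := by
  have o := t.ops
  have lin : ∀ a (f g : Fn) (z : ℂ) u, IsTest f → IsTest g → TW u →
      x.W ((a, fun y => f y + z * g y) :: u) = x.W ((a, f) :: u) + z • x.W ((a, g) :: u) :=
    fun a f g z u hf hg hu => tendsto_nhds_unique (lim1 e a (test_lin z hf hg) hu)
      (((lim1 e a hf hu).add ((lim1 e a hg hu).const_smul z)).congr fun R => by
        rw [← o.lin _ _ _ _ _ (in_cut t.ana R hf) (in_cut t.ana R hg) (d_cut t R hu)]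
        congr 1
        funext y
        simp only [cutf]
        ring)
  refine ⟨e.cw [] (fun _ h => nomatch h), lin, fun a u hu => ?_, fun a f u w hf hu hw => ?_,
    fun a b f g u hf hg s hu => ?_, fun a B B' f u w i hf hu hw => ?_⟩
  · obtain ⟨w, rfl⟩ := ex_evw hu
    obtain ⟨m, C, -, h⟩ := e.bd (a :: w.map Prod.fst)
    refine continuous_iff_continuousAt.2 fun g0 => tendsto_iff_norm_sub_tendsto_zero.2
      (squeeze_zero (fun _ => norm_nonneg _) (g := fun g => C * (ST.sn V ℂ m (g - g0) * snw m w))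
        (fun g => ?_) ?_)
    · have := lin a (ev g0) (ev (g - g0)) 1 _ ⟨_, rfl⟩ ⟨_, rfl⟩ hu
      rw [show (fun y => ev g0 y + 1 * ev (g - g0) y) = ev g from funext fun y => by simp [ev],
        one_smul] at this
      rw [this, add_sub_cancel_left, ← Api4.sn_eq]
      exact h ((a, g - g0) :: w) rfl
    · exact Continuous.tendsto' (continuous_const.mul (((ST.continuous_sn m).comp
        (continuous_id.sub continuous_const)).mul continuous_const)) _ _ (by simp)
  · exact tendsto_nhds_unique ((lim1 e a hf hu).inner (e.lim w hw))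
      (((e.lim u hu).inner (lim1 e _ (Ap.test_bar hf) hw)).congr fun R => by
        rw [o.herm _ _ _ _ (in_cut t.ana R hf) (d_cut t R hu) (d_cut t R hw), bar_cut])
  · exact tendsto_nhds_unique (lim1 e a hf (tw_cons hg hu))
      (((lim1 e b hg (tw_cons hf hu)).const_smul _).congr fun R => (o.loc a b _ _ _ (in_cut t.ana R hf)
        (in_cut t.ana R hg) (fun p hp q hq => s p ((t.ana.inn R f hf).2.2 hp).1 q
          ((t.ana.inn R g hg).2.2 hq).1) (d_cut t R hu)).symm)
  · obtain ⟨G, hG⟩ := Ap.test_bar hf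
    have l := ((Completion.continuous_coe D).tendsto _).comp
      (((c.Q.cont B' w i.2.1).tendsto G).comp (t.ana.lim G))
    rw [hG] at l
    refine tendsto_nhds_unique ((lim1 e a hf hu).inner tendsto_const_nhds)
      (((e.lim u hu).inner l).congr fun R => ?_)
    rw [o.aff _ _ _ _ _ _ i (in_cut t.ana R hf) (d_cut t R hu) hw, bar_cut]
    exact congrArg (fun F => inner ℂ _ ((B' F w : D) : Completion D))
      (Api4.coe_sch (Ap.in_dc (in_cut t.ana R (Ap.test_bar hf))))

namespace Fq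

lemma W_mem (hu : TW u) : x.W u ∈ x.Dn := Submodule.subset_span ⟨u, hu, rfl⟩

lemma ind {P : x.Dn → Prop} (h0 : P 0) (h1 : ∀ v w, P v → P w → P (v + w))
    (h2 : ∀ (z : ℂ) v, P v → P (z • v)) (h3 : ∀ u (hu : TW u), P ⟨x.W u, W_mem hu⟩) (v : x.Dn) :
    P v :=
  Submodule.span_induction (p := fun v hv => P ⟨v, hv⟩) (by rintro _ ⟨u, hu, rfl⟩; exact h3 u hu)
    h0 (fun _ _ _ _ => h1 _ _) (fun z _ _ => h2 z _) v.2

lemma ext {v w : x.Dn} (h : ∀ u, TW u → inner ℂ (v : Completion D) (x.W u) =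
    inner ℂ (w : Completion D) (x.W u)) : v = w :=
  ext_inner_right ℂ (ind (by simp) (fun _ _ p q => by rw [inner_add_right, inner_add_right, p, q])
    (fun z y p => (inner_smul_right v y z).trans (p ▸ (inner_smul_right w y z).symm)) h)

lemma spec (w : WP x) (a : Λ) (hf : IsTest f) (v : x.Dn) : ∀ u, TW u →
    inner ℂ (x.o a f v : Completion D) (x.W u) =
      inner ℂ (v : Completion D) (x.W ((x.dag a, bar f) :: u)) := by
  have h : IsTest f ∧ ∃ z : x.Dn, ∀ u, TW u → inner ℂ (z : Completion D) (x.W u) =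
      inner ℂ (v : Completion D) (x.W ((x.dag a, bar f) :: u)) := by
    refine ⟨hf, ind (P := fun v => ∃ z : x.Dn, ∀ u, TW u → inner ℂ (z : Completion D) (x.W u) =
      inner ℂ (v : Completion D) (x.W ((x.dag a, bar f) :: u))) ⟨0, by simp⟩ ?_ ?_
        (fun u hu => ⟨⟨_, W_mem (tw_cons hf hu)⟩, fun u' => w.herm a f u u' hf hu⟩) v⟩
    · rintro v v' ⟨z, p⟩ ⟨z', q⟩
      exact ⟨z + z', fun u hu => by simp only [Submodule.coe_add, inner_add_left, p u hu, q u hu]⟩
    · rintro s v ⟨z, p⟩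
      exact ⟨s • z, fun u hu => by simp only [Submodule.coe_smul, inner_smul_left, p u hu]⟩
  rw [Lt.o, dif_pos h]
  exact h.2.choose_spec

lemma o_not (hf : ¬ IsTest f) (v : x.Dn) : x.o a f v = 0 := dif_neg fun h => hf h.1

lemma oW (w : WP x) (a : Λ) (hf : IsTest f) (hu : TW u) :
    x.o a f ⟨_, W_mem hu⟩ = ⟨_, W_mem (tw_cons (a := a) hf hu)⟩ :=
  ext fun u' h => (spec w a hf _ u' h).trans (w.herm a f u u' hf hu h).symm

end Fq

theorem fs_row (w : WP x) : FS x := by
  have add : ∀ a f v v', x.o a f (v + v') = x.o a f v + x.o a f v' := fun a f v v' => by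
    by_cases hf : IsTest f
    · exact ext fun u hu => by simp only [Submodule.coe_add, inner_add_left, spec w a hf _ u hu]
    · simp [o_not hf]
  have smul : ∀ a f (z : ℂ) v, x.o a f (z • v) = z • x.o a f v := fun a f z v => by
    by_cases hf : IsTest f
    · exact ext fun u hu => by simp only [Submodule.coe_smul, inner_smul_left, spec w a hf _ u hu]
    · simp [o_not hf]
  have zero : ∀ a f, x.o a f 0 = 0 := fun a f => by simpa using smul a f 0 0
  refine ⟨w.nil ▸ W_mem tw_nil, fun a f u v hf hu e => ?_, add, smul,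
    fun a f g z v hf hg => ext fun u hu => ?_, fun a => Fq.ind ?_ ?_ ?_ fun u hu => ?_,
    fun a f v v' hf => ?_, fun a b f g v hf hg s => ?_, fun a B B' f v y i hf hy => ?_⟩
  · rw [show v = ⟨_, W_mem hu⟩ from Subtype.ext e, oW w a hf hu]
  · rw [spec w a (test_lin z hf hg) _ u hu, show bar (fun y => f y + z * g y) =
      fun y => bar f y + conj z * bar g y from funext fun y => by simp [bar],
      w.lin _ _ _ _ _ (Ap.test_bar hf) (Ap.test_bar hg) hu]
    simp only [Submodule.coe_add, Submodule.coe_smul, inner_add_left, inner_add_right,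
      inner_smul_left, inner_smul_right, spec w a hf _ u hu, spec w a hg _ u hu]
  · simpa only [zero] using continuous_const
  · exact fun v v' p q => by simpa only [add] using p.fun_add q
  · exact fun z v p => by simpa only [smul] using p.fun_const_smul z
  · simpa only [oW w a ⟨_, rfl⟩ hu] using (w.cont a u hu).subtype_mk _
  · induction v' using Fq.ind with
    | h0 => simp [zero]
    | h1 _ _ p q => rw [add, inner_add_right, inner_add_right, p, q]
    | h2 z y p =>
      rw [smul]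
      exact (inner_smul_right _ y z).trans (p ▸ (inner_smul_right v _ z).symm)
    | h3 u hu =>
      rw [oW w _ (Ap.test_bar hf) hu]
      exact spec w a hf v u hu
  · induction v using Fq.ind with
    | h0 => simp [zero]
    | h1 _ _ p q => simp only [add, p, q, smul_add]
    | h2 z _ p => simp only [smul, p, smul_comm z]
    | h3 u hu =>
      rw [oW w _ hf hu, oW w _ hg hu, oW w _ hf (tw_cons hg hu), oW w _ hg (tw_cons hf hu)]
      exact Subtype.ext (w.loc a b f g u hf hg s hu)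
  · induction v using Fq.ind with
    | h0 => simp [zero]
    | h1 _ _ p q => simp only [add, Submodule.coe_add, inner_add_left, p, q]
    | h2 _ _ p => simp only [smul, Submodule.coe_smul, inner_smul_left, p]
    | h3 u hu =>
      rw [oW w _ hf hu]
      exact w.aff a B B' f u y i hf hu hy
end

namespace Rq

theorem ud (v : CV x) {s : ℝ} {L : Ix → V} (hs : 0 < s) (hL : IsLor L) (a : V) (w : x.Dn) :
    (x.Ud s L a w : Completion D) = Ug c.Q s L a w := by
  have h : Ug c.Q s L a w ∈ x.Dn := v.mem ⟨⟨s, L, a, hs, hL⟩, false⟩ w w.2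
  rw [Lt.Ud, dif_pos h]

theorem o_sum (f : FS x) (a : Λ) (g : Fn) {n : ℕ} (w : Fin n → x.Dn) :
    x.o a g (∑ i, w i) = ∑ i, x.o a g (w i) :=
  map_sum (AddMonoidHom.mk' (x.o a g) (f.add a g)) w _

theorem fs_one {P : Λ → Prop} {a : Λ} (h : P a) : x.Fs P (x.o a) :=
  ⟨1, fun _ => a, fun _ => h, by simp⟩

theorem tra (v : CV x) (a : Λ) (y : V) {f : Fn} (hf : IsTest f) (w : x.Dn) :
    (x.o a f (x.Ud 1 GF.one y w) : Completion D) =
      Ug c.Q 1 GF.one y (x.o a (fun z => f (sim 1 GF.one y z)) w) := by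
  have := v.cov a ⟨⟨1, GF.one, y, one_pos, H496.isLor_one⟩, false⟩ 1 (fun _ => 1) (fun _ => a) f w _
    (fun g hg => by
      rw [Fin.sum_univ_one, map_one, one_smul]
      exact x.tra (x.dag a) y g hg) hf (ud v one_pos H496.isLor_one y w)
  rwa [Fin.sum_univ_one, one_smul] at this

theorem gd (s : SG c.toCg) (v : CV x) (w : x.Dn) : (x.Gd w : Completion D) = c.Γ w := by
  have h := v.mem (EG.Sh.gm c.toCg true) w w.2
  rw [(s.gm true).1] at h
  rw [Lt.Gd, dif_pos (show c.Γ w ∈ x.Dn from h)]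

theorem gg (s : SG c.toCg) (z : Completion D) : c.Γ (c.Γ z) = z := DFunLike.congr_fun s.g2 z

theorem par (s : SG c.toCg) (v : CV x) (a : Λ) {f : Fn} (hf : IsTest f) (w : x.Dn) :
    (x.o a f (x.Gd w) : Completion D) = sg (x.p a) • c.Γ (x.o a f w) := by
  have e : ∀ g, (EG.Sh.gm c.toCg true).pull g = g := fun g => funext fun y => congrArg g ((s.gm true).2 y)
  have := v.cov a (EG.Sh.gm c.toCg true) 1 (fun _ => sg (x.p a)) (fun _ => a) f w (x.Gd w)
    (fun g hg => by
      rw [Fin.sum_univ_one, e, (s.gm true).1]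
      show _ = _ • c.Γ _
      rw [x.par _ g hg, x.pdag]
      cases x.p a <;> simp [sg]) hf (by rw [gd s v, (s.gm true).1]; rfl)
  rwa [Fin.sum_univ_one, e, (s.gm true).1] at this

/-- the part of parity `e` -/
def prt (e : Bool) {n : ℕ} (b : Fin n → Λ) : Fld x.Dn := fun f w =>
  ∑ i with x.p (b i) = e, x.o (b i) f w

theorem prt_fs {P : Λ → Prop} (e : Bool) {n : ℕ} {b : Fin n → Λ} (hb : ∀ i, P (b i)) :
    x.Fs P (prt e b) := by
  let S := Finset.univ.filter fun i => x.p (b i) = e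
  refine ⟨S.card, fun j => b (S.equivFin.symm j), fun _ => hb _, ?_⟩
  funext f w
  rw [prt, ← Finset.sum_coe_sort]
  exact (S.equivFin.symm.sum_comp fun i => x.o (b i) f w).symm

theorem prt_par (s : SG c.toCg) (v : CV x) (e : Bool) {n : ℕ} (b : Fin n → Λ) {f : Fn} (hf : IsTest f)
    (w : x.Dn) : prt e b f (x.Gd w) = sg e • x.Gd (prt e b f w) := Subtype.ext <| by
  simp only [prt, Submodule.coe_sum, Submodule.coe_smul, gd s v, map_sum, Finset.smul_sum]
  refine Finset.sum_congr rfl fun i hi => ?_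
  rw [par s v _ hf, (Finset.mem_filter.1 hi).2]

theorem split (e : Bool) {n : ℕ} (b : Fin n → Λ) (f : Fn) (w : x.Dn) :
    ∑ i, x.o (b i) f w = prt e b f w + prt (!e) b f w := by
  rw [← Finset.sum_filter_add_sum_filter_not _ fun i => x.p (b i) = e]
  simp only [prt, Bool.eq_not]

theorem pure (s : SG c.toCg) (v : CV x) (e : Bool) {n : ℕ} (b : Fin n → Λ) {f : Fn} (hf : IsTest f)
    (w : x.Dn) (h : ∑ i, x.o (b i) f (x.Gd w) = sg e • x.Gd (∑ i, x.o (b i) f w)) :
    ∑ i, x.o (b i) f w = prt e b f w := by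
  rw [split e, split e, prt_par s v _ _ hf, prt_par s v _ _ hf] at h
  have h1 := congrArg (fun z : x.Dn => c.Γ z) h
  simp only [Submodule.coe_add, Submodule.coe_smul, gd s v, map_add, map_smul, gg s, smul_add,
    add_right_inj] at h1
  have h2 : (prt (!e) b f w : Completion D) = 0 := by
    have : (sg (!e) - sg e) • (prt (!e) b f w : Completion D) = 0 := by rw [sub_smul, h1, sub_self]
    refine (smul_eq_zero.1 this).resolve_left ?_
    cases e <;> norm_num [sg]
  rw [split e, show prt (!e) b f w = 0 from Subtype.ext h2, add_zero]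

theorem comm (f : FS x) {n m : ℕ} (b : Fin n → Λ) (b' : Fin m → Λ) (S : Finset (Fin n))
    (S' : Finset (Fin m)) (z : ℂ) (h : ∀ i ∈ S, ∀ j ∈ S', x.sn (b i) (b' j) = z) {g k : Fn}
    (hg : IsTest g) (hk : IsTest k) (hs : Sep g k) (w : x.Dn) :
    ∑ i ∈ S, x.o (b i) g (∑ j ∈ S', x.o (b' j) k w) =
      z • ∑ j ∈ S', x.o (b' j) k (∑ i ∈ S, x.o (b i) g w) := by
  have e : ∀ a g {n} (S : Finset (Fin n)) (w : Fin n → x.Dn), x.o a g (∑ i ∈ S, w i) =
      ∑ i ∈ S, x.o a g (w i) := fun a g _ S w =>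
    map_sum (AddMonoidHom.mk' (x.o a g) (f.add a g)) w _
  simp only [e, Finset.smul_sum]
  rw [Finset.sum_comm]
  exact Finset.sum_congr rfl fun j hj => Finset.sum_congr rfl fun i hi => by
    rw [f.loc _ _ g k w hg hk hs, h i hi j hj]

theorem extD {A B : Completion D →L[ℂ] Completion D} (h : ∀ w : D, A w = B w) (z : Completion D) :
    A z = B z :=
  Completion.induction_on z (isClosed_eq A.continuous B.continuous) h

end Rq

open Rq in
theorem rec_row (t : E0 c) (f : FS x) (v : CV x) : REC x := fun P hP hc => by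
  have s := t.sg
  let Q' : Theory x.Dn :=
    { vac := ⟨c.Om, f.vac⟩
      fld := x.Fs P
      bose := fun B => x.Fs P B ∧ ∀ f v, IsTest f → B f (x.Gd v) = x.Gd (B f v)
      U := x.Ud
      norm_vac := (Completion.norm_coe c.Q.vac).trans c.Q.norm_vac
      cyclic := fun S h0 h => hc S (fun w hw => by rwa [show w = ⟨c.Om, f.vac⟩ from Subtype.ext hw])
        fun a g w ha => h _ g w (fs_one ha)
      lin := by
        rintro _ g k z w ⟨n, b, -, rfl⟩ hg hk
        simp only [f.lin _ g k z w hg hk, Finset.sum_add_distrib, Finset.smul_sum]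
      cont := by
        rintro _ w ⟨n, b, -, rfl⟩
        exact continuous_finset_sum _ fun i _ => f.cont _ w
      adj := by
        rintro _ ⟨n, b, hb, rfl⟩
        refine ⟨_, ⟨n, fun i => x.dag (b i), fun i => hP _ (hb i), rfl⟩, fun g w w' hg => ?_⟩
        simp only [sum_inner, inner_sum, f.herm _ g w w' hg]
      bose_fld := fun _ h => h.1
      loc := by
        rintro _ _ g k w ⟨⟨n, b, -, rfl⟩, h⟩ ⟨m, b', -, rfl⟩ hg hk hs
        have e : ∀ w, ∑ i, x.o (b i) g w = prt false b g w := fun w =>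
          pure s v false b hg w ((h g w hg).trans (one_smul _ _).symm)
        show ∑ i, x.o (b i) g _ = ∑ j, x.o (b' j) k (∑ i, x.o (b i) g w)
        rw [e, e]
        exact (comm f b b' _ _ 1 (fun i hi j _ => by
          rw [Lt.sn, (Finset.mem_filter.1 hi).2]; rfl) hg hk hs w).trans (one_smul _ _)
      U_inner := fun r L a w w' hs hL => by
        rw [Submodule.coe_inner, Submodule.coe_inner, ud v hs hL, ud v hs hL]
        exact ContinuousLinearMap.inner_map_map_of_mem_unitary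
          (s.uni ⟨⟨r, L, a, hs, hL⟩, false⟩) _ _
      U_vac := fun r L a hs hL =>
        Subtype.ext ((ud v hs hL a _).trans (s.vac ⟨⟨r, L, a, hs, hL⟩, false⟩).1)
      transl := by
        rintro _ a g w ⟨n, b, -, rfl⟩ hg
        refine Subtype.ext ?_
        simp only [ud v one_pos H496.isLor_one, Submodule.coe_sum, map_sum, tra v _ a hg]
      spectrum := fun w => by
        obtain ⟨ν, h1, h2, h3⟩ := s.spec w
        exact ⟨ν, h1, h2, fun a => by
          rw [Submodule.coe_inner, ud v one_pos H496.isLor_one]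
          exact h3 a⟩ }
  refine ⟨Q', rfl, rfl, fun _ => Iff.rfl, fun _ => Iff.rfl, fun w => Subtype.ext ?_,
    fun w w' => ?_, fun B g w h hg => h.2 g w hg, ?_, ?_, fun r L a w hs hL => Subtype.ext ?_,
    fun r L a r' L' a' hs hs' hL hL' => ?_⟩
  · rw [Rq.gd s v, Rq.gd s v, gg s]
  · rw [Submodule.coe_inner, Submodule.coe_inner, Rq.gd s v, Rq.gd s v, ← inner_star, s.gs]
  · rintro _ ⟨n, b, hb, rfl⟩
    exact ⟨prt false b, prt true b, ⟨prt_fs _ hb, fun g w hg => (prt_par s v _ b hg w).trans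
      (one_smul _ _)⟩, ⟨prt_fs _ hb, fun g w hg => (prt_par s v _ b hg w).trans (neg_one_smul ℂ _)⟩,
      fun g w _ => split false b g w⟩
  · rintro _ _ g k w ⟨⟨n, b, -, rfl⟩, h⟩ ⟨⟨m, b', -, rfl⟩, h'⟩ hg hk hs
    have e : ∀ w, ∑ i, x.o (b i) g w = prt true b g w := fun w =>
      pure s v true b hg w ((h g w hg).trans (neg_one_smul ℂ _).symm)
    have e' : ∀ w, ∑ i, x.o (b' i) k w = prt true b' k w := fun w =>
      pure s v true b' hk w ((h' k w hk).trans (neg_one_smul ℂ _).symm)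
    show ∑ i, x.o (b i) g (∑ j, x.o (b' j) k w) = -∑ j, x.o (b' j) k (∑ i, x.o (b i) g w)
    rw [e, e, e', e']
    exact (comm f b b' _ _ (-1) (fun i hi j hj => by
      rw [Lt.sn, (Finset.mem_filter.1 hi).2, (Finset.mem_filter.1 hj).2]; rfl) hg hk hs w).trans
        (neg_one_smul ℂ _)
  · show (x.Ud r L a _ : Completion D) = x.Gd (x.Ud r L a w)
    rw [ud v hs hL, Rq.gd s v, Rq.gd s v, ud v hs hL]
    exact (DFunLike.congr_fun (s.gU ⟨⟨r, L, a, hs, hL⟩, false⟩) w.1).symm
  · have hs2 := mul_pos hs hs'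
    have hL2 := ue_lor hL hL'
    refine (c.hN.mul r L a r' L' a' hs hs' hL hL').imp (fun h w => Subtype.ext ?_)
      fun h => ⟨h.1, h.2.1, fun w => Subtype.ext ?_⟩
    · show (x.Ud r L a (x.Ud r' L' a' w) : Completion D) = x.Ud _ _ _ w
      rw [ud v hs hL, ud v hs' hL', ud v hs2 hL2]
      refine extD (A := Ug c.Q r L a * Ug c.Q r' L' a') (fun u => ?_) _
      rw [ContinuousLinearMap.mul_apply, s.coe _ _ _ _ hs' hL', s.coe _ _ _ _ hs hL, h,
        s.coe _ _ _ _ hs2 hL2]
    · show (x.Ud r L a (x.Ud r' L' a' w) : Completion D) = x.Gd (x.Ud _ _ _ w)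
      rw [Rq.gd s v, ud v hs hL, ud v hs' hL', ud v hs2 hL2]
      refine extD (A := Ug c.Q r L a * Ug c.Q r' L' a') (B := c.Γ * _) (fun u => ?_) _
      rw [ContinuousLinearMap.mul_apply, s.coe _ _ _ _ hs' hL', s.coe _ _ _ _ hs hL, h.2.2,
        ContinuousLinearMap.mul_apply, s.coe _ _ _ _ hs2 hL2, c.hN.ext]
end

end Vale.Agent.N352.G.X
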