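import Vale.Agent.N352.X.Wb
import Vale.Agent.N352.X.Rec
import Vale.Agent.P352NA.AFW

/-!
# N352, block X: rows OPS and AFW (helper71)
-/

set_option linter.all false

open MeasureTheory Filter Topology Set
open scoped SchwartzMap ComplexConjugate

namespace Vale.Agent.N352.G.X

open Vale.Agent.P352 Vale.Agent.P352.GF Vale.Agent.P352.BW Vale.Agent.P352.H246
open Vale.Agent.P352.H496 Vale.Agent.P352.H755 Vale.Agent.P352.H15
open Vale.Agent.P352.SubConf (IsAdj)
open Vale.Agent.P352X Vale.Agent.P352X.EB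
open Vale.Agent.P352X.EB.NA (rv_append rv_cons rv_rv length_rv rv_eq_nil Sl adj_lin)
open UniformSpace (Completion)
open Bornology (IsBounded)

noncomputable section

section

variable {D : Type*} [NormedAddCommGroup D] [InnerProductSpace ℂ D] {c : Ctx D} {Λ : Type*}
  {K K' : Set V} {e e' : Bool} {ξ ξ' η η' v w : Completion D}

namespace Op

theorem d_wv {σ : List Bool} {u} (hK : IsCompact K) (h : Tw c K σ u) : D1 c (wv c u) :=
  Submodule.subset_span ⟨K, σ, u, hK, h, rfl⟩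

theorem ind {P : Completion D → Prop} (h0 : P 0) (h1 : ∀ v w, D1 c v → D1 c w → P v → P w → P (v + w))
    (h2 : ∀ (z : ℂ) v, D1 c v → P v → P (z • v))
    (h3 : ∀ K σ u, IsCompact K → Tw c K σ u → P (wv c u)) (hv : D1 c v) : P v :=
  Submodule.span_induction (p := fun v _ => P v)
    (by rintro _ ⟨K, σ, u, a, b, rfl⟩; exact h3 K σ u a b) h0 h1 h2 hv

variable (t : E2 c)
include t

theorem sh (n m : ℕ) : Shw c n m := fun K w h => let ⟨σ, _, a⟩ := h.ty; t.wrd K σ w h.cpt a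

theorem ok {σ : List Bool} {u} (hK : IsCompact K) (h : Tw c K σ u) :
    Ok c (σ.count true) u.length K u := ⟨hK, ⟨σ, le_rfl, h⟩, le_rfl⟩

theorem key (hv : D1 c v) : ∃ K0, IsCompact K0 ∧ ∀ K e p, IsCompact K → Ty c K e p →
    Rl c.toCg (K ∪ K0) p.2 v (ml c.toCg p.2 v) ∧ D1 c (ml c.toCg p.2 v) := by
  refine ind (P := fun v => ∃ K0, IsCompact K0 ∧ ∀ K e p, IsCompact K → Ty c K e p →
    Rl c.toCg (K ∪ K0) p.2 v (ml c.toCg p.2 v) ∧ D1 c (ml c.toCg p.2 v))
    ⟨∅, isCompact_empty, fun K e p hK _ => ?_⟩ ?_ ?_ (fun K0 σ u a b => ⟨K0, a, fun K e p hK h => ?_⟩)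
    hv
  · rw [EG.Mu1.eq t.sg hK.isBounded Rl.zero_r]
    exact ⟨Rl.zero_r, zero_mem _⟩
  · rintro v w - - ⟨K1, a1, b1⟩ ⟨K2, a2, b2⟩
    refine ⟨_, a1.union a2, fun K e p hK h => ?_⟩
    have := Rl.lin_r 1 (Rl.mono (b1 K e p hK h).1 (union_subset_union_right K subset_union_left))
      (Rl.mono (b2 K e p hK h).1 (union_subset_union_right K (subset_union_right (s := K1))))
    simp only [one_smul] at this
    rw [EG.Mu1.eq t.sg (hK.union (a1.union a2)).isBounded this]
    exact ⟨this, add_mem (b1 K e p hK h).2 (b2 K e p hK h).2⟩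
  · rintro z v - ⟨K1, a1, b1⟩
    refine ⟨_, a1, fun K e p hK h => ?_⟩
    have := Rl.lin_r z Rl.zero_r (b1 K e p hK h).1
    simp only [zero_add] at this
    rw [EG.Mu1.eq t.sg (hK.union a1).isBounded this]
    exact ⟨this, Submodule.smul_mem _ _ (b1 K e p hK h).2⟩
  · have k : Tw c (K ∪ K0) (e :: σ) (p :: u) :=
      .cons (h.mono subset_union_left) (b.mono subset_union_right)
    exact ⟨(sh t _ _).step t.toE0 t.cov (ok t (hK.union a) k), d_wv (hK.union a) k⟩

theorem mem (hK : IsCompact K) (h : Ty c K e (ξ, ξ')) (hv : D1 c v) : D1 c (ml c.toCg ξ' v) :=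
  let ⟨_, _, b⟩ := key t hv; (b K e _ hK h).2

theorem lin_r (hK : IsCompact K) (h : Ty c K e (ξ, ξ')) (z : ℂ) (hv : D1 c v) (hw : D1 c w) :
    ml c.toCg ξ' (v + z • w) = ml c.toCg ξ' v + z • ml c.toCg ξ' w := by
  obtain ⟨K1, a1, b1⟩ := key t hv
  obtain ⟨K2, a2, b2⟩ := key t hw
  exact EG.Mu1.eq t.sg (hK.union (a1.union a2)).isBounded (Rl.lin_r z
    (Rl.mono (b1 K e _ hK h).1 (union_subset_union_right K subset_union_left))
    (Rl.mono (b2 K e _ hK h).1 (union_subset_union_right K subset_union_right)))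

theorem zero : ml c.toCg w 0 = 0 := EG.Mu1.eq t.sg Bornology.isBounded_empty Rl.zero_r

theorem add (hK : IsCompact K) (h : Ty c K e (ξ, ξ')) (hv : D1 c v) (hw : D1 c w) :
    ml c.toCg ξ' (v + w) = ml c.toCg ξ' v + ml c.toCg ξ' w := by simpa using lin_r t hK h 1 hv hw

theorem smul (hK : IsCompact K) (h : Ty c K e (ξ, ξ')) (z : ℂ) (hv : D1 c v) :
    ml c.toCg ξ' (z • v) = z • ml c.toCg ξ' v := by simpa [zero t] using lin_r t hK h z (zero_mem _) hv

theorem herm (hK : IsCompact K) (h : Ty c K e (ξ, ξ')) (hv : D1 c v) (hw : D1 c w) :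
    inner ℂ (ml c.toCg ξ' v) w = inner ℂ v (ml c.toCg ξ w) := by
  have h' : Ty c K e (ξ', ξ) := h.swap
  refine ind (P := fun v => inner ℂ (ml c.toCg ξ' v) w = inner ℂ v (ml c.toCg ξ w)) (by simp [zero t])
    (fun _ _ a b x y => by rw [add t hK h a b, inner_add_left, inner_add_left, x, y])
    (fun z _ a x => by rw [smul t hK h z a, inner_smul_left, inner_smul_left, x])
    (fun K1 σ u a b => ?_) hv
  refine ind (P := fun w => inner ℂ (ml c.toCg ξ' (wv c u)) w = inner ℂ (wv c u) (ml c.toCg ξ w))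
    (by simp [zero t])
    (fun _ _ a b x y => by rw [add t hK h' a b, inner_add_right, inner_add_right, x, y])
    (fun z _ a x => by rw [smul t hK h' z a, inner_smul_right, inner_smul_right, x])
    (fun K2 τ u' a' b' => ?_) hw
  have k := (hK.union a).union a'
  have s := t.wrd _ _ _ k ((Tw.rev (.cons (h.mono (subset_union_left.trans subset_union_left))
    (b.mono (subset_union_right.trans subset_union_left)))).append (b'.mono subset_union_right))
  have s1 := Rl.inner t.sg k.isBounded (s _ _ rfl)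
  have s2 := Rl.inner t.sg k.isBounded (s (rv u) ((ξ', ξ) :: u') (by simp [rv_cons]))
  rw [rv_rv] at s1 s2
  exact s1.symm.trans s2

theorem loc (hK : IsCompact K) (hK' : IsCompact K') (s : Sl K K') (h : Ty c K e (ξ, ξ'))
    (h' : Ty c K' e' (η, η')) {r r' : Bool} (p : Pe c r (ξ, ξ')) (p' : Pe c r' (η, η'))
    (q : e = true → r = false) (q' : e' = true → r' = false) (hv : D1 c v) :
    ml c.toCg ξ' (ml c.toCg η' v) = sg (r && r') • ml c.toCg η' (ml c.toCg ξ' v) := by
  refine ind (P := fun v => ml c.toCg ξ' (ml c.toCg η' v) =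
    sg (r && r') • ml c.toCg η' (ml c.toCg ξ' v)) (by simp [zero t])
    (fun _ _ a b x y => by rw [add t hK h a b, add t hK' h' a b, add t hK h (mem t hK' h' a)
      (mem t hK' h' b), add t hK' h' (mem t hK h a) (mem t hK h b), x, y, smul_add])
    (fun z _ a x => by rw [smul t hK h z a, smul t hK' h' z a, smul t hK h z (mem t hK' h' a),
      smul t hK' h' z (mem t hK h a), x, smul_comm]) (fun K1 σ u a b => ?_) hv
  have k := (hK.union hK').union a
  have x := h.mono (K' := K ∪ K' ∪ K1) (subset_union_left.trans subset_union_left)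
  have y := h'.mono (K' := K ∪ K' ∪ K1) (subset_union_right.trans subset_union_left)
  have z := b.mono (K' := K ∪ K' ∪ K1) subset_union_right
  have s1 := t.wrd _ _ _ k (.cons x (.cons y z)) [_, _] u rfl
  have s2 := Rl.lin_l (sg (r && r')) Rl.zero_l (t.wrd _ _ _ k (.cons y (.cons x z)) [_, _] u rfl)
  rw [show rv [(ξ, ξ'), (η, η')] = [(η, η').swap, (ξ, ξ').swap] from rfl,
    t.loc K' K e' e _ _ r' r hK' hK s.symm h'.swap h.swap p'.symm p.symm q' q, Bool.and_comm] at s1
  rw [zero_add, zero_add, conj_sg] at s2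
  exact Rl.uniq t.sg k.isBounded s1 s2

theorem d_U (g : Sh c.toCg) (hv : D1 c v) : D1 c (g.U c.toCg v) :=
  ind (P := fun v => D1 c (g.U c.toCg v)) (by rw [map_zero]; exact zero_mem _)
    (fun _ _ _ _ x y => by rw [map_add]; exact add_mem x y)
    (fun z _ _ x => by rw [map_smul]; exact Submodule.smul_mem _ _ x)
    (fun K σ u a b => by
      rw [← (sh t _ _).wv_U t.toE0 t.cov (ok t a b)]
      exact d_wv (a.image g.cont) (b.U t.toE0 t.cov g)) hv

omit t in
theorem rl_sum (s : SG c.toCg) {ι : Type*} (S : Finset ι) (κ : ι → ℂ) {ξ ζ : ι → Completion D}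
    (h : ∀ i, ∃ K, IsBounded K ∧ Rl c.toCg K (ξ i) v (ζ i)) :
    ∃ K, IsBounded K ∧ Rl c.toCg K (∑ i ∈ S, conj (κ i) • ξ i) v (∑ i ∈ S, κ i • ζ i) := by
  classical
  induction S using Finset.induction_on with
  | empty => exact ⟨∅, Bornology.isBounded_empty, Rl.zero_l⟩
  | insert i S hi ih =>
    obtain ⟨K, a, b⟩ := ih
    obtain ⟨K', a', b'⟩ := h i
    simp only [Finset.sum_insert hi, add_comm (_ • _)]
    exact ⟨_, a.union a', Rl.lin_l _ (Rl.mono b subset_union_left) (Rl.mono b' subset_union_right)⟩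

omit t in
theorem cq {f : Fn} (hf : In univ f) : IsCompact (tsupport f) := hf.2.1

omit t in
theorem ty (x : Lt c Λ) (a : Λ) {f : Fn} (hf : In univ f) :
    Ty c (tsupport f) (x.ty a).choose (x.φ a f, x.φ (x.dag a) (bar f)) :=
  (x.ty a).choose_spec.2 _ f (Ops.in_self hf)

theorem rl (x : Lt c Λ) (a : Λ) {f : Fn} (hf : In univ f) (hv : D1 c v) :
    ∃ K, IsBounded K ∧ Rl c.toCg K (x.φ (x.dag a) (bar f)) v (x.op a f v) :=
  let ⟨_, a1, b⟩ := key t hv
  ⟨_, ((cq hf).union a1).isBounded, (b _ _ _ (cq hf) (ty x a hf)).1⟩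

theorem op_lin (x : Lt c Λ) (a : Λ) {f g : Fn} (z : ℂ) (hf : In univ f) (hg : In univ g)
    (hv : D1 c v) : x.op a (fun y => f y + z * g y) v = x.op a f v + z • x.op a g v := by
  have e : bar (fun y => f y + z * g y) = fun y => bar f y + conj z * bar g y := by
    funext y; simp [bar]
  obtain ⟨K, a1, b⟩ := rl t x a hf hv
  obtain ⟨K', a2, b'⟩ := rl t x a hg hv
  rw [Lt.op, e, x.lin _ _ _ _ hf.bar.1 hg.bar.1]
  exact EG.Mu1.eq t.sg (a1.union a2)
    (Rl.lin_l _ (Rl.mono b subset_union_left) (Rl.mono b' subset_union_right))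

theorem op_herm (x : Lt c Λ) (a : Λ) {f : Fn} (hf : In univ f) (hv : D1 c v) (hw : D1 c w) :
    inner ℂ (x.op a f v) w = inner ℂ v (x.op (x.dag a) (bar f) w) := by
  unfold Lt.op
  rw [x.dag2, Ap.bar_bar]
  exact herm t (cq hf) (ty x a hf) hv hw

theorem op_cont (x : Lt c Λ) (a : Λ) (R : ℕ) (hv : D1 c v) :
    Continuous fun f : Sch => x.op a (cutf R (ev f)) v := by
  have hi : ∀ f : Sch, In (Metric.closedBall 0 (2 * ((R : ℝ) + 1))) (cutf R (ev f)) := fun f =>
    Ap.in_mono (t.ana.inn R _ (Ap.test_ev f)) inter_subset_right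
  let Ψ := EG.H.JBp.mkL (fun f => x.op a (cutf R (ev f)) v) fun f g z => by
    rw [← op_lin t x a z (Ap.in_univ' (hi f)) (Ap.in_univ' (hi g)) hv]
    congr 1
    funext y
    simp [cutf, ev]
    ring
  obtain ⟨K, hK, hL⟩ := key t hv
  have hB := isCompact_closedBall (0 : V) (2 * ((R : ℝ) + 1))
  obtain ⟨g, hg⟩ := t.sg.ex _ (hB.union hK).isBounded
  have hZ : Dense (g.inv.U c.toCg '' {z | ∃ Y ∈ (M0 c.toCg).commutant, Y c.Om = z}) :=
    DenseRange.dense_image (Function.Surjective.denseRange fun z => ⟨_, Cq.inv_U t.sg g z⟩)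
      (g.inv.U c.toCg).continuous t.sg.dense
  haveI := t.ana.barr
  refine cont_of_weak Ψ hZ ?_
  rintro _ ⟨_, ⟨Y, hY, rfl⟩, rfl⟩
  obtain ⟨P, hP⟩ := t.ana.clm R
  let B : Sch →L[ℝ] Sch := SchwartzMap.postcompCLM (𝕜 := ℝ) Complex.conjCLE.toContinuousLinearMap
  have hB' : ∀ f, ev (B f) = bar (ev f) := fun f => rfl
  have e : ∀ f : Sch, inner ℂ (g.inv.U c.toCg (Y c.Om)) (Ψ f) =
      inner ℂ (Y (g.U c.toCg (x.φ (x.dag a) (ev (B (P f)))))) (g.U c.toCg v) := by
    intro f
    have h1 := (hL _ _ _ hB ((x.ty a).choose_spec.2 _ _ (hi f))).1 g hg Y hY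
    rw [hB', hP, ← h1, t.sg.U_inv, ContinuousLinearMap.star_eq_adjoint,
      ContinuousLinearMap.adjoint_inner_left]
    rfl
  simp only [e]
  exact (Y.continuous.comp ((g.U c.toCg).continuous.comp ((x.cont (x.dag a)).comp
    (B.continuous.comp P.continuous)))).inner continuous_const

theorem cont_adj {Y Y' : D → D} (h : ∀ v w, inner ℂ (Y v) w = inner ℂ v (Y' w)) {A : Fld D}
    (hA : c.Q.fld A) (y : D) : Continuous fun g : Sch => ((Y' (A (ev g) y) : D) : Completion D) := by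
  have l := adj_lin (X := Y') (X' := Y) fun v w => by rw [← inner_conj_symm, ← h, inner_conj_symm]
  haveI := t.ana.barr
  refine cont_of_weak (EG.H.JBp.mkL (fun g => ((Y' (A (ev g) y) : D) : Completion D)) fun f g z => by
    rw [show ev (f + z • g) = fun x => ev f x + z * ev g x from rfl,
      c.Q.lin A _ _ z y hA ⟨f, rfl⟩ ⟨g, rfl⟩, l.1, l.2, Completion.coe_add, Completion.coe_smul])
    Completion.denseRange_coe ?_
  rintro _ ⟨u, rfl⟩
  show Continuous fun g : Sch => inner ℂ (u : Completion D) ((Y' (A (ev g) y) : D) : Completion D)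
  simp only [Completion.inner_coe, ← h]
  exact continuous_const.inner (c.Q.cont A y hA)

theorem ml_coe {B B' : Fld D} {f : Fn} (a : c.Q.fld B) (b : c.Q.fld B') (d : IsAdj B B')
    (hf : In univ f) (y : D) : ml c.toCg (B' (bar f) c.Q.vac : D) y = (B f y : D) :=
  EG.Mu1.eq t.sg (cq hf).isBounded (rl_afs t.toE0
    (t.grp.affa _ _ _ (.fld B B' f _ _ a b d (Ops.in_self hf) .one)) y)

theorem d_al {X X' : D → D} (h : Al c.Q univ X X') : ∀ y : D, D1 c y → D1 c (X' y : D) := by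
  induction h with
  | one => exact fun _ h => h
  | add _ _ _ _ _ _ a b => exact fun y h => by rw [Completion.coe_add]; exact add_mem (a y h) (b y h)
  | smul z _ _ _ a =>
    exact fun y h => by rw [Completion.coe_smul]; exact Submodule.smul_mem _ _ (a y h)
  | fld A B g _ _ a b d hg _ k =>
    refine fun y h => k _ ?_
    rw [← ml_coe t b a (H755.adj_symm d) hg.bar]
    exact mem t (cq hg.bar) (e := false) (Tr.fld B A _ b a (H755.adj_symm d) (Ops.in_self hg.bar)) h

theorem aff {B B' : Fld D} {f : Fn} (a : c.Q.fld B) (b : c.Q.fld B') (d : IsAdj B B')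
    (hf : In univ f) (hv : D1 c v) {y : D} (hy : Cyc c.Q y) :
    inner ℂ (ml c.toCg (B' (bar f) c.Q.vac : D) v) (y : Completion D) =
      inner ℂ v ((B' (bar f) y : D) : Completion D) := by
  have l : ∀ {X X'}, Al c.Q univ X X' → (∀ v w, X' (v + w) = X' v + X' w) ∧
      ∀ (z : ℂ) v, X' (z • v) = z • X' v := fun h => adj_lin fun v w => by
    rw [← inner_conj_symm, ← (t.grp.affa _ _ _ h).1, inner_conj_symm]
  have l' := l (.fld B B' f _ _ a b d hf .one)
  let S : Submodule ℂ D :=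
    { carrier := {y | ∀ X X', Al c.Q univ X X' → inner ℂ (ml c.toCg (B' (bar f) c.Q.vac : D) v)
        ((X' y : D) : Completion D) = inner ℂ v ((B' (bar f) (X' y) : D) : Completion D)}
      add_mem' := fun h h' X X' k => by
        simp only [(l k).1, l'.1, Completion.coe_add, inner_add_right, h X X' k, h' X X' k]
      zero_mem' := fun X X' k => by
        have a := (l k).2 0 0
        have b := l'.2 0 0
        simp only [zero_smul] at a b
        simp [a, b, Completion.coe_zero]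
      smul_mem' := fun z _ h X X' k => by
        simp only [(l k).2, l'.2, Completion.coe_smul, inner_smul_right, h X X' k] }
  refine hy S (fun X X' k => ?_) ?_ (fun v => v) (fun v => v) .one
  · have y : Ty c (tsupport f) false (((B f c.Q.vac : D) : Completion D),
        ((B' (bar f) c.Q.vac : D) : Completion D)) := Tr.fld B B' f a b d (Ops.in_self hf)
    have z := ml_coe t b a (H755.adj_symm d) hf.bar (X' c.Q.vac)
    rw [Ap.bar_bar] at z
    rw [← z]
    exact herm t (cq hf) y hv (d_al t k _ (d_wv isCompact_empty (u := []) .nil))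
  rintro A _ u hA ⟨G, rfl⟩ hu X X' k
  obtain ⟨A', hA', d'⟩ := c.Q.adj A hA
  have k1 := (t.grp.affa _ _ _ k).1
  have c1 := (cont_adj t k1 hA u).tendsto G
  have c2 := (cont_adj t (Y := fun v => X (B f v)) (Y' := fun v => B' (bar f) (X' v))
    (fun v w => by rw [k1, d f _ _ hf.1]) hA u).tendsto G
  refine tendsto_nhds_unique (tendsto_const_nhds.inner (c1.comp (t.ana.lim G)))
    ((tendsto_const_nhds.inner (c2.comp (t.ana.lim G))).congr fun R => ?_)
  have i := Ap.in_univ' (t.ana.inn R _ (Ap.test_ev G))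
  have := hu _ _ (.fld A' A _ X X' hA' hA (H755.adj_symm d') i.bar k)
  simp only [Ap.bar_bar] at this
  simp only [Function.comp_apply, Ap.ev_sch i.1]
  exact this.symm

end Op

open Op in
/-- row OPS -/
theorem ops_row (t : E2 c) (x : Lt c Λ) : OPS x where
  d_vac := d_wv isCompact_empty .nil
  d_zero := zero_mem _
  d_add := fun _ _ => add_mem
  d_smul := fun z _ => Submodule.smul_mem _ z
  d_U := fun g _ => d_U t g
  mem := fun a f v hf => mem t (cq hf) (ty x a hf)
  add := fun a f v w hf => add t (cq hf) (ty x a hf)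
  smul := fun a f z v hf => smul t (cq hf) (ty x a hf) z
  lin := fun a f g z v => op_lin t x a z
  herm := fun a f v w => op_herm t x a
  cov := fun a g n κ b f v h hf hv => by
    obtain ⟨K, a1, a2⟩ := rl_sum t.sg Finset.univ κ fun i =>
      let ⟨K, b1, b2⟩ := rl t x (b i) (Ap.in_univ' (t.sg.inn g _ f hf)) hv
      ⟨_, t.sg.bdd g K b1, Rl.U t.sg b2 g⟩
    rw [Lt.op, h _ hf.bar.1]
    exact EG.Mu1.eq t.sg a1 a2
  loc := fun a b f g v hf hg s => loc t (cq hf) (cq hg) s (ty x a hf) (ty x b hg)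
    ⟨x.par a f hf.1, x.pdag a ▸ x.par _ _ hf.bar.1⟩ ⟨x.par b g hg.1, x.pdag b ▸ x.par _ _ hg.bar.1⟩
    (x.ty a).choose_spec.1 (x.ty b).choose_spec.1
  aff := fun a B B' f v w h hf hv hw => by
    rw [Lt.op, (h.2.2.2 _ hf.bar.1).2]
    exact aff t h.1 h.2.1 h.2.2.1 hf hv hw
  zero := fun n κ b f v hf h hv => by
    have m : D1 c (∑ i, κ i • x.op (b i) (f i) v) := Submodule.sum_mem _ fun i _ =>
      Submodule.smul_mem _ _ (mem t (cq (hf i)) (ty x _ (hf i)) hv)
    obtain ⟨K, a1, a2⟩ := rl_sum t.sg Finset.univ (fun i => conj (κ i)) fun i =>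
      rl t x (x.dag (b i)) (hf i).bar m
    simp only [Complex.conj_conj, x.dag2, Ap.bar_bar, h] at a2
    have := congrArg (inner ℂ v) (Rl.uniq t.sg a1 a2 Rl.zero_l)
    rw [inner_zero_right, inner_sum] at this
    refine inner_self_eq_zero.1 (Eq.trans ?_ this)
    nth_rewrite 1 [sum_inner]
    exact Finset.sum_congr rfl fun i _ => by
      rw [inner_smul_left, inner_smul_right, op_herm t x _ (hf i) hv m]
  cont := fun a R v => op_cont t x a R
  vac := fun a f hf => by
    have := Ty.rl t.toE0 t.cov (ty x a hf)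
    dsimp only at this
    exact EG.Mu1.eq t.sg (cq hf).isBounded this
end

variable {D : Type*} [NormedAddCommGroup D] [InnerProductSpace ℂ D] {c : Ctx D} {Λ : Type*}
  {a b y : V} {x : Lt c Λ} {O : Set V}

namespace Aq

open NA.Afw (big rs)

theorem wg (s : SG c.toCg) (ha : IsNull a) (hb : IsNull b) (h : GF.mdot a b = 1) (y : V) :
    ∃ g : Sh c.toCg, g.act ⁻¹' W0 = Wdg a b y := by
  obtain ⟨L, hL, e⟩ := JCa.trans ha hb (h ▸ one_pos)
  let k : Sh c.toCg := ⟨⟨1, L, y, one_pos, hL⟩, false⟩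
  refine ⟨k.inv, (e y).1 ▸ Set.ext fun x => ⟨fun hx => ⟨_, hx, s.act_inv k x⟩, ?_⟩⟩
  rintro ⟨z, hz, rfl⟩
  show k.inv.act (k.act z) ∈ W0
  rwa [s.inv_act]

theorem cm (s : SG c.toCg) {g : Sh c.toCg} {Z : Completion D →L[ℂ] Completion D}
    (h : Z ∈ (c.N (g.act ⁻¹' W0)).commutant) : Cm c.toCg g Z := by
  have := conj_comm (U := star (g.U c.toCg)) (Unitary.star_mem (s.uni g))
    (fun X hX => by rw [star_star]; exact s.back g X hX) h
  rwa [star_star] at this

/-- the letters of a word -/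
def lw (x : Lt c Λ) (u : Wd Λ) : List (Completion D × Completion D) :=
  u.map fun p => (x.φ p.1 p.2, x.φ (x.dag p.1) (bar p.2))

theorem ap_eq : ∀ u : Wd Λ, x.ap u c.Om = wv c (lw x u)
  | [] => rfl
  | p :: u => congrArg (ml c.toCg _) (ap_eq u)

theorem tw : ∀ u : Wd Λ, (∀ p ∈ u, In O p.2) → ∃ K σ, IsCompact K ∧ K ⊆ O ∧ Tw c K σ (lw x u)
  | [], _ => ⟨∅, [], isCompact_empty, empty_subset _, .nil⟩
  | p :: u, h => by
    obtain ⟨h1, h2⟩ := List.forall_mem_cons.1 h
    obtain ⟨K, σ, k1, k2, k3⟩ := tw u h2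
    exact ⟨_, _, h1.2.1.isCompact.union k1, union_subset h1.2.2 k2, .cons
      ((Op.ty x p.1 (Ap.in_univ' h1)).mono subset_union_left) (k3.mono subset_union_right)⟩

theorem cw {u : Wd Λ} (h : ∀ p ∈ u, In O p.2) : CW u := fun p hp => Ap.in_univ' (h p hp)

/-- vectors generated in the region `O` -/
def Ge (x : Lt c Λ) (O : Set V) : Submodule ℂ x.Dn :=
  Submodule.span ℂ {v | ∃ u : Wd Λ, (∀ p ∈ u, In O p.2) ∧ (v : Completion D) = x.W u}

theorem Ge.ind {P : x.Dn → Prop} (h0 : P 0) (h1 : ∀ v w, P v → P w → P (v + w))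
    (h2 : ∀ (z : ℂ) v, P v → P (z • v))
    (h3 : ∀ (v : x.Dn) (u : Wd Λ), (∀ p ∈ u, In O p.2) → (v : Completion D) = x.W u → P v)
    {v : x.Dn} (hv : v ∈ Ge x O) : P v :=
  Submodule.span_induction (p := fun v _ => P v) (by rintro v ⟨u, a, b⟩; exact h3 v u a b) h0
    (fun _ _ _ _ => h1 _ _) (fun z _ _ => h2 z _) hv

theorem o_zero (F : FS x) (l : Λ) (f : Fn) : x.o l f 0 = 0 := by simpa using F.smul l f 0 0

theorem ge_pw (w : WP x) (F : FS x) {Q : Theory x.Dn} (b1 : (Q.vac : Completion D) = c.Om)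
    (b3 : ∀ B, Q.fld B ↔ x.Fs (fun _ => True) B) {v : x.Dn} (hv : P352.PW Q (MW O) v) : v ∈ Ge x O := by
  induction hv with
  | vac => exact Submodule.subset_span ⟨[], by simp, b1.trans w.nil.symm⟩
  | add _ _ p q => exact add_mem p q
  | smul z _ p => exact Submodule.smul_mem _ z p
  | @fld B g v hB hg _ p =>
    obtain ⟨n, l, -, rfl⟩ := (b3 B).1 hB
    refine Submodule.sum_mem _ fun i _ => Ge.ind (P := fun v => x.o (l i) (fl g) v ∈ Ge x O)
      ?_ (fun _ _ p q => ?_) (fun z _ p => ?_) (fun v u a e => ?_) p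
    · rw [o_zero F]
      exact zero_mem _
    · rw [F.add]
      exact add_mem p q
    · rw [F.smul]
      exact Submodule.smul_mem _ z p
    · exact Submodule.subset_span ⟨(l i, fl g) :: u, List.forall_mem_cons.2 ⟨In_fl.2 hg, a⟩,
        F.oW _ _ u v (In_fl.2 hg).1 (Cq.tw_of (cw a)) e⟩

theorem pw_cw (w : WP x) (F : FS x) {Q : Theory x.Dn} (b1 : (Q.vac : Completion D) = c.Om)
    (b3 : ∀ B, Q.fld B ↔ x.Fs (fun _ => True) B) :
    ∀ (u : Wd Λ) (v : x.Dn), CW u → (v : Completion D) = x.W u → P352.PW Q univ v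
  | [], v, _, e => by
    rw [show v = Q.vac from Subtype.ext (e.trans (w.nil.trans b1.symm))]
    exact .vac
  | (l, f) :: u, v, h, e => by
    obtain ⟨h1, h2⟩ := Cq.cw_cons.1 h
    obtain ⟨g, rfl, hg⟩ := exists_In h1
    have k := Cq.tw_of h2
    rw [show v = x.o l (fl g) ⟨_, Fq.W_mem k⟩ from
      Subtype.ext (e.trans (F.oW _ _ u _ h1.1 k rfl).symm)]
    exact .fld ((b3 _).2 (Rq.fs_one trivial)) hg (pw_cw w F b1 b3 u _ h2 rfl)

theorem word (t : E2 c) (e : EXT x) (ha : IsNull a) (hb : IsNull b) (h : GF.mdot a b = 1) (l : Λ)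
    {f : Fn} (hf : In (Wdg a b y) f) {Y : Completion D →L[ℂ] Completion D}
    (hY : Y ∈ (c.N (Wdg a b y)).commutant) {u u' : Wd Λ} (hu : ∀ p ∈ u, In (Wdg a b y) p.2)
    (hu' : ∀ p ∈ u', In (Wdg a b y) p.2) :
    inner ℂ (x.W ((x.dag l, bar f) :: u')) (Y (x.W u)) =
      inner ℂ (x.W u') (Y (x.W ((l, f) :: u))) := by
  have h1 : ∀ p ∈ (l, f) :: u, In (Wdg a b y) p.2 := List.forall_mem_cons.2 ⟨hf, hu⟩
  have h2 : ∀ p ∈ (x.dag l, bar f) :: u', In (Wdg a b y) p.2 := List.forall_mem_cons.2 ⟨hf.bar, hu'⟩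
  rw [e.cw _ (cw h1), e.cw _ (cw h2), e.cw _ (cw hu), e.cw _ (cw hu'), ap_eq, ap_eq, ap_eq, ap_eq]
  obtain ⟨K, σ, k1, k2, k3⟩ := tw (x := x) _ h1
  obtain ⟨K', σ', l1, l2, l3⟩ := tw (x := x) _ hu'
  obtain ⟨g, eg⟩ := wg t.sg ha hb h y
  have ad : g.Adm (K' ∪ K) := fun z hz => by
    have := union_subset l2 k2 hz
    rwa [← eg] at this
  have s := t.wrd _ _ _ (l1.union k1)
    ((l3.mono subset_union_left).rev.append (k3.mono subset_union_right))
  have z := cm t.sg (eg ▸ star_mem hY)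
  have s1 := EG.MU2.prd t.sg (s _ _ rfl g ad) z
  have s2 := EG.MU2.prd t.sg (s (rv (lw x ((x.dag l, bar f) :: u'))) (lw x u) (by
    simp [lw, rv_cons, x.dag2, Ap.bar_bar]) g ad) z
  rw [rv_rv, star_inner, star_inner] at s1 s2
  exact s2.symm.trans s1

theorem letter (t : E2 c) (e : EXT x) (w : WP x) (F : FS x) {Q : Theory x.Dn}
    (b1 : (Q.vac : Completion D) = c.Om) (b3 : ∀ B, Q.fld B ↔ x.Fs (fun _ => True) B)
    (ha : IsNull a) (hb : IsNull b) (h : GF.mdot a b = 1) (l : Λ)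
    {f : Fn} (hf : In (Wdg a b y) f) {Y : Completion D →L[ℂ] Completion D}
    (hY : Y ∈ (c.N (Wdg a b y)).commutant) (v v' : x.Dn) :
    inner ℂ (x.o (x.dag l) (bar f) v' : Completion D) (Y v) =
      inner ℂ (v' : Completion D) (Y (x.o l f v)) := by
  have tb := hf.bar.1
  have fo := fun l => (b3 _).2 (Rq.fs_one (a := l) trivial)
  have s1 : ∀ v ∈ Ge x (Wdg a b y), ∀ v' ∈ Ge x (Wdg a b y),
      inner ℂ (x.o (x.dag l) (bar f) v' : Completion D) (Y v) =
        inner ℂ (v' : Completion D) (Y (x.o l f v)) := fun v hv v' hv' => by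
    refine Ge.ind (P := fun v => inner ℂ (x.o (x.dag l) (bar f) v' : Completion D) (Y v) =
      inner ℂ (v' : Completion D) (Y (x.o l f v))) (by simp [o_zero F])
      (fun _ _ p q => by rw [F.add]; simp only [Submodule.coe_add, map_add, inner_add_right, p, q])
      (fun _ _ p => by rw [F.smul]; simp only [Submodule.coe_smul, map_smul, inner_smul_right, p])
      (fun v u a1 a2 => ?_) hv
    refine Ge.ind (P := fun v' => inner ℂ (x.o (x.dag l) (bar f) v' : Completion D) (Y v) =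
      inner ℂ (v' : Completion D) (Y (x.o l f v))) (by simp [o_zero F])
      (fun _ _ p q => by rw [F.add]; simp only [Submodule.coe_add, inner_add_left, p, q])
      (fun _ _ p => by rw [F.smul]; simp only [Submodule.coe_smul, inner_smul_left, p])
      (fun v' u' a3 a4 => ?_) hv'
    rw [F.oW _ _ u' _ tb (Cq.tw_of (cw a3)) a4, F.oW _ _ u _ hf.1 (Cq.tw_of (cw a1)) a2, a2, a4]
    exact word t e ha hb h l hf hY a1 a3
  have s2 : ∀ v v', P352.PW Q univ v → P352.PW Q univ v' →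
      inner ℂ (x.o (x.dag l) (bar f) v' : Completion D) (Y v) =
        inner ℂ (v' : Completion D) (Y (x.o l f v)) := fun v v' hv hv' => by
    rw [← inner_conj_symm, ← rs (fo _) tb (big ha hb h y) (p := Y (x.o l f v)) (fun v' hv' => ?_)
      hv', inner_conj_symm]
    rw [← inner_conj_symm, ← star_inner, ← rs (fo l) hf.1 (big ha hb h y)
      (p := star Y (x.o (x.dag l) (bar f) v')) (fun v hv => ?_) hv, star_inner, inner_conj_symm]
    rw [star_inner, star_inner]
    exact s1 v (ge_pw w F b1 b3 hv) v' (ge_pw w F b1 b3 hv')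
  induction v using Fq.ind with
  | h0 => simp [o_zero F]
  | h1 v v' p q => rw [F.add]; simp only [Submodule.coe_add, map_add, inner_add_right, p, q]
  | h2 z v p => rw [F.smul]; simp only [Submodule.coe_smul, map_smul, inner_smul_right, p]
  | h3 u hu =>
  induction v' using Fq.ind with
  | h0 => simp [o_zero F]
  | h1 v v' p q => rw [F.add]; simp only [Submodule.coe_add, inner_add_left, p, q]
  | h2 z v p => rw [F.smul]; simp only [Submodule.coe_smul, inner_smul_left, p]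
  | h3 u' hu' =>
  rw [F.oW _ _ u' _ tb hu' rfl, F.oW _ _ u _ hf.1 hu rfl]
  have yc := fun z => Y.continuous.tendsto z
  refine tendsto_nhds_unique ((Fq.lim1 e _ tb hu').inner ((yc _).comp (e.lim u hu)))
    (((e.lim u' hu').inner ((yc _).comp (Fq.lim1 e _ hf.1 hu))).congr' ?_)
  obtain ⟨r, hr⟩ := hf.2.1.isCompact.isBounded.subset_closedBall 0
  obtain ⟨r', hr'⟩ := hf.bar.2.1.isCompact.isBounded.subset_closedBall 0
  filter_upwards [eventually_ge_atTop ⌈r⌉₊, eventually_ge_atTop ⌈r'⌉₊] with R hR hR'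
  have c1 := Fq.cw_cut t.ana R hu
  have c2 := Fq.cw_cut t.ana R hu'
  have := s2 _ _ (pw_cw w F b1 b3 _ ⟨_, Fq.W_mem (Cq.tw_of c1)⟩ c1 rfl)
    (pw_cw w F b1 b3 _ ⟨_, Fq.W_mem (Cq.tw_of c2)⟩ c2 rfl)
  rw [F.oW _ _ _ _ tb (Cq.tw_of c2) rfl, F.oW _ _ _ _ hf.1 (Cq.tw_of c1) rfl,
    e.cw _ (Cq.cw_cons.2 ⟨Ap.in_univ' hf.bar, c2⟩), e.cw _ (Cq.cw_cons.2 ⟨Ap.in_univ' hf, c1⟩)]
    at this
  simp only [e.cw _ c1, e.cw _ c2] at this
  rw [Function.comp_apply, Function.comp_apply,
    t.ana.eq R f (hr.trans (Metric.closedBall_subset_closedBall (by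
      linarith [Nat.ceil_le.1 hR]))),
    t.ana.eq R _ (hr'.trans (Metric.closedBall_subset_closedBall (by
      linarith [Nat.ceil_le.1 hR'])))]
  exact this.symm

end Aq

/-- row AFW -/
theorem afw_row (t : E2 c) (e : EXT x) (w : WP x) (F : FS x) {Q : Theory x.Dn}
    (b1 : (Q.vac : Completion D) = c.Om) (b3 : ∀ B, Q.fld B ↔ x.Fs (fun _ => True) B) :
    AfW c.N Q (↑) := by
  intro a b y B B' f ha hb h hB d hf Y hY v v'
  obtain ⟨n, l, -, rfl⟩ := (b3 B).1 hB
  have d' : IsAdj (fun f v => ∑ i, x.o (l i) f v) fun f v => ∑ i, x.o (x.dag (l i)) f v :=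
    fun g p q hg => by simp only [sum_inner, inner_sum, F.herm _ g p q hg]
  rw [EG.Let.adj_uniq d d' hf.bar.1]
  simp only [Submodule.coe_sum, map_sum, sum_inner, inner_sum,
    Aq.letter t e w F b1 b3 ha hb h _ hf hY]
end

end Vale.Agent.N352.G.X
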