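import Vale.Agent.N352.X.Defs
import Vale.Agent.P352NA.LOC

/-!
# N352, block X: the twisted dual net, duality, inner regularity
-/

set_option linter.all false

open Filter Topology Set
open scoped ComplexConjugate

namespace Vale.Agent.N352.G.X

open Vale.Agent.P352 Vale.Agent.P352.GF Vale.Agent.P352.BW Vale.Agent.P352.H246
open Vale.Agent.P352.H496 Vale.Agent.P352.H755 Vale.Agent.P352.H15
open Vale.Agent.P352X Vale.Agent.P352X.EB
open Vale.Agent.P132 (ModData)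
open UniformSpace (Completion)
open Real (exp)

noncomputable section

/-! ## geometry -/

theorem mw0 {z : V} : z ∈ W0 ↔ be z < 0 ∧ 0 < al z := by simpa using Ap.mem_W (z := z) (v := 0)

theorem mw1 {z : V} : z ∈ W1 ↔ al z < 0 ∧ 0 < be z := by simpa using Ap.mem_W' (z := z) (v := 0)

theorem op_sub {g : Sg} (h : W1 ⊆ g.Op) {z : V} (hz : g.act z ∈ W0) : z ∈ W0 := by
  have A : ∀ z, g.act z ∈ W0 → be z ≤ 0 ∧ 0 ≤ al z := fun z hz => by
    have k : ∀ α β, α < 0 → 0 < β → (al z - α) * (be z - β) ≠ 0 := fun α β a b e => by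
      have h1 := mw1.1 (h (mw1.2 (show al (pt α β (tx z)) < 0 ∧ 0 < be (pt α β (tx z)) by
        simpa using ⟨a, b⟩)))
      have h2 := mw0.1 hz
      have h3 := NA.mu_act g z (pt α β (tx z))
      rw [mu_eq, mu_eq (p := z - _)] at h3
      simp only [al_sub, be_sub, tx_sub, al_pt, be_pt, tx_pt, sub_self, mul_assoc, e] at h3
      have h4 := d2_nonneg (tx (g.act z) - tx (g.act (pt α β (tx z))))
      simp only [d2, Pi.zero_apply] at h3 h4
      nlinarith [mul_pos (sub_pos.2 (h1.1.trans h2.2)) (sub_pos.2 (h2.1.trans h1.2))]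
    exact ⟨not_lt.1 fun b => k (-1) _ (by norm_num) b (by simp),
      not_lt.1 fun a => k _ 1 a one_pos (by simp)⟩
  have c1 : ContinuousAt (fun ε : ℝ => g.act (z + ε • (vb - va))) 0 :=
    (g.cont.comp (by fun_prop)).continuousAt
  obtain ⟨ε, h1, h2⟩ := (((c1.eventually ((wdg_open va vb 0).mem_nhds (by simpa using hz))).filter_mono
    (nhdsWithin_le_nhds (s := Ioi 0))).and self_mem_nhdsWithin).exists
  have := A _ h1
  simp at this
  have h3 : (0 : ℝ) < ε := h2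
  exact mw0.2 ⟨by linarith [this.1], by linarith [this.2]⟩

theorem rc_open (r : ℝ) : IsOpen (Rc r 0) := by
  rw [show Rc r 0 = {z | be z < 0} ∩ ({z | 0 < 1 + 2 * r * be z} ∩ {z | 0 < al z + r * mu z}) from
    Set.ext fun _ => G1.mem_Rc]
  exact (isOpen_lt (by fun_prop) continuous_const).inter
    ((isOpen_lt continuous_const (by fun_prop)).inter (isOpen_lt continuous_const (by fun_prop)))

theorem rc_ne {r : ℝ} (hr : 0 ≤ r) : (Rc r 0).Nonempty := by
  have h : 0 < 1 - 2 * r * (2 * r + 1)⁻¹ := by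
    rw [sub_pos, ← div_eq_mul_inv, div_lt_one (by positivity)]
    linarith
  refine ⟨pt 1 (-(2 * r + 1)⁻¹) 0, G1.mem_Rc.2 ⟨?_, ?_, ?_⟩⟩
  · simp only [be_pt, neg_lt_zero]
    positivity
  · simp only [be_pt]
    linarith
  · simp only [al_pt, mu_pt, d2, Pi.zero_apply]
    linarith

theorem rc_w0 {r : ℝ} (hr : 0 ≤ r) : Rc r 0 ⊆ W0 := fun _ hz =>
  KDa.rc_zero.subset (HM.H584.Rg_mono null_va null_vb md_ab le_rfl hr hz)

theorem rc_bo {r : ℝ} (a : ℝ) {z : V} (h : z ∈ Rc r 0) :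
    scp (exp a) (exp (-a)) z ∈ Rc (r * exp a) 0 := by
  obtain ⟨h1, h2, h3⟩ := G1.mem_Rc.1 h
  have e : exp a * exp (-a) = 1 := by rw [← Real.exp_add, add_neg_cancel, Real.exp_zero]
  have m : mu (scp (exp a) (exp (-a)) z) = mu z := by
    rw [mu_eq, mu_eq, al_scp, be_scp, tx_scp, sqrt_exp_neg, one_smul]
    linear_combination 2 * al z * be z * e
  refine G1.mem_Rc.2 ⟨?_, ?_, ?_⟩
  · rw [be_scp]
    exact mul_neg_of_pos_of_neg (Real.exp_pos _) h1
  · rw [be_scp]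
    exact h2.trans_eq (by linear_combination (-2 * r * be z) * e)
  · rw [al_scp, m]
    exact (mul_pos (Real.exp_pos a) h3).trans_eq (by ring)

theorem w1_bo (a : ℝ) {z : V} (h : z ∈ W1) : scp (exp a) (exp (-a)) z ∈ W1 := by
  obtain ⟨h1, h2⟩ := mw1.1 h
  rw [mw1, al_scp, be_scp]
  exact ⟨mul_neg_of_pos_of_neg (Real.exp_pos _) h1, mul_pos (Real.exp_pos _) h2⟩

variable {D : Type*} [NormedAddCommGroup D] [InnerProductSpace ℂ D] {c : Cg D} {O O' : Set V}
  {Z Z' : Completion D →L[ℂ] Completion D}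

/-! ## the twisted dual net -/

namespace Nw

theorem mono (h : Nw c O Z) (e : O ⊆ O') : Nw c O' Z := fun g a => h g (e.trans a)

theorem star (h : Nw c O Z) : Nw c O (star Z) := fun g a => (h g a).star

theorem one : Nw c O 1 := fun _ _ => EG.Cm.one (EG.sg_row c)

theorem mul (h : Nw c O Z) (h' : Nw c O Z') : Nw c O (Z * Z') := fun g a =>
  EG.Cm.mul (EG.sg_row c) (h g a) (h' g a)

theorem cov (h : Nw c O Z) (g : Sh c) :
    Nw c (g.act '' O) (g.U c * Z * Star.star (g.U c)) := fun k a => by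
  have := h (k.mul g) fun x hx => by
    show (k.toSg.mul g.toSg).act x ∈ W1
    rw [Sg.act_mul]
    exact a ⟨x, hx, rfl⟩
  rw [Cm, EG.SGx.U_mul, star_mul] at this
  simpa only [Cm, mul_assoc] using this

theorem com (h : Nw c O Z) (e : O ⊆ W1) : Z ∈ (M0 c).commutant := by
  have s := (EG.sg_row c).gm false
  have := h (EG.Sh.gm c false) fun x hx => by
    show (EG.Sh.gm c false).act x ∈ W1
    rw [s.2]
    exact e hx
  rw [Cm, s.1] at this
  simpa [EG.Cg.gp] using this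

end Nw

theorem dual_row (Z : Completion D →L[ℂ] Completion D) : Z ∈ (M0 c).commutant ↔ Nw c W1 Z := by
  refine ⟨fun h g a => ?_, fun h => h.com subset_rfl⟩
  have s := EG.sg_row c
  have := conj_comm (U := star (g.U c)) (Unitary.star_mem (s.uni g)) (fun X hX => by
    rw [star_star]
    exact c.hN.mono _ _ (fun z hz => op_sub a hz) _ (s.back g X hX)) h
  rwa [star_star] at this

/-- the modular group of the standard wedge acts as the boosts -/
def Bw (c : Cg D) : Prop :=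
  ∃ E : ModData (M0 c) c.Om, ∀ t, ∃ a, Ip c (E.U t) (scp (exp a) (exp (-a)))

theorem dens_row (b : Bw c) : DENS c := by
  intro ξ η ζ h Z hZ
  obtain ⟨E, hE⟩ := b
  let 𝒜 : Set (Completion D →L[ℂ] Completion D) := {Y | ∃ C, IsCompact C ∧ C ⊆ W1 ∧ Nw c C Y}
  have hs : ∀ Y ∈ 𝒜, star Y ∈ 𝒜 := fun Y ⟨C, a, b, d⟩ => ⟨C, a, b, d.star⟩
  have k : Z ∈ gv 𝒜 := by
    refine (tk _ (gv 𝒜) _ E (fun t => ?_) ?_).2 (gv_le hs fun Y ⟨C, _, b, d⟩ => d.com b) Z hZ
    · obtain ⟨a, g, e1, e2⟩ := hE t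
      simp only [ModData.sg, ← E.star_U]
      refine gv_conj hs (mod_uni E t) fun Y ⟨C, a, b, d⟩ => ⟨_, a.image g.cont, ?_, e1 ▸ d.cov g⟩
      rintro _ ⟨z, hz, rfl⟩
      exact e2 z ▸ w1_bo _ (b hz)
    · obtain ⟨C, c1, c2, c3⟩ := NA.ex_cpt
      refine ((EG.sg_row c).rsc _ isOpen_interior c3).mono ?_
      rintro z ⟨X, hX, e⟩
      exact ⟨X, sub_gv hs X ⟨C, c1, c2, Nw.mono hX interior_subset⟩, e⟩
  have := EG.LiftAux.dns2 𝒜 ⟨∅, isCompact_empty, empty_subset _, Nw.one⟩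
    (fun Y ⟨C, a, b, d⟩ Y' ⟨C', a', b', d'⟩ => ⟨C ∪ C', a.union a', union_subset b b',
      (d.mono subset_union_left).mul (d'.mono subset_union_right)⟩) hs Z
    (fun x hx => (comm_mul k ((mem_gv hs).2 hx)).symm) c.Om ξ ζ η fun Y ⟨C, a, b, d⟩ => by
      rw [← inner_conj_symm, h C a b Y d, inner_conj_symm]
  rw [← inner_conj_symm, this, inner_conj_symm]

/-- the algebras of the cut cones generate the algebra of the wedge -/
theorem rc_gen (b : Bw c) (h : ∀ r, 0 < r → ∀ X ∈ c.N (Rc r 0), X * Z = Z * X)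
    : Z ∈ (M0 c).commutant := by
  obtain ⟨E, hE⟩ := b
  let 𝒜 : Set (Completion D →L[ℂ] Completion D) := {Y | ∃ r, 0 < r ∧ Y ∈ c.N (Rc r 0)}
  have hs : ∀ Y ∈ 𝒜, star Y ∈ 𝒜 := fun Y ⟨C, a, d⟩ => ⟨C, a, star_mem d⟩
  refine comm_anti ((tk _ (gv 𝒜) _ E (fun t => ?_) ?_).1
    (gv_le hs fun Y ⟨r, a, d⟩ => c.hN.mono _ _ (rc_w0 a.le) _ d)) Z
    ((mem_gv hs).2 fun Y ⟨r, a, d⟩ => h r a Y d)
  · obtain ⟨a, e⟩ := hE t
    simp only [ModData.sg, ← E.star_U]
    exact gv_conj hs (mod_uni E t) fun Y ⟨r, b, d⟩ =>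
      ⟨_, mul_pos b (Real.exp_pos a), e.mem (fun z => rc_bo a) Y d⟩
  · refine (EG.SGx.rs (c := c) (rc_open 1) (rc_ne zero_le_one)).mono ?_
    rintro z ⟨X, hX, e⟩
    exact ⟨X, sub_gv hs X ⟨1, one_pos, hX⟩, e⟩

end

end Vale.Agent.N352.G.X
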