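import Vale.Agent.N352.X.Eow
import Vale.Agent.N352.X.Net
import Vale.Agent.N352.Pk
import Vale.Agent.P352NA.WF

/-!
# N352, block X: the polynomial families descend from the double (helper72)
-/

set_option linter.all false

open MeasureTheory Filter Topology
open scoped SchwartzMap ComplexConjugate ContDiff

namespace Vale.Agent.N352.G.X

open Vale.Agent.P352 Vale.Agent.P352.GF Vale.Agent.P352.BW Vale.Agent.P352.H246
open Vale.Agent.P352.H496 Vale.Agent.P352.H755 Vale.Agent.P352.H15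
open Vale.Agent.P352.SubConf (IsAdj)
open Vale.Agent.P352X Vale.Agent.P352X.EB
open Vale.Agent.P352X.ST (tsl)
open Vale.Agent.N352.Kn (cj cj_apply ml_apply Pos anti cp)
open Vale.Agent.N352.Tn (vcl vcl_apply s1 jE PW Hy H2)
open UniformSpace (Completion)

noncomputable section

namespace Sp2

/-- products of test functions -/
abbrev mu (F : Sch) : Sch →L[ℂ] Sch := Kn.ml F

theorem mu_apply (F G : Sch) (x : V) : mu F G x = F x * G x := ml_apply F.hasTemperateGrowth G x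

theorem zero_of_int {W : Sch} (h : ∀ G : Sch, ∫ x, W x * G x = 0) (x : V) : W x = 0 := by
  have h1 := h (cj W)
  simp only [cj_apply, Complex.mul_conj, integral_complex_ofReal, Complex.ofReal_eq_zero] at h1
  have h2 : Integrable fun x => Complex.normSq (W x) := by
    simpa [mu_apply, Complex.mul_conj] using (mu W (cj W)).integrable.re
  exact Complex.normSq_eq_zero.1 (congrFun (((Complex.continuous_normSq.comp
    W.continuous).ae_eq_iff_eq volume continuous_zero).1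
      ((integral_eq_zero_iff_of_nonneg (fun x => Complex.normSq_nonneg _) h2).1 h1)) x)

theorem anti_pos {H : Type*} [NormedAddCommGroup H] [InnerProductSpace ℂ H] [CompleteSpace H]
    {Λ : Sch →L[ℂ] H} {η : V} (h : Pos Λ η) (ξ : H) : Pos (anti Λ ξ) (-η) := fun w hw F => by
  have e : cj (Kn.cv (-η) w F) = Kn.cv η (cj (cp (.neg ℝ) w)) (cj F) := SchwartzMap.ext fun z => by
    rw [cj_apply, Kn.cv_apply, Kn.cv_apply, ← integral_conj, ← integral_neg_eq_self]
    simp [Kn.cp_apply]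
  rw [Kn.anti_apply, e, h _ (fun s hs => ?_), inner_zero_left]
  rw [← integral_neg_eq_self, ← map_zero (starRingEnd ℂ), ← hw s hs, ← integral_conj]
  simp [Kn.cp_apply, ← Complex.exp_conj]

variable {D : Type*} [NormedAddCommGroup D] [InnerProductSpace ℂ D] {c : Cg D} {B C C' : Fld D}
  {K : Set V} {Y : Completion D →L[ℂ] Completion D}

theorem vcl_tsl (hC : c.Q.fld C) (y : V) (F : Sch) : vcl hC (tsl y F) = Ut c.Q y (vcl hC F) := by
  rw [vcl_apply, vcl_apply, EG.SGx.ut_coe, ← c.Q.U_vac 1 GF.one y one_pos H496.isLor_one,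
    c.Q.transl _ _ _ _ hC ⟨_, rfl⟩, c.Q.U_vac 1 GF.one y one_pos H496.isLor_one]
  refine congrArg (fun g => ((c.Q.U 1 GF.one y (C g _) : D) : Completion D)) (funext fun x => ?_)
  simp only [ev, ST.tsl_apply]
  congr 1
  funext m
  simp [sim, GF.one, bas]

theorem vcl_pos (hC : c.Q.fld C) {e : V} (he : IsNull e) : Pos (vcl hC) e := fun h hh F => by
  rw [(Kn.clm_cv _ _ _ _).2, ← Kn.ut_neg (Q := c.Q) he hh (vcl hC F)]
  simp only [vcl_tsl]

/-- matrix elements of a field -/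
def mx (hC : c.Q.fld C) (ξ : Completion D) : Sch →L[ℂ] ℂ := innerSL ℂ ξ ∘L vcl hC

/-- on `K` the distribution `u` is the function `H` -/
def Rp (u : Sch →L[ℂ] ℂ) (K : Set V) (H : Sch) : Prop :=
  ∃ κ : Sch, (∀ x ∈ K, κ x = 1) ∧ ∀ G : Sch, u (mu κ G) = ∫ x, H x * G x

/-- **matrix elements with vectors of the commutant are smooth** -/
theorem ex_rp (hC : c.Q.fld C) (hC' : c.Q.fld C') (a : IsAdj C C') (hY : Y ∈ (M0 c).commutant)
    (hK : IsCompact K) (hW : K ⊆ W0) :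
    ∃ H, Rp (mx hC (star Y c.Om)) K H ∧ Rp (mx hC' (Y c.Om)) K (cj H) := by
  obtain ⟨χ0, t0, s0, o0, -⟩ := Ap.ex_chi hK (open_Wdg _ _ _) hW
  have d := Api4.dc_cx t0
  have s1 : tsupport (cx χ0) ⊆ W0 :=
    (closure_mono (t := Function.support χ0) fun x (hx : _ ≠ _) k =>
      hx (by rw [cx, k, Complex.ofReal_zero])).trans s0
  set χ := sch (cx χ0)
  have hχ : ∀ x, χ x = cx χ0 x := Api4.sch_apply d
  have e : ∀ F, mx hC (star Y c.Om) (mu χ F) = anti (vcl hC') (Y c.Om) (mu χ F) := fun F => by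
    have e : ev (mu χ F) = fun x => cx χ0 x * F x := funext fun x => by rw [ev, mu_apply, hχ]
    have i : In W0 (ev (mu χ F)) := e ▸ Ap.in_of (Api4.dc_mul_right d (F.smooth ⊤))
      (tsupport_mul_subset_left.trans s1)
    rw [mx, ContinuousLinearMap.comp_apply, innerSL_apply_apply,
      ContinuousLinearMap.star_eq_adjoint, ContinuousLinearMap.adjoint_inner_left]
    exact ((afs_of_aff (fun v w => a _ v w i.1) (c.hN.fld _ _ _ hC i)).2 Y hY _ _).symm
  obtain ⟨H, h1, h2⟩ := Kn.eow Kn.span_null (fun η hη =>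
    ⟨(vcl_pos hC hη).comp _, anti_pos (vcl_pos hC' hη) _⟩) χ e
  have d2 := Api4.dc_mul_left h1 d
  have h3 : ∀ G : Sch, mx hC (star Y c.Om) (mu (mu χ (mu χ χ)) G) =
      ∫ x, sch (fun x => H x * cx χ0 x) x * G x := fun G => by
    simp only [Api4.sch_apply d2]
    simp only [mul_assoc, ← hχ, ← mu_apply, ← h2]
    exact congrArg _ (SchwartzMap.ext fun x => by simp only [mu_apply]; ring)
  have h4 : ∀ x ∈ K, mu χ (mu χ χ) x = 1 := fun x hx => by
    simp [mu_apply, hχ, cx, (o0 x hx).self_of_nhds]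
  refine ⟨_, ⟨_, h4, h3⟩, cj (mu χ (mu χ χ)), fun x hx => by rw [cj_apply, h4 x hx, map_one],
    fun G => ?_⟩
  have h5 := e (mu (mu χ χ) (cj G))
  rw [show mu χ (mu (mu χ χ) (cj G)) = mu (mu χ (mu χ χ)) (cj G) from
    SchwartzMap.ext fun x => by simp only [mu_apply]; ring, h3, Kn.anti_apply,
    show cj (mu (mu χ (mu χ χ)) (cj G)) = mu (cj (mu χ (mu χ χ))) G from
      SchwartzMap.ext fun x => by simp [mu_apply]] at h5
  rw [mx, ContinuousLinearMap.comp_apply, innerSL_apply_apply, ← inner_conj_symm, ← h5,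
    ← integral_conj]
  simp

theorem ex_nz (hC : c.Q.fld C) (hC' : c.Q.fld C') (a : IsAdj C C') (h0 : vcl hC ≠ 0)
    (hK : IsCompact K) (hW : K ⊆ W0) {x : V} (hx : x ∈ K) : ∃ Y ∈ (M0 c).commutant, ∃ H : Sch,
      Rp (mx hC (star Y c.Om)) K H ∧ Rp (mx hC' (Y c.Om)) K (cj H) ∧ H x ≠ 0 := by
  have w0 := mw0.1 (hW hx)
  obtain ⟨F, f1, f2, f3⟩ : ∃ F : Sch, HasCompactSupport F ∧ (∀ z ∈ tsupport F, z - x ∈ W0) ∧
      vcl hC F ≠ 0 := by
    by_contra! k
    refine h0 (ContinuousLinearMap.ext fun F => ST.vanish_of_compact _ F fun G hG _ => ?_)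
    obtain ⟨r, hr⟩ := hG.isCompact.exists_bound_of_continuousOn
      (f := fun z => (al (z - x), be (z - x))) (by fun_prop)
    let y := (r + 1) • (va - vb)
    have s : tsupport (tsl y G) = (Homeomorph.subRight y) ⁻¹' tsupport G :=
      tsupport_comp_eq_preimage G (Homeomorph.subRight y)
    have := k (tsl y G) (hG.comp_homeomorph (Homeomorph.subRight y)) fun z hz => by
      have b := norm_prod_le_iff.1 (hr (z - y) (s.subset hz))
      have b1 := abs_le.1 b.1
      have b2 := abs_le.1 b.2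
      simp [y] at b1 b2
      exact mw0.2 (by simp; constructor <;> linarith)
    rw [vcl_tsl] at this
    exact norm_eq_zero.1 (((ip_ut c y).nrm _).symm.trans (norm_eq_zero.2 this))
  obtain ⟨Y, hY, y1⟩ : ∃ Y ∈ (M0 c).commutant, inner ℂ (Y c.Om) (vcl hC F) ≠ 0 := by
    by_contra! k
    exact f3 ((EG.sg_row c).dense.eq_zero_of_inner_right ℂ fun _ ⟨Y, hY, e⟩ => e ▸ k Y hY)
  obtain ⟨H, ⟨κ, k1, k2⟩, -⟩ := ex_rp hC hC' a (star_mem hY) f1.isCompact fun z hz => by
    have := mw0.1 (f2 z hz)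
    simp at this
    exact mw0.2 ⟨by linarith, by linarith⟩
  rw [star_star] at k2
  obtain ⟨z, z1, z2⟩ : ∃ z ∈ tsupport F, H z ≠ 0 := by
    by_contra! k
    refine y1 (Eq.trans ?_ ((k2 F).trans (integral_eq_zero_of_ae (.of_forall fun z => ?_))))
    · refine congrArg (mx hC _) (SchwartzMap.ext fun z => ?_)
      by_cases hz : z ∈ tsupport F
      · rw [mu_apply, k1 z hz, one_mul]
      · rw [mu_apply, image_eq_zero_of_notMem_tsupport hz, mul_zero]
    · by_cases hz : z ∈ tsupport F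
      · simp [k z hz]
      · simp [image_eq_zero_of_notMem_tsupport hz]
  obtain ⟨b, rfl⟩ : ∃ b, z = x + b := ⟨z - x, by simp⟩
  obtain ⟨g, g1, g2⟩ := ip_ut c b
  have m := Tn.com_conj g (O := W0) (by
    rintro _ ⟨w, hw, rfl⟩
    have a := mw0.1 (f2 _ z1)
    have b := mw0.1 hw
    rw [add_sub_cancel_left] at a
    rw [g2]
    exact mw0.2 ⟨by rw [be_add]; linarith, by rw [al_add]; linarith⟩) (star_mem hY)
  obtain ⟨H', r1, r2⟩ := ex_rp hC hC' a m hK hW
  refine ⟨_, m, H', r1, r2, fun k => z2 ?_⟩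
  obtain ⟨κ', k3, k4⟩ := r1
  have := zero_of_int (W := mu H' (tsl (-b) κ) - mu (tsl (-b) H) κ') (fun G => ?_) x
  · simpa [mu_apply, ST.tsl_apply, k, k3 x hx] using this
  have i1 := k4 (mu (tsl (-b) κ) G)
  have i2 := k2 (tsl b (mu κ' G))
  rw [mx, ContinuousLinearMap.comp_apply, innerSL_apply_apply, star_mul, star_mul, star_star,
    star_star, ContinuousLinearMap.mul_apply, ContinuousLinearMap.mul_apply, EG.SGx.vac,
    ContinuousLinearMap.star_eq_adjoint, ContinuousLinearMap.adjoint_inner_left, ← g1,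
    ← vcl_tsl, show tsl b (mu κ' (mu (tsl (-b) κ) G)) = mu κ (tsl b (mu κ' G)) from
      SchwartzMap.ext fun w => by simp [mu_apply, ST.tsl_apply, mul_left_comm]] at i1
  rw [← integral_add_right_eq_self _ b] at i2
  have := i1.symm.trans i2
  have j1 : Integrable (fun w => mu H' (mu (tsl (-b) κ) G) w) := SchwartzMap.integrable _
  have j2 : Integrable (fun w => mu (tsl (-b) H) (mu κ' G) w) := SchwartzMap.integrable _
  simp only [SchwartzMap.sub_apply, sub_mul, mul_assoc, mu_apply, ST.tsl_apply, add_sub_cancel_right,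
    sub_neg_eq_add] at this j1 j2 ⊢
  rw [integral_sub j1 j2, this, sub_self]

/-- division by finitely many matrix elements -/
theorem ex_div (hC : c.Q.fld C) (hC' : c.Q.fld C') (a : IsAdj C C') (h0 : vcl hC ≠ 0) (F : Sch)
    (hF : In W0 (ev F)) : ∃ (t : Finset V) (Y : V → Completion D →L[ℂ] Completion D)
      (H G : V → Sch), (∀ x ∈ t, Y x ∈ (M0 c).commutant ∧ tsupport (G x) ⊆ tsupport F ∧
        Rp (mx hC (star (Y x) c.Om)) (tsupport F) (H x) ∧
        Rp (mx hC' (Y x c.Om)) (tsupport F) (cj (H x))) ∧ ∑ x ∈ t, mu (H x) (G x) = F := by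
  have hK : IsCompact (tsupport F) := hF.2.1
  choose! Y y1 H y2 y3 y4 using fun x (hx : x ∈ tsupport F) => ex_nz hC hC' a h0 hK hF.2.2 hx
  obtain ⟨t, t1, t2⟩ := hK.elim_nhds_subcover (fun x => {z | H x z ≠ 0}) fun x hx =>
    (isOpen_ne_fun (H x).continuous continuous_const).mem_nhds (y4 x hx)
  let S : V → ℂ := fun z => ∑ x ∈ t, H x z * cj (H x) z
  have s0 : ∀ z ∈ tsupport F, S z ≠ 0 := fun z hz k => by
    obtain ⟨x, hx, e⟩ := Set.mem_iUnion₂.1 (t2 hz)
    simp only [S, cj_apply, Complex.mul_conj] at k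
    exact e (Complex.normSq_eq_zero.1 ((Finset.sum_eq_zero_iff_of_nonneg
      fun x _ => Complex.normSq_nonneg (H x z)).1 (by exact_mod_cast k) x hx))
  have s1 : ∀ x, tsupport (fun z => F z * (cj (H x) z / S z)) ⊆ tsupport F :=
    fun x => tsupport_mul_subset_left
  have d : ∀ x, Dc fun z => F z * (cj (H x) z / S z) := fun x =>
    ⟨contDiff_iff_contDiffAt.2 fun z => by
      by_cases hz : z ∈ tsupport F
      · simp only [div_eq_mul_inv]
        exact (F.smooth ⊤).contDiffAt.mul (((cj (H x)).smooth ⊤).contDiffAt.mul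
          ((ContDiff.contDiffAt (ContDiff.sum fun x _ =>
            ((H x).smooth ⊤).mul ((cj (H x)).smooth ⊤))).inv (s0 z hz)))
      · exact contDiffAt_const.congr_of_eventuallyEq
          (notMem_tsupport_iff_eventuallyEq.1 fun k => hz (s1 x k)), hF.2.1.mul_right⟩
  refine ⟨t, Y, H, fun x => sch fun z => F z * (cj (H x) z / S z), fun x hx => ⟨y1 x (t1 x hx),
    (Api4.tsupport_sch (d x)).subset.trans (s1 x), y2 x (t1 x hx), y3 x (t1 x hx)⟩,
    SchwartzMap.ext fun z => ?_⟩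
  simp only [SchwartzMap.sum_apply, mu_apply, Api4.sch_apply (d _)]
  simp only [mul_left_comm _ (F z), ← Finset.mul_sum, ← mul_div_assoc, ← Finset.sum_div]
  by_cases hz : z ∈ tsupport F
  · exact mul_div_cancel_right₀ _ (s0 z hz)
  · rw [image_eq_zero_of_notMem_tsupport hz, zero_mul, zero_div]

variable {E : Type*} [NormedAddCommGroup E] [InnerProductSpace ℂ E] {i : E →ₗᵢ[ℂ] H2 D} {o : E}
  {P : Fld D → Fld D → Fld E}

/-- **slices of products** -/
theorem slice (p : PW c i o P) (h : Tn.Lt c B C) {ξ : Completion D} {H G : Sch}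
    (r : Rp (mx h.2.1 ξ) K H) (hG : tsupport G ⊆ K) :
    s1 ξ (i (P B C (ev G) o)) = vcl h.1 (mu H G) := by
  obtain ⟨κ, k1, k2⟩ := r
  obtain ⟨ρ, -, hρ⟩ := Tn.ex_rho
  have l1 := ((s1 ξ).continuous.tendsto _).comp (p.kr_lim h ρ G)
  have l2 := ((vcl h.1).continuous.tendsto _).comp (Tn.pin2_dg ρ (mu H G))
  rw [hρ, one_smul] at l1 l2
  refine tendsto_nhds_unique l1 (l2.congr fun k => ?_)
  have := Tn.ker_ext (Λ := vcl h.1 ∘L Tn.pin2 ∘L Kn.ml fun z => H z.2)
    (Λ' := s1 ξ ∘L p.kr h ∘L Kn.ml fun z => κ z.2) (fun F F' => by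
      simp only [ContinuousLinearMap.comp_apply, Kn.ml_tens, Tn.pin2_tens, p.kr_tens, Tn.s1_tm,
        map_smul, mu_apply, ← k2]
      rfl) (Kn.dg k ρ G)
  simp only [ContinuousLinearMap.comp_apply, Kn.ml_dg] at this
  rwa [show Kn.ml κ G = G from SchwartzMap.ext fun z => by
    by_cases hz : z ∈ tsupport G
    · rw [mu_apply, k1 z (hG hz), one_mul]
    · rw [mu_apply, image_eq_zero_of_notMem_tsupport hz, mul_zero]] at this

variable {x : Ctx D} {ξ ξ' : Completion D}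

theorem tr_mono {K' : Set V} (h : Tr x K ξ ξ') (e : K ⊆ K') : Tr x K' ξ ξ' := by
  induction h with
  | zero => exact .zero
  | fld B B' f a b d hf => exact .fld B B' f a b d ⟨hf.1, hf.2.1, hf.2.2.trans e⟩
  | add _ _ _ _ _ _ a b => exact a.add _ _ _ _ b
  | smul z _ _ _ a => exact a.smul z _ _

theorem tr_sum {ι : Type*} (s : Finset ι) {u u' : ι → Completion D}
    (h : ∀ j ∈ s, Tr x K (u j) (u' j)) : Tr x K (∑ j ∈ s, u j) (∑ j ∈ s, u' j) := by
  classical
  induction s using Finset.induction_on with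
  | empty => exact .zero
  | insert j s hj ih =>
    rw [Finset.sum_insert hj, Finset.sum_insert hj]
    exact (h j (Finset.mem_insert_self _ _)).add _ _ _ _
      (ih fun k hk => h k (Finset.mem_insert_of_mem hk))

theorem supp_cj (G : Sch) : tsupport (cj G) = tsupport G := Ap.tsupport_bar (ev G)

/-- **slices of true letters are true letters** -/
theorem tr_slice (p : PW x.toCg i o P) (y : Hy x.toCg) {k : P352X.Ctx E} (hk : k.Q = p.q y)
    (hY : Y ∈ (M0 x.toCg).commutant) (hW : K ⊆ W0) {η η' : Completion E} (h : NA.Tr k K η η') :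
    Tr x K (s1 (star Y x.Om) (jE i η)) (s1 (Y x.Om) (jE i η')) := by
  induction h with
  | zero => simpa using Tr.zero
  | add _ _ _ _ _ _ a b => simpa only [map_add] using a.add _ _ _ _ b
  | smul z _ _ _ a => simpa only [map_smul] using a.smul z _ _
  | fld A A' g a _ d hg =>
    rw [hk] at a ⊢
    obtain ⟨G, rfl⟩ := hg.1
    obtain ⟨A1, d1, r⟩ := P352L.StA.sp_ind (p := fun A => ∃ A1, IsAdj A A1 ∧
        Tr x K (s1 (star Y x.Om) (i (A (ev G) o))) (s1 (Y x.Om) (i (A1 (bar (ev G)) o)))) a (by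
      rintro _ ⟨B, C, h, rfl⟩
      obtain ⟨B', C', h', b1, b2⟩ := h.adj
      obtain ⟨H, r1, r2⟩ := ex_rp h.2.1 h'.2.1 b2 hY hg.2.1.isCompact (hg.2.2.trans hW)
      have e : ev (mu H G) = fun z => H z * G z := funext (mu_apply H G)
      refine ⟨_, p.adj h h' b1 b2, ?_⟩
      rw [slice p h r1 subset_rfl, ← Kn.ev_cj, slice p h' r2 (supp_cj G).subset,
        show mu (cj H) (cj G) = cj (mu H G) from SchwartzMap.ext fun z => by simp [mu_apply]]
      exact .fld B B' _ h.1 h'.1 b1 ⟨⟨_, rfl⟩, e ▸ hg.2.1.mul_left,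
        e ▸ tsupport_mul_subset_right.trans hg.2.2⟩)
      ⟨fun _ _ => 0, fun _ _ _ _ => by simp, by simpa using Tr.zero⟩
      fun A B z ⟨A1, a1, a2⟩ ⟨B1, b1, b2⟩ => ⟨fun f v => A1 f v + conj z • B1 f v,
        fun f v w hf => by
          simp only [inner_add_left, inner_smul_left, inner_add_right, inner_smul_right,
            a1 f v w hf, b1 f v w hf],
        by simpa only [map_add, map_smul] using a2.add _ _ _ _ (b2.smul z _ _)⟩
    rw [Tn.jE_coe, Tn.jE_coe, show A' (bar (ev G)) (p.q y).vac = A1 (bar (ev G)) o from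
      ext_inner_left ℂ fun v => (d _ v _ hg.1).symm.trans (d1 _ v _ hg.1)]
    exact r

end Sp2

open Sp2 in
/-- **Row PF**, from the double -/
theorem pf_row {D : Type*} [NormedAddCommGroup D] [InnerProductSpace ℂ D] {x : Ctx D} (t : E0 x)
    {E : Type*} [NormedAddCommGroup E] [InnerProductSpace ℂ E] {i : E →ₗᵢ[ℂ] H2 D} {o : E}
    {P : Fld D → Fld D → Fld E} (p : PW x.toCg i o P) (y : Hy x.toCg) {k : P352X.Ctx E}
    (hk : k.Q = p.q y) (pf : NA.PF k)
    (tp : ∀ s, 0 ≤ s → Tp (Tn.te (jE i)) (x.SK s) (x.SK s) (k.SK s)) : PF x := fun q => by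
  have h : Tn.Lt x.toCg q.B q.B := ⟨q.h, q.h, q.e, q.par, q.par⟩
  have b := EG.Bas.padj q.e _ _ q.a q.par
  have h' : Tn.Lt x.toCg q.B' q.B' := ⟨q.h', q.h', q.e, b, b⟩
  obtain ⟨N, hN⟩ := pf _ _ (hk ▸ p.q_fld y h) (hk ▸ p.q_fld y h') (p.adj h h' q.a q.a)
  refine ⟨N, fun T f hf => ?_⟩
  obtain ⟨F, rfl⟩ := hf.1
  rcases lt_or_ge T 0 with hT | hT
  · have : ∀ s, s ∉ Set.Icc 0 T := fun s hs => hT.not_ge (hs.1.trans hs.2)
    exact ⟨fun _ => _, fun _ => _, rfl, rfl, fun s hs => (this s hs).elim,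
      ⟨0, fun s hs => (this s hs).elim⟩, 0, fun s hs => (this s hs).elim⟩
  by_cases h0 : vcl q.h = 0
  · have z : ∀ f, IsTest f → q.B f x.Q.vac = 0 := by
      rintro _ ⟨G, rfl⟩
      exact Completion.coe_injective D ((DFunLike.congr_fun h0 G).trans Completion.coe_zero.symm)
    refine ⟨fun _ => 0, fun _ => 0, by rw [z _ hf.1, Completion.coe_zero], ?_, fun _ _ => .zero,
      by simpa using NA.Pol.zero, by simpa using NA.Pol.zero⟩
    rw [show q.B' (bar (ev F)) x.Q.vac = 0 from ext_inner_left ℂ fun v => by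
      rw [← q.a _ _ _ hf.1, Tn.fld_sep q.h z hf.1, inner_zero_left, inner_zero_right],
      Completion.coe_zero]
  obtain ⟨s, Y, H, G, h1, h2⟩ := ex_div q.h q.h' q.a h0 F ⟨hf.1, hf.2.1, hf.2.2.trans (rc_w0 hT)⟩
  choose! η η' e1 e2 e3 e4 e5 using fun z (hz : z ∈ s) => hN (ev (G z)) ⟨⟨_, rfl⟩,
    hf.2.1.isCompact.of_isClosed_subset (isClosed_tsupport _) (h1 z hz).2.1,
    fun w hw => NA.rc_be (hf.2.2 ((h1 z hz).2.1 hw))⟩
  have rg : ∀ z ∈ s, Set.Icc 0 T ⊆ {r | 0 ≤ r ∧ Reg (-r) (ev (G z))} := fun z hz r hr =>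
    ⟨hr.1, fun w hw => by
      rw [neg_neg]
      exact NA.rc_rh (NA.rc_le hr (hf.2.2 ((h1 z hz).2.1 hw)))⟩
  have sk : ∀ r, 0 ≤ r → ∀ ξ w, x.SK r (s1 (star (x.SK r) ξ) (jE i w)) =
      s1 ξ (jE i (k.SK r w)) := fun r hr ξ w => by
    have g : Tn.G2 x.toCg * Tn.mp (x.SK r) (x.SK r) = Tn.mp (x.SK r) (x.SK r) * Tn.G2 x.toCg := by
      rw [Tn.G2, Tn.mp_mul, Tn.mp_mul, x.gK]
    rw [p.em.tp_eq g (tp r hr), p.em.j_rd g, Tn.s1_mp, ContinuousLinearMap.star_eq_adjoint]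
  have pol : ∀ (ξ : V → Completion D) (η : V → ℝ → Completion E), (∀ z ∈ s,
      Pol N {r | 0 ≤ r ∧ Reg (-r) (ev (G z))} fun r => k.SK r (η z r)) → Pol N (Set.Icc 0 T)
        fun r => x.SK r (∑ z ∈ s, s1 (star (x.SK r) (ξ z)) (jE i (η z r))) := fun ξ η e =>
    (NA.Pol.sum s fun z hz => ((e z hz).sub (rg z hz)).map
      (s1 (ξ z) ∘L jE i).toLinearMap).congr fun r hr => by
        simp only [map_sum, sk r hr.1]
        rfl
  refine ⟨fun r => ∑ z ∈ s, s1 (star (x.SK r) (star (Y z) x.Om)) (jE i (η z r)),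
    fun r => ∑ z ∈ s, s1 (star (x.SK r) (Y z x.Om)) (jE i (η' z r)), ?_, ?_, fun r hr => ?_,
    pol _ _ e4, pol _ _ e5⟩
  · rw [← vcl_apply q.h, ← h2, map_sum]
    refine Finset.sum_congr rfl fun z hz => ?_
    rw [e1 z hz, x.sk0, star_one, Tn.jE_coe, hk]
    exact slice p h (h1 z hz).2.2.1 (h1 z hz).2.1
  · rw [← Kn.ev_cj, ← vcl_apply q.h', show cj F = ∑ z ∈ s, mu (cj (H z)) (cj (G z)) from
      SchwartzMap.ext fun w => by simp [← h2, mu_apply], map_sum]
    refine Finset.sum_congr rfl fun z hz => ?_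
    rw [e2 z hz, x.sk0, star_one, Tn.jE_coe, hk, ← Kn.ev_cj]
    exact slice p h' (h1 z hz).2.2.2 ((supp_cj _).subset.trans (h1 z hz).2.1)
  · refine tr_sum s fun z hz => tr_mono ?_ (Set.image_mono (h1 z hz).2.1)
    have := tr_slice p y hk (t.skc r hr.1 _ (h1 z hz).1) (by
      rintro _ ⟨w, hw, rfl⟩
      exact NA.rc_cph (NA.rc_le hr (hf.2.2 ((h1 z hz).2.1 hw)))) (e3 z hz r hr.1 (rg z hz hr).2)
    simp only [star_mul, star_star, ContinuousLinearMap.mul_apply, x.K_vac] at this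
    exact this

/-- **the double**, with the link and the descent of the polynomial families -/
theorem ex_lkP {D : Type*} [NormedAddCommGroup D] [InnerProductSpace ℂ D] (c : Cg D) (y : Hy c)
    (hU : UVac c.Q) {T : Ix → Ix → Fld D} (hT : c.Q.IsStress T) (hP : ND.PCh c.Q T c.A) :
    ∃ (E : Submodule ℂ (H2 D)) (k : P352X.Ctx E), k.tp ∧ Tn.Dbl c k.Q E.subtypeₗᵢ ∧
      k.N = Tn.N2 c (jE E.subtypeₗᵢ) ∧ MfAll k.Q ∧ FSL k.Q ∧
      Lk c T k (Tn.te (jE E.subtypeₗᵢ)) ∧ ∀ x : Ctx D, x.toCg = c → E0 x → NA.PF k →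
        (∀ s, 0 ≤ s → Tp (K := Completion E) (Tn.te (jE E.subtypeₗᵢ)) (x.SK s) (x.SK s) (k.SK s)) →
          PF x := by
  obtain ⟨E, o, P, p⟩ := Kn.ex_pw c y.big hU
  obtain ⟨A, R⟩ := p.ex_rep y
  obtain ⟨k, e1, e2, e, tp⟩ := EG.Pt.ctxN (p.q y) (Tn.t2 P T) A _ (p.str y hT hP R)
    (p.pch y ⟨hT.bose, hT.symm, hT.herm, fun m n L a f v => hT.cov m n 1 L a f v one_pos,
      hT.conserved, hT.charge⟩ hP R) (p.tfg y R) (p.lnm y R) (p.uvac y hU)
  have d : Tn.Dbl c k.Q E.subtypeₗᵢ := e1 ▸ p.dbl y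
  refine ⟨E, k, tp, d, e, e1 ▸ p.mfa y, e1 ▸ p.fsl y, d.lk e fun m n f hf => ?_, ?_⟩
  · rw [e1, e2]
    exact p.d1_vac y (Tn.ev_bose (hT.bose m n)) hf
  · rintro x rfl t pf tp
    exact pf_row t p y e1 pf tp

end

end Vale.Agent.N352.G.X
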