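import Vale.Agent.N352.X.W
import Vale.Agent.N352.X.PF
import Vale.Agent.N352.X.Ops
import Vale.Agent.N352.X.Dsc
import Vale.Agent.N352.Pk
import Vale.Agent.P352NA.W0
import Vale.Agent.P352NA.PF.Main
import Vale.Agent.P352NA.MOM.R1

/-!
# N352, block X: the assembly
-/

set_option linter.all false

namespace Vale.Agent.N352.G.X

open Vale.Agent.P352 Vale.Agent.P352.GF Vale.Agent.P352.BW Vale.Agent.P352.H246
open Vale.Agent.P352.H496 Vale.Agent.P352.H755 Vale.Agent.P352.H15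
open Vale.Agent.P352X Vale.Agent.P352X.EB
open UniformSpace (Completion)

universe u

variable {D : Type u} [NormedAddCommGroup D] [InnerProductSpace ℂ D] {T : Ix → Ix → Fld D}

/-- the context of a large graded theory, with all rows -/
theorem ex_fin (c : Cg D) (y : Tn.Hy c) (hU : UVac c.Q) (hT : c.Q.IsStress T)
    (hP : ND.PCh c.Q T c.A) : ∃ x : Ctx D, x.toCg = c ∧ x.T = T ∧ E0 x ∧ MIX c ∧ FIN x := by
  obtain ⟨E, k, tp, -, -, hM, hF, L, pf⟩ := ex_lkP c y hU hT hP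
  haveI : Fact k.tp := ⟨tp⟩
  have s := EB.e0_thm k (main k).1
  have s0 : NA.N0 k := ⟨s, NA.ee_thm k, hM, hF⟩
  obtain ⟨x, rfl, rfl, t, mix, u⟩ := descend L hT s.toT2.toT1 (flow_row s)
  have p := pf x rfl t (NA.pf_row s0 (NA.cov_row s0)) u
  have h0 := cov0_row y.mf y.fs
  have hc := cov_row h0
  have t2 : E2 x := ⟨t, hc, wrd_row t hc p NA.rig_row, loc_row t hc p NA.rig_row⟩
  exact ⟨x, rfl, rfl, t, mix, fin_of t hc h0 (ops_row t2 _) fun e w F _ => afw_row t2 e w F⟩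

theorem ExtC.of_bg {c : Cg D} {D' : Submodule ℂ (Completion D)} {Q' : Theory D'} {G' : D' → D'}
    {e : Fld D → Fld D'} (E : ExtC (Tn.bg c).Q (Tn.bg c).Γ Q' G' e) : ExtC c.Q c.Γ Q' G' e :=
  have m : ∀ w, Cyc c.Q w → Cyc (Tn.bg c).Q w := fun w h S a b =>
    h S a fun B f v hB => b B f v (Tn.bg_fld hB)
  ⟨E.toGr, fun w h => E.mem w (m w h), E.vac, E.G, E.U, fun B h => E.fld B (Tn.bg_fld h),
    fun B h => E.bos B (Tn.bg_bose h), fun B B' a b => E.adj B B' (Tn.bg_fld a) (Tn.bg_fld b),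
    fun B f v w a b d => E.agree B f v w (Tn.bg_fld a) b (m w d)⟩

/-- **Conformal invariance for a stress tensor of dimension four.** -/
theorem conf_thm (c : Cg D) (hU : UVac c.Q) (hM : MfAll c.Q) (hF : FSL c.Q) (hT : c.Q.IsStress T)
    (hP : ND.PCh c.Q T c.A) : CONF c T := by
  have y : Tn.Hy (Tn.bg c) := ⟨Tn.bg_big c, Tn.bg_mfa hM, Tn.bg_fsl hF⟩
  obtain ⟨x, e1, rfl, -, mix, fin⟩ := ex_fin _ y hU (Tn.bg_str hT)
    (Tn.bg_pch (fun m n => c.Q.bose_fld _ (hT.bose m n)) hP)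
  have h := conf_of x (e1 ▸ y.mf :) (e1 ▸ y.fs :) (e1 ▸ mix) fin
  rw [e1] at h
  obtain ⟨D', Q', G', e, L, h1, h2⟩ := h
  exact ⟨D', Q', G', e, L, h1.of_bg, h2⟩

/-- **Scale invariant theories with a graded local net are conformally invariant.** -/
theorem final (c : Cg D) (hU : UVac c.Q) (hM : MfAll c.Q) (hF : FSL c.Q) (hT : Stress0 c.Q T)
    (hP : ND.PCh c.Q T c.A) :
    NoLog c.Q T ∧ ∃ T', c.Q.IsStress T' ∧ ND.PCh c.Q T' c.A ∧ CONF c T' := by
  have hL := Tn.nologD c hU hM hF hT hP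
  obtain ⟨T', a1, a2⟩ := EG.H.st T hF hL hT hP
  exact ⟨hL, T', a1, a2, conf_thm c hU hM hF a1 a2⟩

end Vale.Agent.N352.G.X
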