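import Vale.Agent.N352.X.XT
import Vale.Agent.P352X.EH.FSG

/-!
# N352, block X: scaling laws, parities and multiplets in an extension
-/

set_option linter.all false

open Filter Topology
open scoped ComplexConjugate

namespace Vale.Agent.N352.G.X

open Vale.Agent.P352 Vale.Agent.P352.GF Vale.Agent.P352.BW Vale.Agent.P352.H246
open Vale.Agent.P352.H496 Vale.Agent.P352.H755 Vale.Agent.P352.H15
open Vale.Agent.P352.SubConf (IsAdj)
open Vale.Agent.P352X Vale.Agent.P352X.EB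
open UniformSpace (Completion)

noncomputable section

variable {D : Type*} [NormedAddCommGroup D] [InnerProductSpace ℂ D] {c : Cg D}
  {D' : Submodule ℂ (Completion D)} {Q' : Theory D'} {G' : D' → D'} {e : Fld D → Fld D'}
  (E : ExtC c.Q c.Γ Q' G' e) {B : Fld D}
include E

theorem ext_odd (h : Fer c.Q c.G B) : Fer Q' G' (e B) := by
  refine ⟨E.fld _ h.1, fun f v hf => ext_C c.Q fun y hy => ?_⟩
  obtain ⟨B', b, hA⟩ := c.Q.adj B h.1
  have pa := EG.Bas.padj true B B' hA (fun f v hf => (h.2 f v hf).trans (neg_one_smul ℂ _).symm) _ y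
    (Ap.test_bar hf)
  rw [sg_true, neg_one_smul] at pa
  rw [ext_aff E h.1 b hA hf _ hy, Submodule.coe_neg, inner_neg_left, E.G, E.G, (gd c).gi, (gd c).gi,
    c.hN.ext, c.hN.ext, ext_aff E h.1 b hA hf _ (cyc_G hy), pa, Completion.coe_neg,
    inner_neg_right, neg_neg]

/-- linear relations pass to the extension -/
theorem ext_sum {ι : Type} [Fintype ι] {C : ι → Fld D} (hB : c.Q.fld B) (hC : ∀ i, c.Q.fld (C i))
    (h : ∀ f v, IsTest f → B f v = ∑ i, C i f v) {f : Fn} (hf : IsTest f) (v : D') :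
    e B f v = ∑ i, e (C i) f v := ext_C c.Q fun y hy => by
  obtain ⟨B', b, d⟩ := c.Q.adj B hB
  choose C' b' d' using fun i => c.Q.adj _ (hC i)
  have : B' (bar f) y = ∑ i, C' i (bar f) y := ext_inner_left ℂ fun z => by
    rw [← d f z y hf, h f z hf, sum_inner, inner_sum]
    exact Finset.sum_congr rfl fun i _ => d' i f z y hf
  rw [ext_aff E hB b d hf v hy, this, STRa.coe_sum, inner_sum, Submodule.coe_sum, sum_inner]
  exact Finset.sum_congr rfl fun i _ => (ext_aff E (hC i) (b' i) (d' i) hf v hy).symm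

variable (hc : COV0 c) {Q'' : Theory D'} (n : IsEnl Q' Q'')
include hc n

/-- scaling laws pass to the extension -/
theorem ext_scl (hB : c.Q.fld B) {F : Finset (ℂ × ℕ)} {C : ℂ × ℕ → Fld D}
    (h : Scl c.Q B F C) (hb : Q''.bose (e B) → c.Q.bose B) : Scl Q'' (e B) F fun p => e (C p) := by
  refine ⟨fun p => ⟨n.fld _ (E.fld _ (h.1 p).1), fun b => n.bose _ (E.bos _ ((h.1 p).2 (hb b)))⟩,
    fun s f v hs hf => ?_⟩
  rw [n.U, ← Finset.sum_coe_sort]
  exact ext_cov hc E ⟨s, _, 0, hs, H496.isLor_one⟩ hB (fun i : F => (h.1 i).1) (fun g w hg =>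
    (h.2 s g w hs hg).trans (Finset.sum_coe_sort _ _).symm) hf v

variable (hF : FSL c.Q) (g : Gr Q'' G') {τ : Ix → Ix → Fld D'}
  (h : ∀ (p : Bool) (k : Rp) (Φ : Fin k.n → Fld D') μ, (∀ ν, ∃ F B, Scl Q'' (Φ ν) F B) →
    IsMl Q'' k Φ → (∀ a, if p then Fer Q'' G' (Φ a) else Q''.bose (Φ a)) →
    DescS Q'' G' τ p (Φ μ))
include hF g h

theorem desc_cmp {p : Bool} {C : Fld D} (hC : EG.H.Cmp c p C) :
    ∃ C', DescS Q'' G' τ p C' ∧ ∀ f v, IsTest f → e C f v = C' f v := by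
  obtain ⟨k, Φ, a, m, rfl⟩ := hC
  have key : ∀ b, ∃ B, c.Q.fld B ∧ (if p then Fer Q'' G' (e B) else Q''.bose (e B)) ∧
      (∀ f v, IsTest f → Φ b f v = B f v) ∧ ∃ F C, Scl Q'' (e B) F C := fun b => by
    cases p
    · obtain ⟨B, h1, h2⟩ := EG.Bas.even (m.mf.1 b) (m.par b)
      obtain ⟨F, C, h3⟩ := hF B (c.Q.bose_fld _ h1)
      exact ⟨B, c.Q.bose_fld _ h1, n.bose _ (E.bos _ h1), h2, F, _,
        ext_scl E hc n (c.Q.bose_fld _ h1) h3 fun _ => h1⟩
    · have h1 := ext_odd E (EG.Bas.odd (m.mf.1 b) (m.par b))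
      refine ⟨Φ b, m.mf.1 b, ⟨n.fld _ h1.1, h1.2⟩, fun _ _ _ => rfl, ?_⟩
      by_cases hb : Q''.bose (e (Φ b))
      · refine ⟨∅, fun _ => e (Φ b), fun _ => ⟨n.fld _ h1.1, id⟩, fun s f v _ hf => ?_⟩
        have z : G' (e (Φ b) f (G' (Q''.U s GF.one 0 v))) = 0 :=
          (smul_eq_zero.1 ((two_smul ℂ _).trans (add_eq_zero_iff_eq_neg.2
            ((g.bose _ f _ hb hf).symm.trans (h1.2 f _ hf))))).resolve_left two_ne_zero
        rwa [← g.bose _ f _ hb hf, g.inv] at z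
      · obtain ⟨F, C, h3⟩ := hF _ (m.mf.1 b)
        exact ⟨F, _, ext_scl E hc n (m.mf.1 b) h3 fun a => absurd a hb⟩
  choose Ψ h1 h2 h3 h4 using key
  refine ⟨e (Ψ a), h p k (fun b => e (Ψ b)) a h4 (fun b L f v hL hf => ?_) h2, fun f v hf => ?_⟩
  · rw [n.U]
    exact ext_cov hc E ⟨1, L, 0, one_pos, hL⟩ (h1 b) h1 (fun g w hg => by
      have := m.mf.2 b L g w hL hg
      simp only [h3 _ _ _ hg, h3 _ _ _ (Ap.test_sim one_pos hL 0 hg)] at this
      exact this) hf v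
  · simpa using ext_sum E (ι := Unit) (m.mf.1 a) (fun _ => h1 a)
      (fun f v hf => by simpa using h3 a f v hf) hf v

theorem desc_fld (hD : EG.H.MdAll c) (hB : c.Q.fld B) : ∃ (m : ℕ) (p : Fin m → Bool)
    (C : Fin m → Fld D'), (∀ i, DescS Q'' G' τ (p i) (C i)) ∧
      ∀ f v, IsTest f → e B f v = ∑ i, C i f v := by
  obtain ⟨m, q, h1⟩ := hD B hB
  choose C a b using fun i => desc_cmp E hc n hF g h (q i).h
  refine ⟨m, _, C, a, fun f v hf => (ext_sum E hB (fun i => ?_) h1 hf v).trans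
    (Finset.sum_congr rfl fun i _ => b i f v hf)⟩
  obtain ⟨k, Φ, a, m, e⟩ := (q i).h
  exact e ▸ m.mf.1 a

end

end Vale.Agent.N352.G.X
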