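import Vale.Agent.N352.X.COV
import Vale.Agent.P352X.EB.STR

/-!
# N352, block X: extensions
-/

set_option linter.all false

open Filter Topology
open scoped ComplexConjugate

namespace Vale.Agent.N352.G.X

open Vale.Agent.P352 Vale.Agent.P352.GF Vale.Agent.P352.BW Vale.Agent.P352.H246
open Vale.Agent.P352.H496 Vale.Agent.P352.H755 Vale.Agent.P352.H15
open Vale.Agent.P352.SubConf (IsAdj)
open Vale.Agent.P352X Vale.Agent.P352X.EB
open Vale.Agent.P352X.EB.NA (ul)
open UniformSpace (Completion)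
open Complex (I)

noncomputable section

variable {D : Type*} [NormedAddCommGroup D] [InnerProductSpace ℂ D] {c : Cg D} {Q : Theory D}
  {Γ : Completion D →L[ℂ] Completion D} {D' : Submodule ℂ (Completion D)} {Q' : Theory D'}
  {G' : D' → D'} {e : Fld D → Fld D'} {B B' : Fld D} {f : Fn} {w : D}

theorem cyc_vac : Cyc Q Q.vac := fun _ h _ => h

theorem cyc_fld (hB : Q.fld B) (hf : IsTest f) (h : Cyc Q w) : Cyc Q (B f w) :=
  fun S a b => b B f w hB hf (h S a b)

/-- the vectors generated from the vacuum -/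
def cs (Q : Theory D) : Submodule ℂ D where
  carrier := {w | Cyc Q w}
  add_mem' := fun h h' S a b => S.add_mem (h S a b) (h' S a b)
  zero_mem' := fun S _ _ => S.zero_mem
  smul_mem' := fun z _ h S a b => S.smul_mem z (h S a b)

theorem cs_dense (Q : Theory D) : DenseRange fun w : cs Q => ((w : D) : Completion D) :=
  Completion.denseRange_coe.comp
    (Q.cyclic (cs Q) cyc_vac fun _ _ _ a b d => cyc_fld a b d).denseRange_val
    (Completion.continuous_coe D)

theorem ext_C (Q : Theory D) {x y : D'} (h : ∀ w : D, Cyc Q w →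
    inner ℂ (x : Completion D) (w : Completion D) = inner ℂ (y : Completion D) (w : Completion D)) :
    x = y := STRa.ext_dense (cs_dense Q) fun w => h w w.2

/-- the domain of an extension is dense -/
theorem ExtC.dense (E : ExtC Q Γ Q' G' e) : Dense (D' : Set (Completion D)) :=
  Dense.mono (by rintro _ ⟨w, rfl⟩; exact E.mem w w.2) (cs_dense Q)

theorem U_U (c : Cg D) (g : Sg) :
    (∀ v, c.Q.U g.s g.L g.a (c.Q.U g.inv.s g.inv.L g.inv.a v) = v) ∨
      ∀ v, c.Q.U g.s g.L g.a (c.Q.U g.inv.s g.inv.L g.inv.a v) = c.G v :=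
  (EG.SGx.mul0 c g g.inv).imp (fun h v => Completion.coe_injective D (by
    rw [← Grp.coe g.hs g.hL, ← Grp.coe g.inv.hs g.inv.hL]
    exact DFunLike.congr_fun (h.trans (EG.SGx.one0 c g)) _)) fun h v =>
      Completion.coe_injective D (by
        rw [EG.SGx.one0, mul_one] at h
        rw [← Grp.coe g.hs g.hL, ← Grp.coe g.inv.hs g.inv.hL, ← c.hN.ext]
        exact DFunLike.congr_fun h _)

theorem U_inj (c : Cg D) (g : Sg) : Function.Injective (c.Q.U g.s g.L g.a) := fun v w h =>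
  ext_inner_left ℂ fun z => by
    rw [← c.Q.U_inner _ _ g.a _ _ g.hs g.hL, h, c.Q.U_inner _ _ g.a _ _ g.hs g.hL]

/-- the grading as a linear map -/
def gl (c : Cg D) : D →ₗ[ℂ] D := ⟨⟨c.G, EG.Bas.gadd⟩, EG.Bas.gsmul⟩

theorem cyc_G (h : Cyc c.Q w) : Cyc c.Q (c.G w) := by
  refine h ((cs c.Q).comap (gl c)) ?_ fun A f v hA hf hv => ?_
  · show Cyc c.Q (c.G _)
    rw [c.hN.vac]
    exact cyc_vac
  obtain ⟨q, -, -, h⟩ := ex_split hA
  show Cyc c.Q (c.G _)
  rw [h f v hf, EG.Bas.gadd, EG.Bas.pa' (q false).par hf, EG.Bas.pa' (q true).par hf]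
  exact (cs c.Q).add_mem ((cs c.Q).smul_mem _ (cyc_fld (q _).h hf hv))
    ((cs c.Q).smul_mem _ (cyc_fld (q _).h hf hv))

theorem cyc_U (hc : COV0 c) (g : Sg) (h : Cyc c.Q w) : Cyc c.Q (c.Q.U g.s g.L g.a w) := by
  refine h ((cs c.Q).comap (ul c.Q g)) ?_ fun A f v hA hf hv => ?_
  · show Cyc c.Q (c.Q.U _ _ _ _)
    rw [c.Q.U_vac _ _ _ g.hs g.hL]
    exact cyc_vac
  obtain ⟨A', hA', d⟩ := c.Q.adj A hA
  obtain ⟨_, n, q, κ, -, h2⟩ := hc A A' hA hA' d
  obtain ⟨u, hu, rfl⟩ : ∃ u, Cyc c.Q u ∧ c.Q.U g.inv.s g.inv.L g.inv.a u = v :=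
    (U_U c g).elim (fun h => ⟨_, hv, U_inj c g (h _)⟩)
      fun h => ⟨_, cyc_G hv, U_inj c g ((h _).trans (c.hN.inv _))⟩
  rw [Submodule.mem_comap, (h2 g.inv f u hf).1, map_sum]
  refine Submodule.sum_mem _ fun i _ => ?_
  rw [map_smul]
  refine Submodule.smul_mem _ _ ?_
  have := cyc_fld (q i).h (test_pull g.inv hf) hu
  show Cyc c.Q (c.Q.U _ _ _ _)
  rcases U_U c g with h | h <;> rw [h]
  exacts [this, cyc_G this]

theorem ext_aff (E : ExtC Q Γ Q' G' e) (a : Q.fld B) (b : Q.fld B') (d : IsAdj B B')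
    (hf : IsTest f) (v : D') (h : Cyc Q w) : inner ℂ (e B f v : Completion D) (w : Completion D) =
      inner ℂ (v : Completion D) (B' (bar f) w : Completion D) := by
  rw [← E.agree B' _ ⟨_, E.mem w h⟩ w b (Ap.test_bar hf) h rfl]
  exact E.adj B B' a b d f v ⟨_, E.mem w h⟩ hf

/-- covariance passes to the adjoints -/
theorem cov_adj (g : Sg) {ι : Type} [Fintype ι] {Φ Φ' : ι → Fld D} {κ : ι → ℂ} (h : IsAdj B B')
    (h' : ∀ i, IsAdj (Φ i) (Φ' i)) (k : ∀ f v, IsTest f → B f (c.Q.U g.s g.L g.a v) =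
      ∑ i, κ i • c.Q.U g.s g.L g.a (Φ i (g.pull f) v)) (f : Fn) (w : D) (hf : IsTest f) :
    B' f (c.Q.U g.s g.L g.a w) = ∑ i, conj (κ i) • c.Q.U g.s g.L g.a (Φ' i (g.pull f) w) := by
  let E := (Fintype.equivFin ι).symm
  rw [← E.sum_comp]
  exact EG.Bas.sadj (EG.sg_row c) _ _ _ _ (fun i => κ (E i)) _ _ _ _ g.hs g.hL h (fun i => h' (E i))
    (fun f v hf => (k f v hf).trans (E.sum_comp _).symm) f w hf

/-- covariance relations pass to the extension -/
theorem ext_cov (hc : COV0 c) (E : ExtC c.Q Γ Q' G' e) (g : Sg) {ι : Type} [Fintype ι]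
    {C : ι → Fld D} {κ : ι → ℂ} (hB : c.Q.fld B) (hC : ∀ i, c.Q.fld (C i))
    (h : ∀ f v, IsTest f → B f (c.Q.U g.s g.L g.a v) =
      ∑ i, κ i • c.Q.U g.s g.L g.a (C i (g.pull f) v)) (hf : IsTest f) (v : D') :
    e B f (Q'.U g.s g.L g.a v) = ∑ i, κ i • Q'.U g.s g.L g.a (e (C i) (g.pull f) v) := by
  obtain ⟨B', b, hB'⟩ := c.Q.adj B hB
  choose C' b' hC' using fun i => c.Q.adj (C i) (hC i)
  have h0 := fun w => cov_adj g hB' hC' h _ w (Ap.test_bar hf)
  have hU := (EG.SGx.uni0 c g).1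
  have hW : ∀ x y, inner ℂ (Ug c.Q g.s g.L g.a x) (Ug c.Q g.s g.L g.a y) = inner ℂ x y :=
    ContinuousLinearMap.inner_map_map_of_mem_unitary hU
  refine STRa.ext_dense (u := fun w : cs c.Q => Ug c.Q g.s g.L g.a (w : D))
    ((Function.Surjective.denseRange fun z => ⟨star (Ug c.Q g.s g.L g.a) z,
      DFunLike.congr_fun hU.2 z⟩).comp
      (cs_dense c.Q) (Ug c.Q g.s g.L g.a).continuous) fun w => ?_
  have h2 : ∀ z : D', (Q'.U g.s g.L g.a z : Completion D) = Ug c.Q g.s g.L g.a z := fun z =>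
    (E.U _ _ _ z g.hs g.hL).trans (Ug_apply _ g.hs g.hL _ _).symm
  have h3 : ∀ z : D, ((c.Q.U g.s g.L g.a z : D) : Completion D) = Ug c.Q g.s g.L g.a z := fun z =>
    (Grp.coe g.hs g.hL _ z).symm
  conv_lhs => rw [← h3, ext_aff E hB b hB' hf _ (cyc_U hc g w.2), h0, h2]
  simp only [STRa.coe_sum, Completion.coe_smul, Submodule.coe_sum, Submodule.coe_smul, inner_sum,
    sum_inner, inner_smul_left, inner_smul_right, h2, h3, hW, fun i =>
      ext_aff E (hC i) (b' i) (hC' i) (test_pull g hf) v w.2]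
  rfl

/-- the stress tensor of an extension -/
theorem str0 {T : Ix → Ix → Fld D} (hT : c.Q.IsStress T) (hc : COV0 c) (E : ExtC c.Q Γ Q' G' e)
    (hA : ∀ A, Q'.fld A → ∃ (n : ℕ) (B : Fin n → Fld D), (∀ i, c.Q.fld (B i)) ∧
      ∀ f v, IsTest f → A f v = ∑ i, e (B i) f v) : Q'.IsStress fun m n => e (T m n) := by
  have hf : ∀ m n, c.Q.fld (T m n) := fun m n => c.Q.bose_fld _ (hT.bose m n)
  have ha := fun m n f (h : IsTest f) (v : D') (w : D) (hw : Cyc c.Q w) =>
    ext_aff E (hf m n) (hf m n) (hT.herm m n) h v hw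
  refine ⟨fun m n => E.bos _ (hT.bose m n), fun m n f v h => ext_C c.Q fun w hw => ?_,
    fun m n => E.adj _ _ (hf m n) (hf m n) (hT.herm m n), fun m n s L a f v hs hL h => ?_,
    fun n f v h => ext_C c.Q fun w hw => ?_, fun F n B f v w hF hB h hs => ?_⟩
  · rw [ha _ _ _ h _ _ hw, ha _ _ _ h _ _ hw, hT.symm m n _ _ (Ap.test_bar h)]
  · exact (ext_cov hc E ⟨s, L, a, hs, hL⟩ (C := fun p : Ix × Ix => T p.1 p.2)
      (κ := fun p => (L p.1 m * L p.2 n : ℂ)) (hf m n) (fun _ => hf _ _) (fun g w hg =>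
        (hT.cov m n s L a g w hs hL hg).trans (Fintype.sum_prod_type' _).symm) h v).trans
      (Fintype.sum_prod_type _)
  · rw [Submodule.coe_sum, sum_inner]
    simp only [ha _ _ _ (Ap.test_pd _ h) _ _ hw, H755.bar_pd h]
    rw [← inner_sum, ← STRa.coe_sum, hT.conserved n _ w (Ap.test_bar h), Completion.coe_zero,
      inner_zero_right, Submodule.coe_zero, inner_zero_left]
  · obtain ⟨k, C, hC, h1⟩ := hA B hB
    choose C' hC' adj using fun i => c.Q.adj (C i) (hC i)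
    have hb : HasCompactSupport (bar f) := hs.comp_left (g := star) (star_zero _)
    refine tendsto_const_nhds.congr' ?_
    filter_upwards [STRa.exact_charge hT hF (Ap.test_bar h) hb, eventually_gt_atTop 0] with R hR R0
    obtain ⟨a, b, -, -, -, -, h2⟩ := hF
    obtain ⟨h3, h4⟩ := h2 R R0
    have h5 : bar (F R) = F R := funext fun x => by
      change conj (F R x) = F R x
      rw [h4, map_mul, Complex.conj_ofReal, Complex.conj_ofReal]
    congr 1
    refine ext_C c.Q fun z hz => ?_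
    have h6 := fun i g (hg : IsTest g) (u : D') (y : D) (hy : Cyc c.Q y) =>
      ext_aff E (hC i) (hC' i) (adj i) hg u hy
    rw [Submodule.coe_sub, inner_sub_left, ha _ _ _ h3 _ _ hz, h1 _ _ h, h1 _ _ h,
      h1 _ _ (Ap.test_pd n h), h5]
    simp only [Submodule.coe_sum, Submodule.coe_smul, sum_inner, inner_smul_left, h6 _ _ h _ _ hz,
      h6 _ _ h _ _ (cyc_fld (hf _ _) h3 hz), h6 _ _ (Ap.test_pd n h) _ _ hz,
      ha _ _ _ h3 _ _ (cyc_fld (hC' _) (Ap.test_bar h) hz), h5, H755.bar_pd h]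
    rw [← Finset.sum_sub_distrib, Finset.mul_sum]
    refine Finset.sum_congr rfl fun i _ => ?_
    rw [← inner_sub_right, ← Completion.coe_sub, ← neg_sub, hR _ (hC' i), Completion.coe_neg,
      Completion.coe_smul, inner_neg_right, inner_smul_right]
    simp

end

end Vale.Agent.N352.G.X
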