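import Vale.Agent.N352.X.Tm
import Vale.Agent.N352.X.Rec
import Vale.Agent.N352.X.XT
import Vale.Agent.P352X.EB.FIN

/-!
# N352, block X, row FIN: the extension with the local potential
-/

set_option linter.all false

open Filter Topology
open scoped ComplexConjugate

namespace Vale.Agent.N352.G.X

open Vale.Agent.P352 Vale.Agent.P352.GF Vale.Agent.P352.BW Vale.Agent.P352.H246
open Vale.Agent.P352.H496 Vale.Agent.P352.H755 Vale.Agent.P352.H15
open Vale.Agent.P352.SubConf (IsAdj)
open Vale.Agent.P352X Vale.Agent.P352X.EB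
open UniformSpace (Completion)

noncomputable section

variable {D : Type*} [NormedAddCommGroup D] [InnerProductSpace ℂ D] {c : Ctx D}

/-- the labels: fields with parity, and the potential -/
abbrev Lab (c : Ctx D) : Type _ := Option (Lb c.toCg)

/-- the vectors of a label -/
def ph (c : Ctx D) : Lab c → Fn → Completion D
  | none => c.l
  | some p => fun f => (p.B f c.Q.vac : D)

theorem pot_U (c : Ctx D) (g : Sh c.toCg) {f : Fn} (hf : IsTest f) :
    c.l f = ((g.s ^ 2 : ℝ) : ℂ) • g.U c.toCg (c.l (g.pull f)) := by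
  have h := Sq.pot (c := c.toCg) c.hl g.a g.hs g.hL hf
  rw [U_par g (e := false) ((Sq.l_even (c := c.toCg) c.hT c.hl
    (Ap.test_sim g.hs g.hL g.a hf)).trans (one_smul _ _).symm), Bool.and_false, sg_false,
    one_smul] at h
  rw [Complex.coe_smul]
  exact (smul_inv_smul₀ (pow_pos g.hs 2).ne' _).symm.trans (congrArg _ h.symm)

/-- the letters -/
def lx (hc : COV c.toCg) : Lt c (Lab c) where
  dag := Option.map Lb.dag
  φ := ph c
  p a := a.elim false Lb.e
  dag2 := by rintro (_ | p) <;> rfl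
  pdag := by rintro (_ | p) <;> rfl
  par := by
    rintro (_ | p) f hf
    exacts [(Sq.l_even (c := c.toCg) c.hT c.hl hf).trans (one_smul _ _).symm, p.pvac hf]
  lin := by
    rintro (_ | p) f g z h1 h2
    · exact c.hl.lin f g z h1 h2
    · show ((_ : D) : Completion D) = (_ : D) + z • ((_ : D) : Completion D)
      rw [c.Q.lin _ f g z _ p.h h1 h2, Completion.coe_add, Completion.coe_smul]
  cont := by
    rintro (_ | p)
    exacts [c.hl.cont, (Completion.continuous_coe D).comp (c.Q.cont _ _ p.h)]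
  ty := by
    rintro (_ | p)
    exacts [⟨true, fun _ => rfl, fun K f h => ⟨f, h, rfl⟩⟩,
      ⟨false, nofun, fun K f h => Tr.fld _ _ f p.h p.h' p.a h⟩]
  cov := by
    rintro (_ | p) g
    · refine ⟨1, fun _ => ((g.s ^ 2 : ℝ) : ℂ), fun _ => none, fun f h0 => ?_⟩
      rw [Fin.sum_univ_one, Complex.conj_ofReal]
      exact pot_U c g h0
    · obtain ⟨_, n, q, κ, -, h2⟩ := hc _ _ p.h p.h' p.a
      exact ⟨n, κ g, fun i => some (q i), fun f h0 => (h2 g f h0).2⟩
  tra := by
    rintro (_ | p) y f h0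
    · simpa using! pot_U c ⟨⟨1, GF.one, y, one_pos, H496.isLor_one⟩, false⟩ h0
    · show ((_ : D) : Completion D) = Ut c.Q y (_ : D)
      rw [Ut, Grp.coe one_pos H496.isLor_one, ← c.Q.transl _ _ _ _ p.h h0,
        c.Q.U_vac _ _ _ one_pos H496.isLor_one]
  dil := by
    rintro (_ | p)
    · refine ⟨2, 1, fun _ => none, fun s hs => ⟨fun _ => ((s ^ 2 : ℝ) : ℂ),
        fun _ => by simp [abs_of_pos (one_pos.trans_le hs)], fun f h0 => ?_⟩⟩
      rw [Fin.sum_univ_one, Complex.conj_ofReal]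
      exact pot_U c ⟨⟨s, GF.one, 0, one_pos.trans_le hs, H496.isLor_one⟩, false⟩ h0
    · obtain ⟨e, n, q, κ, h3, h2⟩ := hc _ _ p.h p.h' p.a
      exact ⟨e, n, fun i => some (q i), fun s hs =>
        let g : Sh c.toCg := ⟨⟨s, GF.one, 0, one_pos.trans_le hs, H496.isLor_one⟩, false⟩
        ⟨κ g, h3 g hs rfl, fun f h0 => (h2 g f h0).2⟩⟩

open Classical in
/-- a decomposition into labels -/
def dec (c : Cg D) (B : Fld D) : Σ n : ℕ, Fin n → Lb c :=
  if h : ∃ q : Σ n : ℕ, Fin n → Lb c, ∀ f v, IsTest f → B f v = ∑ i, (q.2 i).B f v then h.choose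
  else ⟨0, Fin.elim0⟩

theorem dec_spec {c : Cg D} {B : Fld D} (hB : c.Q.fld B) :
    ∀ f v, IsTest f → B f v = ∑ i, ((dec c B).2 i).B f v := by
  have h : ∃ q : Σ n : ℕ, Fin n → Lb c, ∀ f v, IsTest f → B f v = ∑ i, (q.2 i).B f v :=
    let ⟨q, _, _, h⟩ := ex_split hB
    ⟨⟨2, ![q false, q true]⟩, fun f v hf => (h f v hf).trans (by simp)⟩
  rw [dec, dif_pos h]
  exact h.choose_spec

/-- the extension of the field `B` -/
def ee (x : Lt c (Lab c)) (B : Fld D) : Fld x.Dn := fun f v =>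
  ∑ i, x.o (some ((dec c.toCg B).2 i)) f v

open Fin' in
theorem fin_of (t : E0 c) (hc : COV c.toCg) (h0 : COV0 c.toCg) (o : OPS (lx hc))
    (af : EXT (lx hc) → WP (lx hc) → FS (lx hc) → ∀ Q : Theory (lx hc).Dn,
      (Q.vac : Completion D) = c.Om → (∀ B, Q.fld B ↔ (lx hc).Fs (fun _ => True) B) →
      AfW c.N Q (↑)) : FIN c := by
  set x := lx hc with hx
  have t1 : E1 x := ⟨t, o⟩
  have E := ext_row t1 (tmp_row t1 (jb_row t1))
  have w := wp_row t1 E
  have F := fs_row w
  have V' := cv_row t1 E w F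
  have r := rec_row t F V'
  have h2 : ∀ p : Lb c.toCg, x.Is (some p) p.B p.B' := fun p =>
    ⟨p.h, p.h', p.a, fun _ _ => ⟨rfl, rfl⟩⟩
  have gd := Rq.gd t.sg V'
  have adj : ∀ B B' f (v : x.Dn) (u : D), c.Q.fld B → IsAdj B B' → IsTest f → Cyc c.Q u →
      inner ℂ (ee x B f v : Completion D) (u : Completion D) =
        inner ℂ (v : Completion D) (B' (bar f) u : Completion D) := by
    intro B B' f v u hB hA hf hu
    have e : B' (bar f) u = ∑ i, ((dec c.toCg B).2 i).B' (bar f) u :=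
      ext_inner_left ℂ fun y => by
        rw [← hA f y u hf, dec_spec hB f y hf, sum_inner, inner_sum]
        exact Finset.sum_congr rfl fun i _ => ((dec c.toCg B).2 i).a f y u hf
    rw [e, coe_sum, inner_sum, ee, Submodule.coe_sum, sum_inner]
    exact Finset.sum_congr rfl fun i _ => F.aff _ _ _ f v u (h2 _) hf hu
  have eq : ∀ (p : Lb c.toCg) f v, IsTest f → x.o (some p) f v = ee x p.B f v := fun p f v hf =>
    ext_C c.Q fun y hy => by rw [F.aff _ _ _ f v y (h2 p) hf hy, adj _ _ f v y p.h p.a hf hy]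
  have agree : ∀ B f (v : x.Dn) (u : D), c.Q.fld B → IsTest f → Cyc c.Q u →
      (v : Completion D) = u → (ee x B f v : Completion D) = (B f u : D) := by
    intro B f v u hB hf hu e
    obtain ⟨B', -, hA⟩ := c.Q.adj B hB
    refine (cs_dense c.Q).eq_of_inner_left ℂ fun y => ?_
    rw [adj B B' f v y hB hA hf y.2, e, Completion.inner_coe, Completion.inner_coe, hA f u y hf]
  have cyc : ∀ S : Submodule ℂ x.Dn, (∀ v : x.Dn, (v : Completion D) = c.Om → v ∈ S) →
      (∀ p f v, IsTest f → v ∈ S → x.o (some p) f v ∈ S) → ∀ u, Cyc c.Q u →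
      ∃ v ∈ S, (v : Completion D) = u := fun S a1 a2 u hu =>
    (hu (cs c.Q ⊓ (S.map x.Dn.subtype).comap
      (Completion.toComplL : D →L[ℂ] Completion D).toLinearMap)
      ⟨cyc_vac, ⟨c.Om, F.vac⟩, a1 _ rfl, rfl⟩ (by
        rintro B f u hB hf ⟨h, v, hv, e⟩
        exact ⟨cyc_fld hB hf h, ee x B f v, S.sum_mem fun i _ => a2 _ f v hf hv,
          agree B f v u hB hf h e⟩)).2
  have cyc' : ∀ P : Lab c → Prop, (∀ p, P (some p)) → ∀ S : Submodule ℂ x.Dn,
      (∀ v : x.Dn, (v : Completion D) = c.Om → v ∈ S) →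
      (∀ a f v, P a → IsTest f → v ∈ S → x.o a f v ∈ S) → Dense (S : Set x.Dn) :=
    fun P hP S a1 a2 v => by
      rw [closure_subtype]
      refine closure_mono ?_ (cs_dense c.Q v)
      rintro _ ⟨u, rfl⟩
      exact cyc S a1 (fun p f v hf hv => a2 _ f v (hP p) hf hv) u u.2
  have ud := fun s L a v hs hL => Rq.ud V' (s := s) (L := L) hs hL a v
  have ex : ∀ (P : Lab c → Prop) (Q' : Theory x.Dn), (∀ p, P (some p)) →
      (Q'.vac : Completion D) = c.Om → Q'.U = x.Ud → (∀ B, Q'.fld B ↔ x.Fs P B) →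
      (∀ B, Q'.bose B ↔ x.Fs P B ∧ ∀ f v, IsTest f → B f (x.Gd v) = x.Gd (B f v)) →
      Gr Q' x.Gd → ExtC c.Q c.Γ Q' x.Gd (ee x) := fun P Q' hP a1 a2 a3 a4 a5 =>
    ⟨a5, fun u hu => let ⟨v, _, e⟩ := cyc ⊤ (fun _ _ => trivial) (fun _ _ _ _ _ => trivial) u hu
      e ▸ v.2, a1, gd, fun s L a v hs hL => by rw [a2, ud s L a v hs hL, Ug_apply _ hs hL],
      fun B _ => (a3 _).2 ⟨_, _, fun i => hP _, rfl⟩, fun B hB => (a4 _).2
        ⟨⟨_, _, fun i => hP _, rfl⟩, fun f v hf => ext_C c.Q fun y hy => by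
          have hB1 := c.Q.bose_fld _ hB
          obtain ⟨B', -, hA⟩ := c.Q.adj B hB1
          have pa := t.bas.padj false B B' hA (fun f v hf =>
            (c.hN.bose B f v hB hf).trans (one_smul _ _).symm) _ y (Ap.test_bar hf)
          rw [sg_false, one_smul] at pa
          rw [adj B B' f _ y hB1 hA hf hy, gd, gd, ← t.sg.gs, star_inner, star_inner,
            c.hN.ext, c.hN.ext, adj B B' f _ _ hB1 hA hf (cyc_G (c := c.toCg) hy), pa]⟩,
      fun B B' a b d f v u hf => by
        have e : ee x B' (bar f) u = ∑ i, x.o (x.dag (some ((dec c.toCg B).2 i))) (bar f) u :=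
          ext_C c.Q fun y hy => by
            have hb := Ap.test_bar hf
            rw [adj B' B _ u y b (H755.adj_symm d) hb hy, dec_spec a _ y (Ap.test_bar hb), coe_sum,
              inner_sum, Submodule.coe_sum, sum_inner]
            exact Finset.sum_congr rfl fun i _ =>
              (F.aff _ _ _ _ u y (h2 ((dec c.toCg B).2 i).dag) hb hy).symm
        rw [e, ee, sum_inner, inner_sum]
        exact Finset.sum_congr rfl fun i _ => F.herm _ f v u hf, agree⟩
  obtain ⟨Q0, a1, a2, a3, a4, a5⟩ := r (· ≠ none) (fun a ha => by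
    cases a with
    | none => exact absurd rfl ha
    | some p => exact Option.some_ne_none _) (cyc' _ fun p => Option.some_ne_none p)
  obtain ⟨Q1, b1, b2, b3, b4, b5⟩ := r (fun _ => True) (fun _ _ => trivial) (cyc' _ fun _ => trivial)
  have s0 := str0 (c := c.toCg) c.hT h0 (ex _ Q0 (fun p => Option.some_ne_none p) a1 a2 a3 a4 a5)
    fun A hA => by
      obtain ⟨n, b, hb, rfl⟩ := (a3 A).1 hA
      choose p hp using fun i => Option.ne_none_iff_exists'.1 (hb i)
      exact ⟨n, fun i => (p i).B, fun i => (p i).h, fun f v hf =>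
        Finset.sum_congr rfl fun i _ => by rw [hp, eq _ f v hf]⟩
  have enl : IsEnl Q0 Q1 := ⟨Subtype.ext (b1.trans a1.symm), b2.trans a2.symm,
    fun A hA => (b3 A).2 (((a3 A).1 hA).imp fun n h => h.imp fun b h => ⟨fun _ => trivial, h.2⟩),
    fun A hA => (b4 A).2 (((a4 A).1 hA).imp_left fun h => h.imp fun n h => h.imp fun b h =>
      ⟨fun _ => trivial, h.2⟩)⟩
  refine ⟨x.Dn, Q1, x.Gd, ee x, x.o none, ex _ Q1 (fun _ => trivial) b1 b2 b3 b4 b5,
    af E w F Q1 b1 b3, H746.isStress_enl enl s0,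
    ⟨(b4 _).2 ⟨Rq.fs_one trivial, fun f v hf => Subtype.ext ?_⟩, F.herm none, ?_⟩, ?_,
    fun f hf => ?_, fun A hA => ?_⟩
  · refine (Rq.par t.sg V' none hf v).trans ?_
    rw [gd]
    exact one_smul _ _
  · intro s L a f v hs hL hf
    apply Subtype.ext
    have := V'.cov none ⟨⟨s, L, a, hs, hL⟩, false⟩ 1 (fun _ => ((s ^ 2 : ℝ) : ℂ)) (fun _ => none) f v
      (x.Ud s L a v) (fun g hg => by
        rw [Fin.sum_univ_one, Complex.conj_ofReal]
        exact pot_U c ⟨⟨s, L, a, hs, hL⟩, false⟩ hg) hf (ud s L a v hs hL)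
    rw [b2, this, Submodule.coe_smul, ud _ _ _ _ hs hL, Fin.sum_univ_one,
      show (4 - 2 : ℝ) = (2 : ℕ) by norm_num, Real.rpow_natCast]
    rfl
  · let p : Ix → Lb c.toCg := fun m => ⟨c.T m m, c.T m m, false, c.Q.bose_fld _ (c.hT.bose m m),
      c.Q.bose_fld _ (c.hT.bose m m), c.hT.herm m m, fun f v hf =>
        (c.hN.bose _ f v (c.hT.bose m m) hf).trans (one_smul _ _).symm⟩
    have q2 : ∀ m f v, IsTest f → ee x (c.T m m) f v = x.o (some (p m)) f v := fun m f v hf =>
      (eq (p m) f v hf).symm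
    have hc : ∀ f v, In Set.univ f →
        GF.tr (fun m n => ee x (c.T m n)) f v = (3 : ℂ) • x.o none (box f) v := by
      intro f v hf
      have z := V'.zero 5 (Fin.cons (-3) fun m => eta m) (Fin.cons none fun m => some (p m))
        (Fin.cons (box f) fun _ => f) v (Fin.cases (Ap.in_box hf) fun _ => hf) (by
          rw [Fin.sum_univ_succ]
          simp only [Fin.cons_zero, Fin.cons_succ, neg_smul]
          rw [neg_add_eq_zero]
          refine (c.hl.trace f hf.1).trans ?_
          rw [GF.tr, coe_sum]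
          exact Finset.sum_congr rfl fun m _ => by rw [Completion.coe_smul]; rfl)
      rw [Fin.sum_univ_succ] at z
      simp only [Fin.cons_zero, Fin.cons_succ, neg_smul, ← q2 _ _ _ hf.1] at z
      exact (neg_add_eq_zero.1 z).symm
    rintro _ v ⟨f, rfl⟩
    obtain ⟨P, hP⟩ := box_clm
    obtain ⟨-, u, -, -, u2, -, u4⟩ := ST.exists_cut f
    have c1 : Continuous fun g : Sch => GF.tr (fun m n => ee x (c.T m n)) (ev g) v :=
      continuous_finset_sum _ fun m _ =>
        (continuous_finset_sum _ fun i _ =>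
          F.cont (some ((dec c.toCg (c.T m m)).2 i)) v).const_smul (eta m : ℂ)
    have c2 : Continuous fun g : Sch => (3 : ℂ) • x.o none (box (ev g)) v := by
      simp only [← hP]
      exact ((F.cont none v).comp P.continuous).const_smul (3 : ℂ)
    exact tendsto_nhds_unique ((c1.tendsto f).comp u4) (((c2.tendsto f).comp u4).congr
      fun n => (hc _ v ⟨⟨u n, rfl⟩, u2 n, Set.subset_univ _⟩).symm)
  · obtain ⟨g, rfl⟩ := hf
    obtain ⟨-, u, -, -, u2, -, u4⟩ := ST.exists_cut g
    have c1 : Continuous fun g : Sch => (x.o none (ev g) Q1.vac : Completion D) :=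
      continuous_subtype_val.comp (F.cont none _)
    refine tendsto_nhds_unique ((c1.tendsto g).comp u4) (((c.hl.cont.tendsto g).comp u4).congr
      fun n => ?_)
    have hi : In Set.univ (ev (u n)) := ⟨⟨u n, rfl⟩, u2 n, Set.subset_univ _⟩
    show c.l _ = (x.o none _ _ : Completion D)
    rw [F.oW none _ [] _ hi.1 (fun _ h => nomatch h) (b1.trans w.nil.symm),
      E.cw _ (List.forall_mem_singleton.2 hi)]
    exact (o.vac none _ hi).symm
  · obtain ⟨n, b, -, rfl⟩ := (b3 A).1 hA
    refine ⟨n, fun i => x.o (b i), fun i => ?_, fun _ _ => rfl⟩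
    dsimp only
    cases b i with
    | none => exact .inl rfl
    | some p => exact .inr ⟨p.B, p.h, eq p⟩

end

end Vale.Agent.N352.G.X
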