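import Vale.Agent.N352.X.Dsc
import Vale.Agent.P352NA.WF

/-!
# N352, block X: the descent of the group relations from the double
-/

set_option linter.all false

open Filter Topology Set
open scoped ComplexConjugate

namespace Vale.Agent.N352.G.X

open Vale.Agent.P352 Vale.Agent.P352.GF Vale.Agent.P352.BW Vale.Agent.P352.H246
open Vale.Agent.P352.H496 Vale.Agent.P352.H755 Vale.Agent.P352.H15
open Vale.Agent.P352X Vale.Agent.P352X.EB
open Vale.Agent.P132 (ModData)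
open UniformSpace (Completion)
open Real (exp)
open Complex (I)

noncomputable section

namespace Df

section hilbert

variable {H K : Type*} [NormedAddCommGroup H] [InnerProductSpace ℂ H] [CompleteSpace H]
  [NormedAddCommGroup K] [InnerProductSpace ℂ K] [CompleteSpace K]
  {Γ : H →L[ℂ] H} {tm : H → H → K} {e : Bool} {x a : H} {W : ℝ → H →L[ℂ] H}
  {W2 : ℝ → K →L[ℂ] K} (d : Dbl Γ tm)
include d

theorem gn_tm (h : ∀ t, Tp tm (W t) (W t) (W2 t)) (h0 : W 0 = 1) (g : Gn W x a) :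
    Gn W2 (tm x x) (tm a x + tm x a) := by
  have k := (d.L.bilinearRestrictScalars ℝ).hasDerivAt_of_bilinear (fun _ => g) fun _ => g
  simp only [ContinuousLinearMap.bilinearRestrictScalars_apply_apply, d.L_apply, h0,
    ContinuousLinearMap.one_apply, d.smul_l, d.smul_r, ← smul_add, ← h _ _ _] at k
  rwa [add_comm] at k

theorem gn_pp (h : ∀ t, Γ * W t = W t * Γ) (g : Gn W x a) (e : Bool) :
    Gn W (pp Γ e x) (pp Γ e a) := (g.add ((g.comm h).smul _)).smul _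

theorem aff (h : Pv Γ e x) (h0 : x ≠ 0) {f : ℝ → H} {S : Set ℝ} (hf : ∀ u ∈ S, Pv Γ e (f u))
    {k0 k1 : K} (k : ∀ u ∈ S, tm (f u) x + tm x (f u) = k0 + (u : ℂ) • k1) :
    ∃ a b, ∀ u ∈ S, f u = a + (u : ℂ) • b := by
  let P : Submodule ℂ H := Module.End.eigenspace Γ.toLinearMap (sg e)
  have m : ∀ {z}, z ∈ P ↔ Pv Γ e z := Module.End.mem_eigenspace_iff
  obtain ⟨g, hg⟩ := ((d.L.flip x + d.L x).toLinearMap ∘ₗ P.subtype).exists_leftInverse_of_injective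
    (LinearMap.ker_eq_bot'.2 fun z hz => Subtype.ext (d.sym_inj h h0 (m.1 z.2) hz))
  refine ⟨g k0, g k1, fun u hu => ?_⟩
  rw [← Submodule.coe_smul, ← Submodule.coe_add, ← map_smul, ← map_add, ← k u hu]
  exact (congrArg Subtype.val (DFunLike.congr_fun hg ⟨f u, m.2 (hf u hu)⟩)).symm

end hilbert

variable {D D2 : Type*} [NormedAddCommGroup D] [InnerProductSpace ℂ D] [NormedAddCommGroup D2]
  [InnerProductSpace ℂ D2] {c : Cg D} {T : Ix → Ix → Fld D} {k : P352X.Ctx D2}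
  {tm : Completion D → Completion D → Completion D2}
  {u : ℝ → Completion D →L[ℂ] Completion D} {r s : ℝ}

open Ds

/-- the group without sign -/
def sq (u : ℝ → Completion D →L[ℂ] Completion D) (s : ℝ) : Completion D →L[ℂ] Completion D :=
  u (s / 2) * u (s / 2)

variable (L : Lk c T k tm) (t : P352X.GRP k)
include L t

theorem ex_all (s : ℝ) : ∃ u, Lf c.Γ tm c.Om u (k.SK s) := by
  rcases lt_trichotomy s 0 with h | rfl | h
  · obtain ⟨u, a, -⟩ := ex_lf L t one_pos (neg_pos.2 h)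
    have p := (gd c).par_ev.2 a.ev
    refine ⟨star u, Unitary.star_mem a.uni, (gd c).par_ev.1 ((gd c).par_star p), ?_, ?_⟩
    · conv_lhs => rw [← a.vac]
      exact DFunLike.congr_fun a.uni.1 _
    · simpa only [k.ugK.star_eq, neg_neg] using L.dbl.tp_star a.tp p p
  · exact ⟨1, k.ugK.zero' ▸ .one⟩
  · exact (ex_lf L t one_pos h).imp fun _ => And.left

theorem lf_rt (hr : 0 < r) (hs : 0 < s) :
    Lf c.Γ tm c.Om (P352X.Usc c.Q r s) (P352X.Usc k.Q r s) :=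
  lf_ug L (Real.sqrt_pos.2 (mul_pos hr hs)) (Grp.lsc hr hs).1 0

theorem lf_sc (hr : 0 < r) (hs : 0 < s) : Lf c.Γ tm c.Om (Usc c.Q r s) (P352X.Usc k.Q r s) := by
  have p := Real.sqrt_pos.2 hr
  have q := Real.sqrt_pos.2 hs
  refine ((lf_rt L t p q).mul (lf_rt L t p q)).cast ?_
  rw [← t.sc _ _ _ _ p q p q, Real.mul_self_sqrt hr.le, Real.mul_self_sqrt hs.le]

theorem lf_ga (w : R2) : Lf c.Γ tm c.Om (Ga c.Q w) (P352X.Ga k.Q w) := by
  have p := lf_ug L one_pos (Grp.lga ((1 / 2 : ℝ) • w)).1 0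
  refine (p.mul p).cast ((t.ga _ _).symm.trans ?_)
  rw [half2]

theorem lf_ut (y : V) : Lf c.Γ tm c.Om (Ut c.Q y) (Ut k.Q y) := lf_ug L one_pos H496.isLor_one y

theorem lf_md0 (hr : 0 ≤ r) (E : ModData (c.N (Rc r 0)) c.Om) (s : ℝ) :
    Lf c.Γ tm c.Om (E.U s)
      (k.SK (r * (1 - exp (-(2 * Real.pi * s)))) * P352X.Bo k.Q (-(2 * Real.pi * s))) := by
  have key : ∀ ξ, ξ = tm c.Om c.Om → ∀ E2 : ModData (k.N (Rc r 0)) ξ,
      Lf c.Γ tm c.Om (E.U s) (E2.U s) := by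
    rintro _ rfl E2
    refine L.dbl.mod (EG.SGx.gv c) (c.hN.gam _) E E2 ?_ ?_ s
    · rintro z ⟨e, x, y, a, b, p, q, h⟩
      exact L.gen _ e x y z (rc_open r) a b p q h
    · rintro z ⟨e, x, y, a, b, p, q, h⟩
      exact L.com _ e x y z (rc_open r) a b p q h
  obtain ⟨E2, h⟩ := t.md r hr
  exact (key _ L.om E2).cast (h s)

variable (hu : ∀ s, Lf c.Γ tm c.Om (u s) (k.SK s))
include hu

theorem lf_sq (s : ℝ) : Lf c.Γ tm c.Om (sq u s) (k.SK s) :=
  ((hu _).mul (hu _)).cast (by rw [← k.ugK.add', add_halves])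

theorem sq_add (r s : ℝ) : sq u (r + s) = sq u r * sq u s :=
  (up_lf L.dbl (EG.SGx.gv c) (n1 c)).hom (hu _) (hu _) (hu (s / 2 / 2))
    (by rw [← k.ugK.add', add_halves]) (by rw [← k.ugK.add', ← k.ugK.add', add_comm]) (hu _)
    (by rw [← k.ugK.add', add_div])

theorem sq_zero : sq u 0 = 1 :=
  ((up_lf L.dbl (EG.SGx.gv c) (n1 c)).sq (hu _) .one (by rw [zero_div, k.ugK.zero'])).trans
    (one_mul _)

theorem sc_S (a : ℝ) (hr : 0 < r) (hs : 0 < s) :
    Usc c.Q r s * sq u a = sq u (a / s) * Usc c.Q r s :=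
  (up_lf L.dbl (EG.SGx.gv c) (n1 c)).cnj (lf_sc L t hr hs) (hu _) (hu _)
    (by rw [t.sc_S _ _ _ hr hs, div_right_comm])

theorem S_ut (a : ℝ) (y : R2) : sq u a * Ut c.Q (tv y) =
    Ut c.Q (tv y + (a * d2 y y) • va) * Ga c.Q ((2 * a) • y) * sq u a := by
  have e := (up_lf L.dbl (EG.SGx.gv c) (n1 c)).cnj (lf_sq L t hu a) (lf_ut L t _)
    ((lf_ut L t _).mul (lf_ga L t _)) (t.S_ut a ((1 / 2 : ℝ) • y))
  have h : ∀ x w, Ut c.Q x * Ga c.Q w * (Ut c.Q x * Ga c.Q w) =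
      Ut c.Q (x + gap w x) * Ga c.Q (w + w) := fun x w => by
    rw [mul_assoc, ← mul_assoc (Ga _ _), Sq.ga_ut, Sq.ut, Sq.ga]
    simp only [mul_assoc]
  rw [← Sq.ut, h] at e
  have h1 : tv ((1 / 2 : ℝ) • y) + tv ((1 / 2 : ℝ) • y) = tv y :=
    null_ext (by simp) (by simp) (by rw [tx_add, tx_tv, tx_tv, half2])
  rw [h1, ← smul_add, half2] at e
  rw [e]
  congr 3
  refine null_ext ?_ (by simp) ?_
  · simp only [al_add, al_gap, al_tv, al_smul, al_va, tx_add, tx_tv, tx_smul, tx_va, be_add, be_tv,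
      be_smul, be_va, d2, smul_zero, add_zero, Pi.smul_apply, smul_eq_mul]
    ring
  · simp only [tx_gap, tx_add, tx_tv, tx_smul, tx_va, be_add, be_tv, be_smul, be_va, smul_zero,
      add_zero, mul_zero, zero_smul, half2]

theorem md (hr : 0 ≤ r) (E : ModData (c.N (Rc r 0)) c.Om) (s : ℝ) : E.U s =
    sq u (r * (1 - exp (-(2 * Real.pi * s)))) * Bo c.Q (-(2 * Real.pi * s)) := by
  have p := Real.exp_pos (-(2 * Real.pi * (s / 2)))
  have q := Real.exp_pos (- -(2 * Real.pi * (s / 2)))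
  have e := (up_lf L.dbl (EG.SGx.gv c) (n1 c)).sq (lf_md0 L t hr E (s / 2))
    ((lf_sq L t hu _).mul (lf_sc L t p q)) rfl
  rw [← E.U_add, add_halves, mul_assoc (sq _ _), ← mul_assoc (Usc _ _ _), sc_S L t hu _ p q,
    mul_assoc (sq _ _), ← Sq.sc c p q p q, ← mul_assoc, ← sq_add L t hu, ← Real.exp_add,
    ← Real.exp_add] at e
  have h : -(2 * Real.pi * s) = -(2 * Real.pi * (s / 2)) + -(2 * Real.pi * (s / 2)) := by ring
  rw [e, Bo, h, neg_add (-_), Real.exp_add (-_), neg_neg, Real.exp_neg]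
  congr 2
  field_simp
  ring

theorem ugK : UG (sq u) := by
  refine ug_of (sq_zero L t hu) (sq_add L t hu) (fun s => (lf_sq L t hu s).uni) fun z => ?_
  obtain ⟨E⟩ := Sq.ex_md c (rc_open 1) (rc_ne zero_le_one) (rc_w0 zero_le_one)
  have g : UG E.U := .of E.U_zero E.U_add (mod_uni E) E.continuous_U
  have a : Tendsto (fun s : ℝ => -Real.log (1 - s)) (𝓝 0) (𝓝 0) := by
    have : ContinuousAt (fun s : ℝ => -Real.log (1 - s)) 0 := by
      refine ContinuousAt.neg (ContinuousAt.log (by fun_prop) (by simp))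
    simpa using this.tendsto
  have b := g.tendsto (a.div_const (2 * Real.pi)) ((Sq.ugB c).tendsto a (tendsto_const_nhds (x := z)))
  rw [zero_div, g.zero, (Sq.ugB c).zero] at b
  refine b.congr' ?_
  filter_upwards [Iio_mem_nhds (zero_lt_one' ℝ)] with s hs
  rw [md L t hu zero_le_one, mul_div_cancel₀ _ (by positivity), ContinuousLinearMap.mul_apply,
    ← (Sq.ugB c).add, neg_add_cancel, (Sq.ugB c).zero, neg_neg, Real.exp_log (sub_pos.2 hs),
    one_mul, sub_sub_cancel]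

end Df

open Ds Df

variable {D D2 : Type*} [NormedAddCommGroup D] [InnerProductSpace ℂ D] [NormedAddCommGroup D2]
  [InnerProductSpace ℂ D2] {c : Cg D} {T : Ix → Ix → Fld D} {k : P352X.Ctx D2}
  {tm : Completion D → Completion D → Completion D2}

theorem ee_of {g : G.Ctx D} (L : Lk g.toCg T k tm) (t : P352X.GRP k) (E : P352X.EE k)
    (h0 : g.SK 0 = 1) (hu : ∀ s, Lf g.Γ tm g.Om (g.SK s) (k.SK s)) : G.EE g := by
  intro lo hi ψ h1 h2
  have d := L.dbl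
  have ky : ∀ y s, Lf g.Γ tm g.Om (g.Ky y s) (k.Ky y s) := fun y s =>
    ((lf_ut L t y).mul (hu s)).mul (lf_ut L t _)
  have pb : ∀ s, Lf g.Γ tm g.Om (Pb g.Q s) (Pb k.Q s) := fun s => lf_ut L t _
  have key : ∀ e, ∃ a b, ∀ u ∈ Ioo lo hi, pp g.Γ e (gen (g.Ky (u • vb)) ψ) -
      ((2 * u ^ 2 : ℝ) : ℂ) • pp g.Γ e (gen (Pb g.Q) ψ) = a + (u : ℂ) • b := fun e => by
    have g1 := fun u hu => gn_pp d (fun s => (ky (u • vb) s).ev) (h1 u hu).gn e
    have g2 := gn_pp d (fun s => (pb s).ev) h2.gn e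
    by_cases z : pp g.Γ e ψ = 0
    · refine ⟨0, 0, fun u hu => ?_⟩
      rw [(g1 u hu).unique (gn_zero.cast z rfl), g2.unique (gn_zero.cast z rfl)]
      simp
    have k1 := fun u hu => gn_tm d (fun s => (ky (u • vb) s).tp) (by
      rw [G.Ctx.Ky, h0, mul_one, Sq.ut_inv]) (g1 u hu)
    have k2 := gn_tm d (fun s => (pb s).tp) (by rw [Pb, zero_smul, Grp.ut0]) g2
    obtain ⟨a, b, h⟩ := E lo hi _ (fun u hu => (k1 u hu).dm) k2.dm
    refine aff d (d.gd.pv_pp e ψ) z (fun u _ => ?_) (k0 := a) (k1 := b) fun u hu => ?_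
    · rw [Pv, map_sub, map_smul, d.gd.pv_pp, d.gd.pv_pp, smul_sub, smul_comm]
    · have := h u hu
      rw [(k1 u hu).gen_eq, k2.gen_eq] at this
      simp only [sub_eq_add_neg, ← neg_smul, d.add_l, d.add_r, d.smul_l, d.smul_r]
      linear_combination (norm := module) this
  obtain ⟨a, b, h⟩ := key false
  obtain ⟨a', b', h'⟩ := key true
  refine ⟨a + a', b + b', fun u hu => ?_⟩
  rw [← pp_add (Γ := g.Γ) (gen (g.Ky _) ψ), ← pp_add (Γ := g.Γ) (gen (Pb _) ψ)]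
  linear_combination (norm := module) h u hu + h' u hu

/-- **The full descent.** -/
theorem descendF (L : Lk c T k tm) (hT : c.Q.IsStress T) (t : P352X.GRP k) (E : P352X.EE k) :
    ∃ g : G.Ctx D, g.toCg = c ∧ g.T = T ∧ G.GRP g ∧ G.EE g ∧
      ∀ s, Lf c.Γ tm c.Om (g.SK s) (k.SK s) := by
  obtain ⟨l, hl, -⟩ := H246.main hT
  obtain ⟨bt⟩ := SN.exists_BC SN.isPair_mdot (EG.SGx.urep c.Q)
  choose u hu using ex_all L t
  have p := up_lf L.dbl (EG.SGx.gv c) (n1 c)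
  have q := lf_sq L t hu
  exact ⟨⟨c, T, Df.sq u, l, bt, hT, hl⟩, rfl, rfl, ⟨ugK L t hu, fun s => (q s).vac,
    fun s => (q s).ev, fun r s a => sc_S L t hu a,
    fun w s => p.cnj (lf_ga L t w) (hu _) (hu _) (t.ga_S _ _),
    fun w s => p.cnj (lf_ut L t _) (hu _) (hu _) (t.pa_S _ _), S_ut L t hu, fun r hr =>
      (Sq.ex_md c (rc_open r) (rc_ne hr) (rc_w0 hr)).elim fun E => ⟨E, md L t hu hr E⟩⟩,
    ee_of L t E (sq_zero L t hu) q, q⟩

/-! ## the bridges -/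

/-- the minimal context -/
def toX (g : G.Ctx D) (h : G.GRP g) : Ctx D :=
  ⟨g.toCg, g.T, g.SK, g.l, g.hT, g.hl, h.ugK.uni, h.ugK.zero', h.K_vac, h.gK⟩

theorem e0_toX {g : G.Ctx D} (h : G.GRP g) (L : Lk g.toCg g.T k tm) (t : P352X.T1 k)
    (F : EB.FLOW k) (hu : ∀ s, Lf g.Γ tm g.Om (g.SK s) (k.SK s)) : E0 (toX g h) := by
  refine ⟨EG.e0_thm _, fun f s hf hs => flow L g.hT g.hl F hs (hu s) hf,
    fun f => prw L t.jc g.hT g.hl, dual_row, dens_row (bw L t.grp), fun s hs Z hZ => ?_⟩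
  rcases hs.eq_or_lt with rfl | hs'
  · simpa [toX, h.ugK.zero'] using hZ
  · exact skc L t.grp hs' (hu s) Z hZ

theorem pf_toX {g : G.Ctx D} (h : G.GRP g) (p : G.PF g) : PF (toX g h) := fun q => by
  have tr : ∀ K a b, G.Tr g.toCg K a b → Tr (toX g h) K a b := fun K a b k => by
    induction k with
    | zero => exact .zero
    | fld B B' f a b d e => exact .fld B B' f a b d e
    | add _ _ _ _ _ _ a b => exact .add _ _ _ _ a b
    | smul z _ _ _ a => exact .smul z _ _ a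
  obtain ⟨N, k⟩ := p q.B q.B' q.h q.h' q.a
  refine ⟨N, fun T f hf => ?_⟩
  obtain ⟨η, η', a1, a2, a3, a4, a5⟩ := k f ⟨hf.1, hf.2.1, fun z hz => NA.rc_be (hf.2.2 hz)⟩
  have e : Icc 0 T ⊆ {t | 0 ≤ t ∧ Reg (-t) f} := fun s hs => ⟨hs.1, fun z hz => by
    rw [neg_neg]
    exact NA.rc_rh (NA.rc_le hs (hf.2.2 hz))⟩
  exact ⟨η, η', a1, a2, fun s hs => tr _ _ _ (a3 s hs.1 (e hs).2), a4.sub e, a5.sub e⟩

theorem cov_of (h : COV0 c) : G.COV c.Q := fun B B' a b d =>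
  let ⟨e, n, q, κ, h1, h2⟩ := h B B' a b d
  ⟨e, n, fun i => (q i).B, fun i => (q i).B', κ, fun i => ⟨(q i).h, (q i).h', (q i).a⟩, h1, h2⟩

end

end Vale.Agent.N352.G.X
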