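import Vale.Agent.N352.X.FIN
import Vale.Agent.N352.X.Xs
import Vale.Agent.P352X.EG.W
import Vale.Agent.P352X.EH.DS

/-!
# N352, block X: from the extension to the conformal symmetry
-/

set_option linter.all false

open Filter Topology
open scoped ComplexConjugate

namespace Vale.Agent.N352.G.X

open Vale.Agent.P352 Vale.Agent.P352.GF Vale.Agent.P352.BW Vale.Agent.P352.H246
open Vale.Agent.P352.H496 Vale.Agent.P352.H755 Vale.Agent.P352.H15
open Vale.Agent.P352.SubConf (IsAdj)
open Vale.Agent.P352X Vale.Agent.P352X.EB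
open UniformSpace (Completion)

noncomputable section

variable {D : Type*} [NormedAddCommGroup D] [InnerProductSpace ℂ D]

/-- the conclusion -/
def CONF (c : Cg D) (T : Ix → Ix → Fld D) : Prop :=
  ∃ (D' : Submodule ℂ (Completion D)) (Q' : Theory D') (G' : D' → D') (e : Fld D → Fld D')
    (L : Fld D'), ExtC c.Q c.Γ Q' G' e ∧ AfW c.N Q' (↑) ∧ Q'.IsStress (fun m n => e (T m n)) ∧
    Q'.IsScalar L 2 ∧
    (∀ f v, IsTest f → tr (fun m n => e (T m n)) f v = (3 : ℂ) • L (box f) v) ∧
    ∀ Q'' : Theory D', IsEnl Q' Q'' → IsImpr Q'' (fun m n => e (T m n))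
      (improve (fun m n => e (T m n)) L) ∧ ConfAct Q'' (improve (fun m n => e (T m n)) L) ∧
      (Gr Q'' G' → CFS Q'' G' (improve (fun m n => e (T m n)) L) ∧
      ∀ B, Q'.fld B → ∃ (n : ℕ) (p : Fin n → Bool) (C : Fin n → Fld D'),
        (∀ i, DescS Q'' G' (improve (fun m n => e (T m n)) L) (p i) (C i)) ∧
        ∀ f v, IsTest f → B f v = ∑ i, C i f v)

theorem conf_of (c : Ctx D) (hM : MfAll c.Q) (hF : FSL c.Q) (mix : MIX c.toCg) (fin : FIN c) :
    CONF c.toCg c.T := by
  obtain ⟨D', Q', G', e, L, h1, h0, h2, h3, h4, -, h6⟩ := fin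
  refine ⟨D', Q', G', e, L, h1, h0, h2, h3, h4, fun Q'' n => ?_⟩
  obtain ⟨h7, h8⟩ := scal_row D' Q' _ L h2 h3 h4 Q'' n
  refine ⟨h7, h8, fun g => ?_⟩
  have hT'' := H746.isStress_enl n h2
  have hL'' := scalar_enl n h3
  let M : D' →ₗ[ℂ] D' :=
    { toFun := G'
      map_add' := fun v w => ext_inner_right ℂ fun y => by simp only [g.herm, inner_add_left]
      map_smul' := fun z v => ext_inner_right ℂ fun y => by
        simp only [g.herm, inner_smul_left, RingHom.id_apply] }
  have hv : (Q''.vac : Completion D) = c.Om := by rw [n.vac]; exact h1.vac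
  have gv : G' Q''.vac = Q''.vac := Subtype.ext (by rw [h1.G, hv, EG.SGx.gv])
  have gt : ∀ m n f v, IsTest f → improve (fun m n => e (c.T m n)) L m n f (G' v) =
      M (improve (fun m n => e (c.T m n)) L m n f v) := fun m n f v hf => by
    simp only [improve, map_add, map_sub, map_smul, map_sum, g.bose _ _ v (hT''.bose m n) hf,
      fun k l => g.bose _ _ v hL''.1 (Ap.test_pd k (Ap.test_pd l hf))]
    rfl
  let k : CA.G.Cx D' := ⟨Q'', _, G', isT_of_impr h7 hT'',
    fun m n k l f g v hf hg h => sub_eq_zero.1 (h7.self m n k l f g v hf hg h), h7.cov,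
    ⟨_, hT''.bose o o⟩, g.inv, g.herm, gt, g.GU,
    fun C hC => by
      obtain ⟨C1, C2, a1, a2, e⟩ := g.split C hC
      refine ⟨2, ![1, -1], ![C1, C2], fun j => ?_, fun k v hk => ?_⟩
      · fin_cases j
        exacts [Q''.bose_fld _ a1, a2.1]
      · rw [e k _ hk, g.bose C1 k v a1 hk, a2.2 k v hk, show G' _ = M _ from rfl, map_add, map_neg]
        simp [M, g.inv],
    g.mul, fun F w hF => by
      have b3 := mix (smt (improve (fun m n => e (c.T m n)) L) F Q''.vac : D') w (by
        rw [← h1.G]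
        refine congrArg _ (show M _ = _ from ?_)
        simp only [smt, map_sum, fun m n => (gt m n _ Q''.vac (hF m n).isTest).symm, gv])
      rw [← hv, ← Submodule.coe_inner, ← Submodule.coe_inner] at b3
      refine b3.congr' (eventually_nhdsWithin_of_forall fun r hr => ?_)
      obtain ⟨p1, p2⟩ := CA.lsc_pos hr
      show inner ℂ _ (Ue _ _ _ _ _) = inner ℂ _ (Q''.U _ _ _ _)
      rw [← h1.U _ _ _ _ p1 p2, n.U]
      rfl⟩
  obtain ⟨x, f0, al⟩ := CA.G.all_thm k
  have tl : CA.G.Tl k := fun _ _ => CA.G.clf k g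
  have cf : CFS Q'' G' (improve (fun m n => e (c.T m n)) L) := CA.G.cfs' al tl
  refine ⟨cf, fun B hB => ?_⟩
  obtain ⟨m, C, hC, h⟩ := h6 B hB
  have key : ∀ i, ∃ (r : ℕ) (p : Fin r → Bool) (C' : Fin r → Fld D'),
      (∀ j, DescS Q'' G' (improve (fun m n => e (c.T m n)) L) (p j) (C' j)) ∧
      ∀ f v, IsTest f → C i f v = ∑ j, C' j f v := fun i => by
    rcases hC i with h | ⟨C', a, b⟩
    · exact ⟨1, fun _ => false, fun _ => L, fun _ => EG.desc_scal cf hL'', fun _ _ _ => by simp [h]⟩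
    · obtain ⟨r, p, C'', a1, a2⟩ := desc_fld h1 (cov0_row hM hF) n hF g (CA.G.descM al tl)
        (EG.H.md (EG.e0_thm c.toCg) hM) a
      exact ⟨r, p, C'', a1, fun f v hf => (b f v hf).trans (a2 f v hf)⟩
  choose r p C' b1 b2 using key
  let E := (Fintype.equivFin (Σ i, Fin (r i))).symm
  refine ⟨_, fun j => p (E j).1 (E j).2, fun j => C' (E j).1 (E j).2, fun j => b1 _ _,
    fun f v hf => (h f v).trans ?_⟩
  rw [E.sum_comp fun j => C' j.1 j.2 f v, Fintype.sum_sigma]
  exact Finset.sum_congr rfl fun i _ => b2 i f v hf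

end

end Vale.Agent.N352.G.X
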