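import Vale.Agent.N352.X.Defs
import Vale.Agent.P352NA.COV

/-!
# N352, block X, rows COV0 and COV: finite families of fields, invariant under the similitudes
-/

set_option linter.all false

open Filter Topology
open scoped ComplexConjugate

namespace Vale.Agent.N352.G.X

open Vale.Agent.P352 Vale.Agent.P352.GF Vale.Agent.P352.BW Vale.Agent.P352.H246
open Vale.Agent.P352.H496 Vale.Agent.P352.H755 Vale.Agent.P352.H15
open Vale.Agent.P352.SubConf (IsAdj)
open Vale.Agent.P352X Vale.Agent.P352X.EB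
open Vale.Agent.P352X.EB.NA (ul zz_le)
open UniformSpace (Completion)

noncomputable section

variable {D : Type*} [NormedAddCommGroup D] [InnerProductSpace ℂ D] {c : Cg D}

theorem test_pull (g : Sg) {f : Fn} (hf : IsTest f) : IsTest (g.pull f) :=
  Ap.test_sim g.hs g.hL g.a hf

/-- every field is the sum of an even and an odd label -/
theorem ex_split {B : Fld D} (hB : c.Q.fld B) : ∃ q : Bool → Lb c, (∀ e, (q e).e = e) ∧
    c.Q.bose (q false).B ∧ ∀ f v, IsTest f → B f v = (q false).B f v + (q true).B f v := by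
  obtain ⟨C, C', h1, h2, h3⟩ := c.hN.split B hB
  obtain ⟨A, a1, a2⟩ := c.Q.adj C (c.Q.bose_fld _ h1)
  obtain ⟨A', b1, b2⟩ := c.Q.adj C' h2.1
  refine ⟨fun e => cond e ⟨C', A', true, h2.1, b1, b2, fun f v hf => ?_⟩
    ⟨C, A, false, c.Q.bose_fld _ h1, a1, a2, fun f v hf => ?_⟩, fun e => by cases e <;> rfl, h1, h3⟩
  · rw [h2.2 f v hf, sg_true, neg_one_smul]
  · rw [c.hN.bose C f v h1 hf, sg_false, one_smul]

/-- the adjoint label -/
def Lb.dag (q : Lb c) : Lb c :=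
  ⟨q.B', q.B, q.e, q.h', q.h, H755.adj_symm q.a, EG.Bas.padj _ _ _ q.a q.par⟩

theorem Lb.pvac (q : Lb c) {f : Fn} (hf : IsTest f) :
    c.Γ (q.B f c.Q.vac : D) = sg q.e • ((q.B f c.Q.vac : D) : Completion D) :=
  (EG.bas_row (EG.sg_row c)).pvac _ _ f q.par hf

theorem Lb.pvac' (q : Lb c) {f : Fn} (hf : IsTest f) :
    c.Γ (q.B' f c.Q.vac : D) = sg q.e • ((q.B' f c.Q.vac : D) : Completion D) := q.dag.pvac hf

theorem cov_mf {Q : Theory D} (R : Fss.G.M1 Q) {k : Rp} {Φ : Fin k.n → Fld D} (h : IsMf Q k Φ)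
    {F : Fin k.n → Finset (ℂ × ℕ)} {C : Fin k.n → ℂ × ℕ → Fld D}
    (hC : ∀ b, Scl Q (Φ b) (F b) (C b)) (μ : Fin k.n) (g : Sg)
    {f : Fn} (hf : IsTest f) (v : D) : Φ μ f (Q.U g.s g.L g.a v) =
      ∑ i : Σ b, F b, (k.ρ g.L i.1 μ * CL.zz g.s i.2) • ul Q g (C i.1 i.2 (g.pull f) v) := by
  have o := H496.isLor_one
  have e : ∀ v, Q.U g.s g.L g.a v = ul Q ⟨1, _, g.a, one_pos, o⟩
      (ul Q ⟨1, g.L, 0, one_pos, g.hL⟩ (Q.U g.s GF.one 0 v)) := fun v => by
    refine (Fss.G.U_dil R g.hs g.hL g.a v).2.symm.trans (Eq.trans ?_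
      (R 1 _ g.a 1 g.L 0 _ one_pos one_pos o g.hL (.inl rfl)).symm)
    simp only [Fss.sim_dil, zero_add, one_smul, smul_zero, add_zero, mul_one]
    rfl
  have f1 := Ap.test_sim one_pos o g.a hf
  have f2 := Ap.test_sim one_pos g.hL 0 f1
  have e' : ∀ v, ul Q g v = _ := e
  simp only [e, e']
  refine (Q.transl _ g.a f _ (h.1 μ) hf).trans ?_
  refine (congrArg _ (h.2 μ g.L _ _ g.hL f1)).trans ?_
  rw [Fintype.sum_sigma]
  refine (map_sum (ul Q ⟨1, _, g.a, one_pos, o⟩) _ _).trans (Finset.sum_congr rfl fun ν _ => ?_)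
  rw [(hC ν).2 g.s _ v g.hs f2, map_smul, ← Finset.sum_coe_sort]
  show _ • ul Q _ (ul Q ⟨1, g.L, 0, one_pos, g.hL⟩ _) = _
  simp only [map_sum, map_smul, Finset.smul_sum, smul_smul]
  refine Finset.sum_congr rfl fun i _ => ?_
  congr 5
  funext x
  show _ = f (sim g.s g.L g.a x)
  rw [N86.c1_sim g.s g.L g.a, Fss.sim_dil, Fss.sim_dil, one_smul, zero_add]
  congr 2
  funext n
  simp [sim, Finset.mul_sum, mul_assoc]

/-- **row COV0** -/
theorem cov0_row (mf : MfAll c.Q) (fsl : FSL c.Q) : COV0 c := by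
  intro B B' hB hB' hA
  obtain ⟨n, A, h1, h2⟩ := mf B hB
  choose k Φ μ hΦ e using h1
  choose F C hC using fun i b => fsl _ ((hΦ i).1 b)
  choose q _ _ hq using fun i b p => ex_split ((hC i b).1 p).1
  let ι := (Σ i, Σ b, F i b) × Bool
  let E := (Fintype.equivFin ι).symm
  let κ : Sg → ι → ℂ := fun g j => (k j.1.1).ρ g.L j.1.2.1 (μ j.1.1) * CL.zz g.s j.1.2.2
  let r : ι → Lb c := fun j => q j.1.1 j.1.2.1 j.1.2.2 j.2
  have key : ∀ (g : Sg) f v, IsTest f → B f (c.Q.U g.s g.L g.a v) =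
      ∑ i, κ g (E i) • c.Q.U g.s g.L g.a ((r (E i)).B (g.pull f) v) := fun g f v hf => by
    rw [E.sum_comp fun j : ι => κ g j • c.Q.U g.s g.L g.a ((r j).B (g.pull f) v),
      h2 f _ hf, Fintype.sum_prod_type, Fintype.sum_sigma]
    refine Finset.sum_congr rfl fun i _ => ?_
    rw [e, cov_mf (EG.sg_row c).mul1 (hΦ i) (hC i) (μ i) g hf]
    refine Finset.sum_congr rfl fun j _ => ?_
    rw [hq _ _ _ _ _ (test_pull g hf), map_add, smul_add, Fintype.sum_bool, add_comm]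
    rfl
  refine ⟨Finset.univ.sup fun j : ι => ⌈(4 - j.1.2.2.1.1).re⌉₊ + j.1.2.2.1.2, _,
    fun i => r (E i), fun g i => κ g (E i), fun g hs hL i => ?_,
    fun g f v hf => ⟨key g f v hf, EG.Bas.sadj (EG.sg_row c) _ _ _ _ _ _ _ _ _ g.hs g.hL hA
      (fun i => (r (E i)).a) (key g) f v hf⟩⟩
  refine (norm_mul_le _ _).trans ((mul_le_of_le_one_left (norm_nonneg _) ?_).trans (zz_le hs _
    (Finset.le_sup (f := fun j : ι => ⌈(4 - j.1.2.2.1.1).re⌉₊ + j.1.2.2.1.2)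
      (Finset.mem_univ (E i)))))
  rw [hL, (k _).id, Matrix.one_apply]
  split_ifs <;> simp

theorem U_par (g : Sh c) {e : Bool} {w : Completion D} (h : c.Γ w = sg e • w) :
    Ug c.Q g.s g.L g.a w = sg (g.e && e) • g.U c w := by
  obtain ⟨g, b⟩ := g
  cases b
  · exact (one_smul _ _).symm
  · have : c.Γ (Ug c.Q g.s g.L g.a w) = Ug c.Q g.s g.L g.a (c.Γ w) :=
      DFunLike.congr_fun (EG.SGx.gU0 c g) w
    show _ = sg e • c.Γ (Ug c.Q g.s g.L g.a w)
    rw [this, h, map_smul, smul_smul, sg_sq, one_smul]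

theorem cov_vac (g : Sh c) {n : ℕ} {κ : Fin n → ℂ} {B : Fld D} {q : Fin n → Lb c} {f : Fn}
    (hf : IsTest f) (h : B f (c.Q.U g.s g.L g.a c.Q.vac) =
      ∑ i, κ i • c.Q.U g.s g.L g.a ((q i).B (g.pull f) c.Q.vac)) :
    ((B f c.Q.vac : D) : Completion D) =
      ∑ i, (κ i * sg (g.e && (q i).e)) • g.U c ((q i).B (g.pull f) c.Q.vac : D) := by
  rw [c.Q.U_vac _ _ _ g.hs g.hL] at h
  rw [h, ← Completion.coe_toComplL (𝕜 := ℂ), map_sum]
  exact Finset.sum_congr rfl fun i _ => by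
    rw [map_smul, Completion.coe_toComplL, ← Grp.coe g.hs g.hL,
      U_par g ((q i).pvac (test_pull _ hf)), smul_smul]

/-- **row COV** -/
theorem cov_row (h : COV0 c) : COV c := by
  intro B B' hB hB' hA
  obtain ⟨e, n, q, κ, h1, h2⟩ := h B B' hB hB' hA
  refine ⟨e, n, q, fun g i => κ g.toSg i * sg (g.e && (q i).e), fun g hs hL i => ?_,
    fun g f hf => ⟨cov_vac g hf (h2 _ f _ hf).1, ?_⟩⟩
  · rw [norm_mul, show ‖sg (g.e && (q i).e)‖ = 1 by cases (g.e && (q i).e) <;> simp, mul_one]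
    exact h1 _ hs hL i
  · simp only [map_mul, conj_sg]
    exact cov_vac g (q := fun i => (q i).dag) hf (h2 _ f _ hf).2

end

end Vale.Agent.N352.G.X
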