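import Vale.Agent.N352.X.Net
import Vale.Agent.P352X.R.KD.B

/-!
# N352, block X: pairs of forward cut cones are in the domain of `K`
-/

set_option linter.all false

open Filter Topology Set

namespace Vale.Agent.N352.G.X.Kd

open Vale.Agent.P352 Vale.Agent.P352.GF Vale.Agent.P352.BW Vale.Agent.P352.H496
open Vale.Agent.P352X
open Vale.Agent.P352X.KDa (gn_scale cg pr_add pr_zero pr_smul pr_closed pr_kms pr_der pr_mono pr_map)
open UniformSpace (Completion)
open Real (exp)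
open Complex (I)

noncomputable section

variable {D : Type*} [NormedAddCommGroup D] [InnerProductSpace ℂ D] {c : G.Ctx D} (g : G.GRP c)
  {r r' : ℝ} {ψ ψ' k k' : Completion D}

theorem cvt {W : ℝ → Completion D →L[ℂ] Completion D} (h : UG W) : KDa.UG W :=
  ⟨h.zero', h.add', h.nrm, h.cont⟩

theorem rc_sub (h0 : 0 ≤ r') (h : r' ≤ r) : Rc r 0 ⊆ Rc r' 0 :=
  fun _ hz => HM.H584.Rg_mono null_va null_vb md_ab h0 h hz

theorem rc_mono (h0 : 0 ≤ r') (h : r' ≤ r) (hp : Pr (c.N (Rc r 0)) c.Om ψ ψ') :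
    Pr (c.N (Rc r' 0)) c.Om ψ ψ' := pr_mono (c.hN.mono _ _ (rc_sub h0 h)) hp

include g

theorem geo (hr : 0 < r) (hr' : 0 < r') :
    ∀ X ∈ c.N (Rc r 0), c.SK (r' - r) * X * star (c.SK (r' - r)) ∈ c.N (Rc r' 0) := fun X hX => by
  obtain ⟨E, hE⟩ := g.md r' hr'.le
  obtain ⟨a, ha⟩ : ∃ a, exp (2 * Real.pi * a) = r' / r :=
    ⟨Real.log (r' / r) / (2 * Real.pi), by
      rw [mul_div_cancel₀ _ (by positivity), Real.exp_log (by positivity)]⟩
  have h := (ip_bo c.toCg (2 * Real.pi * a)).mem (fun z => rc_bo (r := r) _) X hX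
  rw [ha, mul_div_cancel₀ _ hr.ne'] at h
  have e : c.SK (r' - r) = E.U a * Bo c.Q (2 * Real.pi * a) := by
    rw [hE, mul_assoc, (Sq.ugB c.toCg).inv_mul, mul_one, Real.exp_neg, ha]
    congr 1
    field_simp
  rw [e, star_mul, E.star_U]
  simpa only [P132.ModData.sg, mul_assoc] using E.sg_mem h a

theorem dom (hr : 0 < r) (hp : Pr (c.N (Rc r 0)) c.Om ψ ψ') (hB : Dm (Bo c.Q) ψ) : Dm c.SK ψ := by
  obtain ⟨E, hE⟩ := g.md 0 le_rfl
  obtain ⟨E', hE'⟩ := g.md r hr.le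
  have B := Sq.ugB c.toCg
  have h0 : HasDerivAt (fun t : ℝ => E.U t ψ) ((-(2 * Real.pi)) • I • gen (Bo c.Q) ψ) 0 := by
    simpa only [hE, zero_mul, g.ugK.zero', one_mul, neg_mul] using gn_scale hB.gn (-(2 * Real.pi))
  obtain ⟨k', hk'⟩ := Dom.der E E' (c.hN.mono _ _ (rc_sub le_rfl hr.le)) h0 (pr_kms E' hp)
  have hφ := JB.prod_der (fun t => E'.U t) (fun t z => (E'.norm_U t z).le)
    (fun z => E'.continuous_U_apply z) E'.U_zero (w := k') (gn_scale hB.gn (2 * Real.pi)) (by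
      simpa only [mul_zero, B.zero', ContinuousLinearMap.one_apply] using hk')
  have hφ' := HasDerivAt.scomp_of_eq (𝕜 := ℝ) (𝕜' := ℝ) 0 hφ (Dom.tau_der hr) (by simp)
  refine (hφ'.congr_of_eventuallyEq ?_).differentiableAt
  filter_upwards [Iio_mem_nhds hr] with s hs
  have e2 : -(2 * Real.pi * (-(Real.log (1 - s / r)) / (2 * Real.pi))) = Real.log (1 - s / r) := by
    field_simp
  have e3 : s / r < 1 := (div_lt_one hr).2 hs
  have e1 : r * (1 - Real.exp (Real.log (1 - s / r))) = s := by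
    rw [Real.exp_log (by linarith)]
    field_simp
    ring
  simp only [Function.comp_apply, hE', ContinuousLinearMap.mul_apply]
  have e4 := (cvt B).neg_apply (-(2 * Real.pi * (-(Real.log (1 - s / r)) / (2 * Real.pi)))) ψ
  rw [neg_neg] at e4
  rw [e4, e2, e1]

/-- row KD, first part -/
theorem kd_a (r : ℝ) (hr : 0 < r) : ∃ C : ℝ, ∀ ψ ψ', Pr (c.N (Rc r 0)) c.Om ψ ψ' →
    Dm (Bo c.Q) ψ → Dm c.SK ψ ∧ ‖gen c.SK ψ‖ ≤ C * (‖ψ‖ + ‖ψ'‖ + ‖gen (Bo c.Q) ψ‖) := by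
  let G : Submodule ℝ (Completion D × Completion D × Completion D) :=
    { carrier := {p | Pr (c.N (Rc r 0)) c.Om p.1 p.2.1 ∧ Gn (Bo c.Q) p.1 p.2.2}
      add_mem' := fun h h' => ⟨pr_add h.1 h'.1, h.2.add h'.2⟩
      zero_mem' := ⟨pr_zero, gn_zero⟩
      smul_mem' := fun a _ h => ⟨pr_smul a h.1, h.2.rsmul a⟩ }
  let R : Submodule ℝ ((Completion D × Completion D × Completion D) × Completion D) :=
    { carrier := {p | Gn c.SK p.1.1 p.2}
      add_mem' := fun h h' => Gn.add h h'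
      zero_mem' := gn_zero
      smul_mem' := fun a _ h => Gn.rsmul a h }
  obtain ⟨C, hC, hb⟩ := cg G R
    ((pr_closed.preimage (f := fun p : Completion D × Completion D × Completion D => (p.1, p.2.1))
      (by fun_prop)).inter ((cvt (Sq.ugB c.toCg)).closed.preimage
        (f := fun p : Completion D × Completion D × Completion D => (p.1, p.2.2)) (by fun_prop)))
    ((cvt g.ugK).closed.preimage
      (f := fun p : (Completion D × Completion D × Completion D) × Completion D => (p.1.1, p.2))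
      (by fun_prop))
    fun x hx => ⟨_, (dom g hr hx.1 hx.2.dm).gn⟩
  refine ⟨C, fun ψ ψ' hp hB => ?_⟩
  obtain ⟨y, hy, h1⟩ := hb (ψ, ψ', gen (Bo c.Q) ψ) ⟨hp, hB.gn⟩
  have hy' : Gn c.SK ψ y := hy
  refine ⟨hy'.dm, ?_⟩
  rw [hy'.gen_eq]
  refine h1.trans (mul_le_mul_of_nonneg_left ?_ hC)
  have := norm_nonneg ψ
  have := norm_nonneg ψ'
  have := norm_nonneg (gen (Bo c.Q) ψ)
  simp only [Prod.norm_def, max_le_iff]
  refine ⟨by linarith, by linarith, by linarith⟩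

theorem kd_b (hr : 0 < r) (hr' : 0 < r') (hp : Pr (c.N (Rc r 0)) c.Om ψ ψ') :
    Pr (c.N (Rc r' 0)) c.Om (c.SK (r' - r) ψ) (c.SK (r' - r) ψ') :=
  pr_map (g.ugK.uni _) (g.K_vac _) (geo g hr hr') hp

/-- row KD, second part -/
theorem kd_a2 (r r' : ℝ) (ψ ψ' : Completion D) (h0 : 0 ≤ r') (h : r' < r)
    (hp : Pr (c.N (Rc r 0)) c.Om ψ ψ') (hB : Dm (Bo c.Q) ψ) (hB' : Dm (Bo c.Q) ψ') :
    Pr (c.N (Rc r' 0)) c.Om (I • gen c.SK ψ) (I • gen c.SK ψ') := by
  have hr := h0.trans_lt h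
  refine pr_der ?_ (dom g hr hp hB).gn (dom g hr (KDa.pr_symm hp) hB').gn
  filter_upwards [Ioi_mem_nhds (show r' - r < 0 by linarith)] with t ht
  have ht' : r' < r + t := by linarith [Set.mem_Ioi.1 ht]
  have := kd_b g hr (h0.trans_lt ht') hp
  rw [add_sub_cancel_left] at this
  exact rc_mono h0 ht'.le this

end

end Vale.Agent.N352.G.X.Kd
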