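import Vale.Agent.N352.X.PF
import Vale.Agent.N352.X.Dsc

/-!
# N352, block X: the graded context exists (helper72)
-/

set_option linter.all false

namespace Vale.Agent.N352.G.X

open Vale.Agent.P352 Vale.Agent.P352.GF Vale.Agent.P352.BW Vale.Agent.P352.H246
open Vale.Agent.P352.H496 Vale.Agent.P352.H755 Vale.Agent.P352.H15
open Vale.Agent.P352X

variable {D : Type*} [NormedAddCommGroup D] [InnerProductSpace ℂ D]

/-- **the graded context**, with the rows that descend from the double -/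
theorem ex_X (c : Cg D) (y : Tn.Hy c) (hU : UVac c.Q) {T : Ix → Ix → Fld D} (hT : c.Q.IsStress T)
    (hP : ND.PCh c.Q T c.A) : ∃ x : Ctx D, x.toCg = c ∧ x.T = T ∧ E0 x ∧ MIX c ∧ PF x := by
  obtain ⟨E, k, tp, -, -, hM, hF, L, h⟩ := ex_lkP c y hU hT hP
  haveI : Fact k.tp := ⟨tp⟩
  have t := EB.e0_thm k (main k).1
  have t0 : EB.NA.N0 k := ⟨t, EB.NA.ee_thm k, hM, hF⟩
  obtain ⟨x, e1, e2, t1, m, s⟩ := descend L hT t.toT1 (EB.flow_row t)
  exact ⟨x, e1, e2, t1, m, h x e1 t1 (EB.NA.pf_row t0 (EB.NA.cov_row t0)) s⟩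

end Vale.Agent.N352.G.X
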