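import Vale.Agent.N352.X.Fc
import Vale.Agent.N352.X.Ex
import Vale.Agent.N352.X.COV
import Vale.Agent.P352NA.MOM.R1

/-!
# N352, block X: the graded theorem without energy bounds (helper71)
-/

set_option linter.all false

namespace Vale.Agent.N352.G.X

open Vale.Agent.P352 Vale.Agent.P352.GF Vale.Agent.P352.BW Vale.Agent.P352.H246
open Vale.Agent.P352.H496 Vale.Agent.P352.H755 Vale.Agent.P352.H15
open Vale.Agent.P352X
open UniformSpace (Completion)

universe u

variable {D : Type u} [NormedAddCommGroup D] [InnerProductSpace ℂ D]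

theorem ext_bg {c : Cg D} {D' : Submodule ℂ (Completion D)} {Q' : Theory D'} {G' : D' → D'}
    {e : Fld D → Fld D'} (h : ExtC (Tn.bg c).Q c.Γ Q' G' e) : ExtC c.Q c.Γ Q' G' e := by
  have k : ∀ w, Cyc c.Q w → Cyc (Tn.bg c).Q w := fun w hw S h0 h1 =>
    hw S h0 fun B f v hB => h1 B f v (Tn.bg_fld hB)
  exact ⟨h.toGr, fun w hw => h.mem w (k w hw), h.vac, h.G, h.U, fun B hB => h.fld B (Tn.bg_fld hB),
    fun B hB => h.bos B (Tn.bg_bose hB), fun B B' a b => h.adj B B' (Tn.bg_fld a) (Tn.bg_fld b),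
    fun B f v w a b hw => h.agree B f v w (Tn.bg_fld a) b (k w hw)⟩

/-- **the graded theorem**, for a twisted-local net, without energy bounds and without a hypothesis
on logarithms -/
theorem final (Q : Theory D) (G : D → D) (T : Ix → Ix → Fld D) (hT : Stress0 Q T)
    (A : (V → V) → D → D) (hA : ND.PCh Q T A) (hG : MfAll Q) (hF : FSL Q)
    (Γ : Completion D →L[ℂ] Completion D) (N : Set V → VonNeumannAlgebra (Completion D))
    (hN : LNg Q G A Γ N) (hU : L.UVac Q) :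
    NoLog Q T ∧ ∃ T', Q.IsStress T' ∧ ND.PCh Q T' A ∧
    ∃ (D' : Submodule ℂ (Completion D)) (Q' : Theory D') (G' : D' → D') (e : Fld D → Fld D')
      (L : Fld D'), ExtC Q Γ Q' G' e ∧ AfW N Q' (↑) ∧ Q'.IsStress (fun m n => e (T' m n)) ∧
      Q'.IsScalar L 2 ∧
      (∀ f v, IsTest f → tr (fun m n => e (T' m n)) f v = (3 : ℂ) • L (box f) v) ∧
      ∀ Q'' : Theory D', IsEnl Q' Q'' → IsImpr Q'' (fun m n => e (T' m n))
        (improve (fun m n => e (T' m n)) L) ∧ ConfAct Q'' (improve (fun m n => e (T' m n)) L) ∧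
        (Gr Q'' G' → CFS Q'' G' (improve (fun m n => e (T' m n)) L) ∧
        ∀ B, Q'.fld B → ∃ (n : ℕ) (p : Fin n → Bool) (C : Fin n → Fld D'),
          (∀ i, DescS Q'' G' (improve (fun m n => e (T' m n)) L) (p i) (C i)) ∧
          ∀ f v, IsTest f → B f v = ∑ i, C i f v) := by
  let c : Cg D := ⟨Q, G, A, Γ, N, hN⟩
  have hL : NoLog Q T := Tn.nologD c hU hG hF hT hA
  obtain ⟨T', a1, a2⟩ := EG.H.st T hF hL hT hA (c := c)
  have hM := Tn.bg_mfa (c := c) hG
  have hS := Tn.bg_fsl (c := c) hF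
  obtain ⟨x, e1, rfl, t, mx, pf⟩ := ex_X (Tn.bg c) ⟨Tn.bg_big c, hM, hS⟩ hU (Tn.bg_str a1)
    (Tn.bg_pch (fun m n => Q.bose_fld _ (a1.bose m n)) a2)
  rw [← e1] at hM hS mx
  have h0 := cov0_row hM hS
  have hc := cov_row h0
  have rig : ∀ ι : Type u, RIG ι := fun ι => EB.NA.rig_row ι
  have h := fin_conf (fin_row ⟨t, hc, wrd_row t hc pf rig, loc_row t hc pf rig⟩ h0) h0 mx hM hS
  rw [show x.Q = (Tn.bg c).Q from congrArg (·.Q) e1, show x.Γ = c.Γ from congrArg (·.Γ) e1,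
    show x.N = N from congrArg (·.N) e1] at h
  obtain ⟨D', Q', G', e, L, h1, h2⟩ := h
  exact ⟨hL, _, a1, a2, D', Q', G', e, L, ext_bg h1, h2⟩

end Vale.Agent.N352.G.X
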