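import Vale.Agent.N352.GSq
import Vale.Agent.P352X.EG.MU2
import Vale.Agent.P352X.EG.OPS
import Vale.Agent.P352X.EH.Pub
import Vale.Agent.P352X.TPD.Defs
import Vale.Agent.P352NA.Defs

/-!
# N352, block X: the graded net-only route, vocabulary and rows
-/

set_option linter.all false

open MeasureTheory Filter Topology
open scoped SchwartzMap ComplexConjugate ContDiff

namespace Vale.Agent.N352.G.X

export Vale.Agent.P352X.EG (Cg Sh sg Rl ml M0 Cm SG)
export Vale.Agent.P352X.EB (Sg W0 W1 Prd cph pb Reg rh Wd TW CW evw cutw snw cutf)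
export Vale.Agent.P352X.EB.NA (pe Pol nd RIG rv)
export Vale.Agent.P352NA (Cyc)

open Vale.Agent.P352 Vale.Agent.P352.GF Vale.Agent.P352.BW Vale.Agent.P352.H246
open Vale.Agent.P352.H496 Vale.Agent.P352.H755 Vale.Agent.P352.H15
open Vale.Agent.P352.SubConf (IsAdj)
open Vale.Agent.P352X Vale.Agent.P352X.EB
open Vale.Agent.P132 (ModData)
open UniformSpace (Completion)
open Complex (I)
open Bornology (IsBounded)

noncomputable section

variable {D : Type*} [NormedAddCommGroup D] [InnerProductSpace ℂ D]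

/-- The theory `Q'` with the grading `G'` extends the theory `Q` in the same Hilbert space. -/
structure ExtC (Q : Theory D) (Γ : Completion D →L[ℂ] Completion D)
    {D' : Submodule ℂ (Completion D)} (Q' : Theory D') (G' : D' → D') (e : Fld D → Fld D') :
    Prop extends Gr Q' G' where
  mem : ∀ w : D, Cyc Q w → (w : Completion D) ∈ D'
  vac : (Q'.vac : Completion D) = om Q
  G : ∀ v, (G' v : Completion D) = Γ v
  U : ∀ s L a v, 0 < s → IsLor L → (Q'.U s L a v : Completion D) = Ue Q s L a v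
  fld : ∀ B, Q.fld B → Q'.fld (e B)
  bos : ∀ B, Q.bose B → Q'.bose (e B)
  adj : ∀ B B', Q.fld B → Q.fld B' → IsAdj B B' → IsAdj (e B) (e B')
  agree : ∀ B f (v : D') (w : D), Q.fld B → IsTest f → Cyc Q w → (v : Completion D) = w →
    (e B f v : Completion D) = (B f w : D)

/-- **The graded context** -/
structure Ctx (D : Type*) [NormedAddCommGroup D] [InnerProductSpace ℂ D] extends Cg D where
  T : Ix → Ix → Fld D
  SK : ℝ → Completion D →L[ℂ] Completion D
  l : Fn → Completion D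
  hT : Q.IsStress T
  hl : IsPot Q T l
  sk_uni : ∀ s, SK s ∈ unitary (Completion D →L[ℂ] Completion D)
  sk0 : SK 0 = 1
  K_vac : ∀ s, SK s (om Q) = om Q
  gK : ∀ s, Γ * SK s = SK s * Γ

theorem Ctx.N_mono (c : Ctx D) {O O' : Set V} (h : O ⊆ O') : ∀ X ∈ c.N O, X ∈ c.N O' :=
  c.hN.mono O O' h

variable (c : Ctx D)

/-! ## rows that descend from the double -/

/-- the finite action of `exp (i t K)` on the potential -/
def FLOW : Prop := ∀ f t, In {z | be z < 0} f → 0 ≤ t → c.SK t (c.l f) = c.l (pb 2 t f)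

/-- the potential is local in the standard wedge -/
def PRW : Prop := ∀ f, In W0 f → Pr (c.N W0) c.Om (c.l f) (c.l (bar f))

/-- mixing, for even vectors -/
def MIX (c : Cg D) : Prop := ∀ ξ w : Completion D, c.Γ ξ = ξ → Tendsto (fun r : ℝ =>
  inner ℂ ξ (Ue c.Q (Real.sqrt (r * 1)) (TPD.Lsc r 1) 0 w)) (𝓝[>] 0)
    (𝓝 (inner ℂ ξ c.Om * inner ℂ c.Om w))

/-- the group relations are lemmas in the namespace `GRP` -/
structure GRP (c : Ctx D) : Prop where
  triv : True

/-- the twisted dual net: operators that commute with the algebras of the opposite wedges -/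
def Nw (c : Cg D) (O : Set V) (Z : Completion D →L[ℂ] Completion D) : Prop :=
  ∀ g : Sh c, O ⊆ g.Op → Cm c g Z

/-- row DENS: the compact sets generate the commutant of the algebra of the wedge -/
def DENS (c : Cg D) : Prop := ∀ ξ η ζ : Completion D, (∀ C, IsCompact C → C ⊆ W1 → ∀ Z, Nw c C Z →
  inner ℂ (Z c.Om) ζ = inner ℂ (Z ξ) η) → Prd (M0 c) c.Om ξ η ζ

/-- the tools for the words -/
structure E0 : Prop where
  e0 : EG.E0 c.toCg
  flow : FLOW c
  prw : PRW c
  dual : ∀ Z, Z ∈ (M0 c.toCg).commutant ↔ Nw c.toCg W1 Z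
  dens : DENS c.toCg
  skc : ∀ s, 0 ≤ s → ∀ Z ∈ (M0 c.toCg).commutant,
    star (c.SK s) * Z * c.SK s ∈ (M0 c.toCg).commutant

namespace E0

variable {c} (t : E0 c)
include t

theorem grp : GRP c := ⟨trivial⟩
theorem sg : SG c.toCg := t.e0.sg
theorem bas : EG.BAS c.toCg := t.e0.bas
theorem ana : ANA := t.e0.ana
theorem dy : DY := t.e0.dy
theorem pou : POU (Completion D) := t.e0.pou
theorem geo : GEO := t.e0.geo

end E0

/-! ## letters and words -/

/-- true letters: sums of fields smeared in `K`, applied to the vacuum, with their adjoints -/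
inductive Tr (K : Set V) : Completion D → Completion D → Prop
  | zero : Tr K 0 0
  | fld (B B' : Fld D) (f : Fn) : c.Q.fld B → c.Q.fld B' → IsAdj B B' → In K f →
      Tr K (B f c.Q.vac : D) (B' (bar f) c.Q.vac : D)
  | add (ξ ξ' η η' : Completion D) : Tr K ξ ξ' → Tr K η η' → Tr K (ξ + η) (ξ' + η')
  | smul (z : ℂ) (ξ ξ' : Completion D) : Tr K ξ ξ' → Tr K (z • ξ) (conj z • ξ')

/-- letters: the potential (`true`) or true letters (`false`) -/
def Ty (K : Set V) : Bool → Completion D × Completion D → Prop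
  | true, p => ∃ h, In K h ∧ p = (c.l h, c.l (bar h))
  | false, p => Tr c K p.1 p.2

/-- words of letters of given types -/
def Tw (K : Set V) (σ : List Bool) (w : List (Completion D × Completion D)) : Prop :=
  List.Forall₂ (Ty c K) σ w

/-- the vector of a word -/
def wv (w : List (Completion D × Completion D)) : Completion D :=
  w.foldr (fun p v => ml c.toCg p.2 v) c.Om

/-- all splittings of the word are products -/
def Sp (K : Set V) (w : List (Completion D × Completion D)) : Prop :=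
  ∀ u v, w = u ++ v → Rl c.toCg K (wv c (rv u)) (wv c v) (wv c w)

/-- the vectors of words -/
def Wv : Set (Completion D) := {z | ∃ K σ w, IsCompact K ∧ Tw c K σ w ∧ z = wv c w}

/-- local vectors -/
def D1 (v : Completion D) : Prop := v ∈ Submodule.span ℂ (Wv c)

/-- the labels of fields: fields of definite parity, with an adjoint -/
structure Lb (c : Cg D) where
  B : Fld D
  B' : Fld D
  e : Bool
  h : c.Q.fld B
  h' : c.Q.fld B'
  a : IsAdj B B'
  par : EG.Pa c e B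

/-- row PF: polynomial families through the true letters -/
def PF : Prop := ∀ q : Lb c.toCg, ∃ N : ℕ, ∀ (T : ℝ) f, In (Rc T 0) f →
  ∃ η η' : ℝ → Completion D, η 0 = (q.B f c.Q.vac : D) ∧ η' 0 = (q.B' (bar f) c.Q.vac : D) ∧
    (∀ s ∈ Set.Icc 0 T, Tr c (cph s '' tsupport f) (η s) (η' s)) ∧
    Pol N (Set.Icc 0 T) (fun s => c.SK s (η s)) ∧ Pol N (Set.Icc 0 T) fun s => c.SK s (η' s)

/-- row COV0: the similitudes map a field into the span of a finite family of fields -/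
def COV0 (c : Cg D) : Prop := ∀ B B', c.Q.fld B → c.Q.fld B' → IsAdj B B' →
  ∃ (e n : ℕ) (q : Fin n → Lb c) (κ : Sg → Fin n → ℂ),
    (∀ g : Sg, 1 ≤ g.s → g.L = GF.one → ∀ i, ‖κ g i‖ ≤ g.s ^ e) ∧
    ∀ (g : Sg) f v, IsTest f →
      B f (c.Q.U g.s g.L g.a v) = ∑ i, κ g i • c.Q.U g.s g.L g.a ((q i).B (g.pull f) v) ∧
      B' f (c.Q.U g.s g.L g.a v) = ∑ i, conj (κ g i) • c.Q.U g.s g.L g.a ((q i).B' (g.pull f) v)

/-- row COV: the same on the vacuum, for the group with the grading -/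
def COV (c : Cg D) : Prop := ∀ B B', c.Q.fld B → c.Q.fld B' → IsAdj B B' →
  ∃ (e n : ℕ) (q : Fin n → Lb c) (κ : Sh c → Fin n → ℂ),
    (∀ g : Sh c, 1 ≤ g.s → g.L = GF.one → ∀ i, ‖κ g i‖ ≤ g.s ^ e) ∧
    ∀ (g : Sh c) f, IsTest f →
      ((B f c.Q.vac : D) : Completion D) = ∑ i, κ g i • g.U c ((q i).B (g.pull f) c.Q.vac : D) ∧
      ((B' f c.Q.vac : D) : Completion D) =
        ∑ i, conj (κ g i) • g.U c ((q i).B' (g.pull f) c.Q.vac : D)

/-- row WRD: words split -/
def WRD : Prop := ∀ K σ w, IsCompact K → Tw c K σ w → Sp c K w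

/-- letters of parity `e` -/
def Pe (e : Bool) (p : Completion D × Completion D) : Prop :=
  c.Γ p.1 = sg e • p.1 ∧ c.Γ p.2 = sg e • p.2

/-- row LOC: space-like separated letters commute or anticommute -/
def LOC : Prop := ∀ K K' σ σ' p p' (e e' : Bool), IsCompact K → IsCompact K' →
  (∀ x ∈ K, ∀ y ∈ K', GF.mdot (x - y) (x - y) < 0) → Ty c K σ p → Ty c K' σ' p' →
  Pe c e p → Pe c e' p' → (σ = true → e = false) → (σ' = true → e' = false) →
  wv c [p, p'] = sg (e && e') • wv c [p', p]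

/-- the tools for the action of the letters -/
structure E2 : Prop extends E0 c where
  cov : COV c.toCg
  wrd : WRD c
  loc : LOC c

/-- row FIN: the extension with the local potential -/
def FIN : Prop := ∃ (D' : Submodule ℂ (Completion D)) (Q' : Theory D') (G' : D' → D')
  (e : Fld D → Fld D') (L : Fld D'), ExtC c.Q c.Γ Q' G' e ∧ AfW c.N Q' (↑) ∧
    Q'.IsStress (fun m n => e (c.T m n)) ∧ Q'.IsScalar L 2 ∧ (∀ f v, IsTest f →
      GF.tr (fun m n => e (c.T m n)) f v = (3 : ℂ) • L (box f) v) ∧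
    (∀ f, IsTest f → (L f Q'.vac : Completion D) = c.l f) ∧
    ∀ A, Q'.fld A → ∃ (n : ℕ) (B : Fin n → Fld D'), (∀ i, B i = L ∨ ∃ C, c.Q.fld C ∧
      ∀ f v, IsTest f → B i f v = e C f v) ∧ ∀ f v, A f v = ∑ i, B i f v

/-! ## the lemmas of `GRP` -/

namespace GRP

variable {c} (g : GRP c) {O O' : Set V} {ψ ψ' k : Completion D}
include g

theorem na : IsNull va := Grp.na
theorem nb : IsNull vb := Grp.nb
theorem nab : GF.mdot va vb = 1 := Grp.nab
theorem coe (s L a) (v : D) (hs : 0 < s) (hL : IsLor L) :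
    Ug c.Q s L a v = (c.Q.U s L a v : D) := Grp.coe hs hL a v
theorem uni (s L a) : Ug c.Q s L a ∈ unitary (Completion D →L[ℂ] Completion D) := by
  by_cases h : 0 < s ∧ IsLor L
  · exact (ip_ug c.toCg h.1 h.2 a).uni
  · rw [Ug, dif_neg h]
    exact one_mem _
theorem ug_inner (s L a) (v w : Completion D) :
    inner ℂ (Ug c.Q s L a v) (Ug c.Q s L a w) = inner ℂ v w := inner_unitary (g.uni s L a) v w
theorem ug_norm (s L a) (v : Completion D) : ‖Ug c.Q s L a v‖ = ‖v‖ :=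
  ContinuousLinearMap.norm_map_of_mem_unitary (g.uni s L a) v
theorem sc_norm {r s : ℝ} (hr : 0 < r) (hs : 0 < s) (v : Completion D) : ‖Usc c.Q r s v‖ = ‖v‖ :=
  (ip_sc c.toCg hr hs).nrm v
theorem ut0 : Ut c.Q 0 = 1 := Grp.ut0
theorem ut (x y : V) : Ut c.Q (x + y) = Ut c.Q x * Ut c.Q y := Sq.ut c.toCg x y
theorem sc1 : Usc c.Q 1 1 = 1 := Sq.sc1 c.toCg
theorem sc (r s r' s' : ℝ) (hr : 0 < r) (hs : 0 < s) (hr' : 0 < r') (hs' : 0 < s') :
    Usc c.Q (r * r') (s * s') = Usc c.Q r s * Usc c.Q r' s' := Sq.sc c.toCg hr hs hr' hs'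
theorem ga0 : Ga c.Q 0 = 1 := Sq.ga0 c.toCg
theorem ga (v w : R2) : Ga c.Q (v + w) = Ga c.Q v * Ga c.Q w := Sq.ga c.toCg v w
theorem sc_ut (r s : ℝ) (y : V) (hr : 0 < r) (hs : 0 < s) :
    Usc c.Q r s * Ut c.Q y = Ut c.Q (scp r s y) * Usc c.Q r s := Sq.sc_ut c.toCg y hr hs
theorem ga_ut (w : R2) (y : V) : Ga c.Q w * Ut c.Q y = Ut c.Q (gap w y) * Ga c.Q w :=
  Sq.ga_ut c.toCg w y
theorem sc_ga (r s : ℝ) (w : R2) (hr : 0 < r) (hs : 0 < s) :
    Usc c.Q r s * Ga c.Q w = Ga c.Q (Real.sqrt (r / s) • w) * Usc c.Q r s :=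
  Sq.sc_ga c.toCg w hr hs
theorem pot (s L a f) (hs : 0 < s) (hL : IsLor L) (hf : IsTest f) :
    Ug c.Q s L a (c.l fun x => f (sim s L a x)) = ((s ^ 2)⁻¹ : ℝ) • c.l f :=
  Sq.pot c.hl a hs hL hf
theorem affa (O X X') (h : Al c.Q O X X') : T.Afs (c.N O) X X' := EG.SGx.affa h
theorem rs (O : Set V) (h : IsOpen O) (h' : O.Nonempty) : Dense {z | ∃ X ∈ c.N O, X c.Om = z} :=
  EG.SGx.rs h h'
theorem ut_cont {X : Type} [TopologicalSpace X] {a : X → V} {v : X → Completion D}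
    (ha : Continuous a) (hv : Continuous v) : Continuous fun x => Ut c.Q (a x) (v x) :=
  Sq.ut_cont c.toCg ha hv
theorem ut_apply (x y : V) (v : Completion D) : Ut c.Q x (Ut c.Q y v) = Ut c.Q (x + y) v :=
  Sq.ut_apply c.toCg x y v
theorem ugT (y : V) : UG fun t => Ut c.Q (t • y) := Sq.ugT c.toCg y
theorem ugG (w : R2) : UG fun t => Ga c.Q (t • w) := Sq.ugG c.toCg w
theorem ugM (i : Fin 2) : UG (Mi c.Q i) := Sq.ugM c.toCg i
theorem ugSc (x y : ℝ) : UG fun t => Usc c.Q (Real.exp (x * t)) (Real.exp (y * t)) :=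
  Sq.ugSc c.toCg x y
theorem ugB : UG (Bo c.Q) := Sq.ugB c.toCg
theorem star_ut (y : V) : star (Ut c.Q y) = Ut c.Q (-y) := Sq.star_ut c.toCg y
theorem ut_inv (y : V) : Ut c.Q y * Ut c.Q (-y) = 1 := Sq.ut_inv c.toCg y
theorem ut_inv' (y : V) : Ut c.Q (-y) * Ut c.Q y = 1 := Sq.ut_inv' c.toCg y

theorem pr_ut (h : Pr (c.N O) c.Om ψ ψ') (y : V) (e : ∀ z ∈ O, z + y ∈ O') :
    Pr (c.N O') c.Om (Ut c.Q y ψ) (Ut c.Q y ψ') := (ip_ut c.toCg y).pr h e

theorem pr_ga (h : Pr (c.N O) c.Om ψ ψ') (w : R2) (e : ∀ z ∈ O, gap w z ∈ O') :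
    Pr (c.N O') c.Om (Ga c.Q w ψ) (Ga c.Q w ψ') := (ip_ga c.toCg w).pr h e

theorem pr_sc (h : Pr (c.N O) c.Om ψ ψ') {r s : ℝ} (hr : 0 < r) (hs : 0 < s)
    (e : ∀ z ∈ O, scp r s z ∈ O') : Pr (c.N O') c.Om (Usc c.Q r s ψ) (Usc c.Q r s ψ') :=
  (ip_sc c.toCg hr hs).pr h e

theorem pr_Al {X X' : D → D} (h : Al c.Q O X X') :
    Pr (c.N O) c.Om (X c.Q.vac : D) (X' c.Q.vac : D) := Sq.pr_Al h

end GRP

end

end Vale.Agent.N352.G.X
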