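import Vale.Agent.N352.St2
import Vale.Agent.N352.W2

/-!
# N352, block X: distributions with positive and negative spectrum are smooth (helper72)
-/

set_option linter.all false

noncomputable section

open Filter Topology Metric MeasureTheory Set
open scoped SchwartzMap ContDiff

namespace Vale.Agent.N352.Kn

open Vale.Agent.P352 Vale.Agent.P352.GF Vale.Agent.P352X
open Vale.Agent.P352X.ST (tens tsl pw mdl Bd)
open Vale.Agent.P352X.Api4 (pint sl)
open ContinuousLinearMap (inl inr)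

section gen

variable {E : Type*} [NormedAddCommGroup E] [NormedSpace ℝ E] [FiniteDimensional ℝ E]
  {H : Type*} [NormedAddCommGroup H] [NormedSpace ℂ H] [CompleteSpace H]

lemma low' {s : Finset E} (hs : Submodule.span ℝ (s : Set E) = ⊤) : ∃ K : ℝ, 0 ≤ K ∧
    ∀ L : E × E →L[ℝ] ℝ, -1 ≤ L (∑ η ∈ s, η, 0) → (∀ η ∈ s, -1 ≤ L (0, η)) →
      1 + ‖L‖ ≤ K * (1 + ‖sg E L‖) := by
  obtain ⟨K, K0, hK⟩ := nrm hs
  set σ := ∑ η ∈ s, η with hσ
  set A : ℝ := 1 + s.card + ‖σ‖ with hA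
  refine ⟨1 + 2 * (K * A), by positivity, fun L h1 h2 => ?_⟩
  have h0 := norm_nonneg (sg E L)
  have h3 := hK (L ∘L inr ℝ E E) (A * (1 + ‖sg E L‖)) (by positivity) fun η hη => by
    have a := Finset.single_le_sum (f := fun η => (L ∘L inr ℝ E E) η + 1)
      (fun η hη => by have := h2 η hη; show 0 ≤ L (0, η) + 1; linarith) hη
    rw [Finset.sum_add_distrib, ← map_sum, ← hσ, Finset.sum_const, nsmul_eq_mul, mul_one] at a
    have b : L (σ, 0) + L (0, σ) ≤ ‖sg E L‖ * ‖σ‖ := (le_abs_self _).trans ((sg E L).le_opNorm σ)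
    have d := h2 η hη
    have e := norm_nonneg σ
    have f : (0 : ℝ) ≤ s.card := Nat.cast_nonneg _
    change L (0, η) + 1 ≤ L (0, σ) + _ at a
    show |L (0, η)| ≤ _
    rw [hA, abs_le]
    constructor <;> nlinarith
  have h4 : ‖L‖ ≤ ‖sg E L‖ + 2 * ‖L ∘L inr ℝ E E‖ := by
    refine ContinuousLinearMap.opNorm_le_bound _ (by positivity) fun z => ?_
    have e : L z = sg E L z.1 + (L ∘L inr ℝ E E) (z.2 - z.1) := by
      simp [← map_add]
    have a := (sg E L).le_opNorm z.1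
    have b := (L ∘L inr ℝ E E).le_opNorm (z.2 - z.1)
    have d := norm_sub_le z.2 z.1
    have f := mul_le_mul_of_nonneg_left (norm_fst_le z) h0
    have g := mul_le_mul_of_nonneg_left (d.trans (add_le_add (norm_snd_le z) (norm_fst_le z)))
      (norm_nonneg (L ∘L inr ℝ E E))
    rw [e]
    refine (norm_add_le _ _).trans ?_
    linarith
  nlinarith

omit [FiniteDimensional ℝ E] in
lemma ex_M {m : (E × E →L[ℝ] ℝ) → ℂ} (hm : m.HasTemperateGrowth) {K : ℝ} (K0 : 0 ≤ K)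
    (hK : ∀ L, m L ≠ 0 → 1 + ‖L‖ ≤ K * (1 + ‖sg E L‖)) (Ψ : 𝓢(E →L[ℝ] ℝ, ℂ)) :
    ∃ M : 𝓢(E × E →L[ℝ] ℝ, ℂ), ∀ L, M L = m L * Ψ (sg E L) := by
  have hS : tsupport m ⊆ {L | 1 + ‖L‖ ≤ K * (1 + ‖sg E L‖)} :=
    closure_minimal hK (isClosed_le (by fun_prop) (by fun_prop))
  refine ⟨ST.mkS (fun L => m L * Ψ (sg E L)) fun j n => ?_, fun _ => rfl⟩
  set N := max j n
  obtain ⟨k, C, hC, hb⟩ := ST.bd_of_temperate hm N
  have hw := (bd_restrict hb hS).mul ((ST.bd_sch Ψ le_rfl (Nat.le_add_right N k)).comp' (sg E))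
  refine ⟨_, 2 ^ N * C * K ^ (N + k) * (1 + ‖sg E‖) ^ N * 2 ^ (N + k) * ST.sn _ ℂ (N + k) Ψ,
    hw.of_le (le_max_right _ _), fun L => le_trans (mul_le_mul_of_nonneg_right
      ((ST.pow_le_one_add L j).trans (pow_le_pow_right₀ (by linarith [norm_nonneg L])
        (le_max_left j n))) (hw.nonneg L)) ?_⟩
  by_cases hL : L ∈ {L : E × E →L[ℝ] ℝ | 1 + ‖L‖ ≤ K * (1 + ‖sg E L‖)}
  · have h1 : (1 + ‖L‖) ^ (N + k) ≤ (K * (1 + ‖sg E L‖)) ^ (N + k) := by
      gcongr
      exact hL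
    have h2 : (0 : ℝ) < 1 + ‖sg E L‖ := by positivity
    rw [indicator_of_mem hL]
    calc _ = (1 + ‖L‖) ^ (N + k) * (2 ^ N * C * (1 + ‖sg E‖) ^ N * 2 ^ (N + k) *
          ST.sn _ ℂ (N + k) Ψ / (1 + ‖sg E L‖) ^ (N + k)) := by ring
      _ ≤ (K * (1 + ‖sg E L‖)) ^ (N + k) * _ := by gcongr
      _ = _ := by rw [mul_pow]; field_simp
  · rw [indicator_of_notMem hL]
    simp only [mul_zero, zero_mul]
    positivity

variable [MeasurableSpace E] [BorelSpace E] (μ : Measure E) [μ.IsAddHaarMeasure]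

lemma half {Λ : 𝓢(E × E, ℂ) →L[ℂ] H} {κ : Type*} {s : Finset κ} {d : κ → E × E}
    (h : ∀ i ∈ s, Pos Λ (d i)) {a : (E × E →L[ℝ] ℝ) → ℂ} (ha : a.HasTemperateGrowth)
    (ρ F : 𝓢(E, ℂ)) {M : 𝓢(E × E →L[ℝ] ℝ, ℂ)} (hM : ∀ L, M L = th s d L * a L * ft μ F (sg E L)) :
    Tendsto (fun k => hat (μ.prod μ) Λ (ml a (ft (μ.prod μ) (dg k ρ F)))) atTop
      (𝓝 ((∫ z, ρ z ∂μ) • hat (μ.prod μ) Λ M)) := by
  have := tendsto_ml (ft μ ρ) (fun k : ℕ => ((k : ℝ) + 1)⁻¹ • p1 E) (M := 1 + ‖p1 E‖)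
    (by linarith [norm_nonneg (p1 E)]) (fun k => ?_) (fun L => ?_) M
    (fun k => ml (th s d) (ml a (ft (μ.prod μ) (dg k ρ F)))) fun k L => ?_
  · have := ((hat (μ.prod μ) Λ).continuous.tendsto _).comp this
    rw [map_smul, ft_zero] at this
    exact this.congr fun k => hat_th _ _ h _
  · rw [norm_smul, norm_inv, Real.norm_of_nonneg (by positivity)]
    have h1 : ((k : ℝ) + 1)⁻¹ ≤ 1 := inv_le_one_of_one_le₀ (by linarith [k.cast_nonneg (α := ℝ)])
    nlinarith [norm_nonneg (p1 E)]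
  · simpa using (tendsto_one_div_add_atTop_nhds_zero_nat (𝕜 := ℝ)).smul_const (p1 E L)
  · rw [ml_apply (temp_th _ _), ml_apply ha, dg, ft_ten2, ft_scl, hM, ← mul_assoc, mul_left_comm]
    rfl

lemma ft_tens (f g : 𝓢(E, ℂ)) (L : E × E →L[ℝ] ℝ) : ft (μ.prod μ) (tens f g) L =
    ft μ f (L ∘L inl ℝ E E) * ft μ g (L ∘L inr ℝ E E) := by
  rw [ft_apply, ft_apply, ft_apply, ← integral_prod_mul]
  refine integral_congr_ae (Eventually.of_forall fun z => ?_)
  simp only [ST.tens_apply, ← pw_pair, mul_mul_mul_comm]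

/-- the product of a distribution in the second and a function in the first variable -/
def tf (u : 𝓢(E, ℂ) →L[ℂ] ℂ) (G : 𝓢(E, ℂ)) : 𝓢(E × E, ℂ) →L[ℂ] ℂ :=
  u ∘L pint μ ∘L ml fun z => G z.1

omit [FiniteDimensional ℝ E] [MeasurableSpace E] [BorelSpace E] in
lemma temp_fst (G : 𝓢(E, ℂ)) : (fun z : E × E => G z.1).HasTemperateGrowth :=
  G.hasTemperateGrowth.comp (ContinuousLinearMap.fst ℝ E E).hasTemperateGrowth

omit [FiniteDimensional ℝ E] [MeasurableSpace E] [BorelSpace E] in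
lemma temp_snd (G : 𝓢(E, ℂ)) : (fun z : E × E => G z.2).HasTemperateGrowth :=
  G.hasTemperateGrowth.comp (ContinuousLinearMap.snd ℝ E E).hasTemperateGrowth

omit [FiniteDimensional ℝ E] [MeasurableSpace E] [BorelSpace E] in
lemma ml_tens (G f g : 𝓢(E, ℂ)) : ml (fun z : E × E => G z.2) (tens f g) = tens f (ml G g) :=
  SchwartzMap.ext fun z => by
    rw [ml_apply (temp_snd G), ST.tens_apply, ST.tens_apply, ml_apply G.hasTemperateGrowth,
      mul_left_comm]

omit [FiniteDimensional ℝ E] [MeasurableSpace E] [BorelSpace E] in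
lemma ml_dg (G ρ F : 𝓢(E, ℂ)) (k : ℕ) :
    ml (fun z : E × E => G z.2) (dg k ρ F) = dg k ρ (ml G F) :=
  SchwartzMap.ext fun z => by
    rw [ml_apply (temp_snd G), dg_apply, dg_apply, ml_apply G.hasTemperateGrowth, mul_left_comm]

lemma tf_apply (u : 𝓢(E, ℂ) →L[ℂ] ℂ) (G : 𝓢(E, ℂ)) (Φ : 𝓢(E × E, ℂ)) :
    Integrable (fun y => u (sl y Φ) * G y) μ ∧ tf μ u G Φ = ∫ y, u (sl y Φ) * G y ∂μ := by
  have := Api4.par_sch μ (ml (fun z => G z.1) Φ) u
  have e : ∀ y, u (sl y (ml (fun z => G z.1) Φ)) = u (sl y Φ) * G y := fun y => by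
    rw [mul_comm, ← smul_eq_mul, ← map_smul]
    exact congrArg u (SchwartzMap.ext fun z => ml_apply (temp_fst G) Φ (y, z))
  simp only [e] at this
  exact this

lemma tf_tens (u : 𝓢(E, ℂ) →L[ℂ] ℂ) (G f g : 𝓢(E, ℂ)) :
    tf μ u G (tens f g) = (∫ y, f y * G y ∂μ) * u g := by
  rw [(tf_apply μ u G _).2, ← integral_mul_const]
  refine integral_congr_ae (Eventually.of_forall fun y => ?_)
  have : sl y (tens f g) = f y • g := SchwartzMap.ext fun z => rfl
  simp only [this, map_smul, smul_eq_mul, mul_right_comm]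

lemma tf_pos {u : 𝓢(E, ℂ) →L[ℂ] ℂ} {η : E} (h : Pos u η) (G : 𝓢(E, ℂ)) :
    Pos (tf μ u G) (0, η) := fun w hw =>
  eq_tens (tf μ u G ∘L cv (0, η) w) 0 fun f g => by
    rw [ContinuousLinearMap.comp_apply, cv_r, tf_tens, h w hw, mul_zero]
    rfl

end gen

/-- **Edge of the wedge.** Where a distribution with positive spectrum agrees with a distribution
with negative spectrum, it is a smooth function. -/
theorem eow {S : Set V} (hS : Submodule.span ℝ S = ⊤) {u u' : Sch →L[ℂ] ℂ}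
    (h : ∀ η ∈ S, Pos u η ∧ Pos u' (-η)) (χ : Sch) (e : ∀ F, u (ml χ F) = u' (ml χ F)) :
    ∃ H : V → ℂ, ContDiff ℝ ∞ H ∧ ∀ G : Sch, u (ml (ml χ χ) G) = ∫ y, H y * G y := by
  haveI := Measure.prod.instIsAddHaarMeasure (volume : Measure V) (volume : Measure V)
  obtain ⟨s, hs, h1⟩ := ex_fin hS
  obtain ⟨K, K0, hK⟩ := low' h1
  set σ := ∑ η ∈ s, η
  have t1 := temp_at ((σ, 0) : V × V)
  have t2 : (fun L : V × V →L[ℝ] ℝ => 1 - stp (L (σ, 0))).HasTemperateGrowth :=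
    (Function.HasTemperateGrowth.const 1).sub t1
  obtain ⟨M, hM⟩ := ex_M ((temp_th s fun η => ((0, η) : V × V)).mul t1) K0 (fun L hL =>
    hK L (not_lt.1 fun k => right_ne_zero_of_mul hL (stp_zero k.le))
      (supp_th _ _ (subset_tsupport _ (left_ne_zero_of_mul hL)))) (ft volume (ml χ χ))
  obtain ⟨M', hM'⟩ := ex_M ((temp_th s fun η => ((0, -η) : V × V)).mul t2) K0 (fun L hL => by
    have := hK (-L) (not_lt.1 fun k => right_ne_zero_of_mul hL (sub_eq_zero.2 (stp_one (by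
      rw [ContinuousLinearMap.neg_apply] at k
      linarith)).symm)) fun η hη => by
        simpa [← map_neg] using supp_th _ _ (subset_tsupport _ (left_ne_zero_of_mul hL)) η hη
    rwa [map_neg, norm_neg, norm_neg] at this) (ft volume (ml χ χ))
  refine ⟨fun y => u (sl y ((ft (volume.prod volume)).symm M)) +
    u' (sl y ((ft (volume.prod volume)).symm M')),
    (Api4.contDiff_sl _ _).add (Api4.contDiff_sl _ _), fun G => ?_⟩
  obtain ⟨ρ, -, hρ⟩ := Tn.ex_rho
  have l1 := half volume (fun η hη => tf_pos volume (h η (hs η hη)).1 G) t1 ρ _ hM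
  have l2 := half volume (fun η hη => tf_pos volume (h η (hs η hη)).2 G) t2 ρ _ hM'
  have l3 := ((u ∘L ml (ml χ χ)).continuous.tendsto _).comp
    (Tn.pin2_dg (cp (.neg ℝ) ρ) G)
  have i3 : ∫ x, cp (.neg ℝ) ρ x = 1 := (integral_neg_eq_self (fun x => ρ x) volume).trans hρ
  rw [i3, one_smul] at l3
  have l4 := l1.add l2
  simp only [hρ, one_smul, hat, ContinuousLinearMap.comp_apply, (tf_apply _ _ _ _).2] at l4
  rw [← integral_add (tf_apply _ _ _ _).1 (tf_apply _ _ _ _).1] at l4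
  simp only [add_mul]
  refine tendsto_nhds_unique l3 ((l4.congr fun k => ?_))
  simp only [← (tf_apply _ _ _ _).2]
  let F := ft ((volume : Measure V).prod (volume : Measure V))
  let A := F.symm.toContinuousLinearMap ∘L ml (fun L => 1 - stp (L (σ, 0))) ∘L
    F.toContinuousLinearMap ∘L ml fun z => χ z.2
  have k2 := eq_tens (tf volume u' G ∘L A) (tf volume u G ∘L A) (fun f g => by
    have t3 : (fun l : V →L[ℝ] ℝ => 1 - stp (l σ)).HasTemperateGrowth :=
      (Function.HasTemperateGrowth.const 1).sub (temp_at σ)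
    have : ml (fun L => 1 - stp (L (σ, 0))) (F (tens f (ml χ g))) =
        F (tens ((ft volume).symm (ml (fun l => 1 - stp (l σ)) (ft volume f))) (ml χ g)) :=
      SchwartzMap.ext fun L => by
      rw [ml_apply t2, ft_tens, ft_tens, ContinuousLinearEquiv.apply_symm_apply, ml_apply t3,
        mul_assoc]
      rfl
    simp only [A, F, ContinuousLinearMap.comp_apply, ml_tens, ContinuousLinearEquiv.coe_coe, this,
      ContinuousLinearEquiv.symm_apply_apply, tf_tens, e]) (dg k ρ χ)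
  simp only [A, F, ContinuousLinearMap.comp_apply, ml_dg, ContinuousLinearEquiv.coe_coe] at k2
  simp only [ContinuousLinearEquiv.coe_coe]
  have k3 : ∀ Ψ, ml (fun L : V × V →L[ℝ] ℝ => stp (L (σ, 0))) Ψ +
      ml (fun L => 1 - stp (L (σ, 0))) Ψ = Ψ := fun Ψ => SchwartzMap.ext fun L => by
    rw [SchwartzMap.add_apply, ml_apply t1, ml_apply t2, ← add_mul, add_sub_cancel, one_mul]
  rw [k2, ← map_add, ← map_add, k3, ContinuousLinearEquiv.symm_apply_apply]
  refine congrArg u (SchwartzMap.ext fun x => ?_)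
  refine Eq.trans ?_ (ml_apply (SchwartzMap.hasTemperateGrowth _) _ x).symm
  rw [Tn.pin2_apply, ← integral_const_mul]
  refine integral_congr_ae (Eventually.of_forall fun y => ?_)
  refine (ml_apply (temp_fst G) _ (y, x)).trans ?_
  simp only [dg_apply, cp_apply, ContinuousLinearEquiv.neg_apply,
    ← smul_neg, neg_sub]
  ring

end Vale.Agent.N352.Kn
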