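import Vale.Agent.N352.X.Ops
import Vale.Agent.N352.X.XT
import Vale.Agent.P352X.EH.W

/-!
# N352, block X: row FIN and the conformal structure of the extension (helper71)
-/

set_option linter.all false

open Filter Topology
open scoped ComplexConjugate

namespace Vale.Agent.N352.G.X

open Vale.Agent.P352 Vale.Agent.P352.GF Vale.Agent.P352.BW Vale.Agent.P352.H246
open Vale.Agent.P352.H496 Vale.Agent.P352.H755 Vale.Agent.P352.H15
open Vale.Agent.P352.SubConf (IsAdj)
open Vale.Agent.P352X Vale.Agent.P352X.EB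
open UniformSpace (Completion)

noncomputable section

variable {D : Type*} [NormedAddCommGroup D] [InnerProductSpace ℂ D] {c : Ctx D}

/-- the adjoint label -/
def dg {c : Cg D} : Option (Lb c) → Option (Lb c)
  | none => none
  | some p => some p.dag

/-- the vectors of a label -/
def ph (c : Ctx D) : Option (Lb c.toCg) → Fn → Completion D
  | none => c.l
  | some p => fun f => (p.B f c.Q.vac : D)

/-- the letters -/
def lx (t : E0 c) (hc : COV c.toCg) : Lt c (Option (Lb c.toCg)) where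
  dag := dg
  φ := ph c
  p := fun a => a.elim false Lb.e
  dag2 := by rintro (_ | p) <;> rfl
  pdag := by rintro (_ | p) <;> rfl
  par := by
    rintro (_ | p) f h
    exacts [(Sq.l_even c.hT c.hl h).trans (one_smul _ _).symm, t.bas.pvac _ _ f p.par h]
  lin := by
    rintro (_ | p) f g z h1 h2
    · exact c.hl.lin f g z h1 h2
    · show ((_ : D) : Completion D) = (_ : D) + z • ((_ : D) : Completion D)
      rw [c.Q.lin _ f g z _ p.h h1 h2, Completion.coe_add, Completion.coe_smul]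
  cont := by
    rintro (_ | p)
    exacts [c.hl.cont, (Completion.continuous_coe D).comp (c.Q.cont _ _ p.h)]
  ty := by
    rintro (_ | p)
    exacts [⟨true, fun _ => rfl, fun K f h => ⟨f, h, rfl⟩⟩,
      ⟨false, nofun, fun K f h => Tr.fld _ _ f p.h p.h' p.a h⟩]
  cov := by
    rintro (_ | p) g
    · refine ⟨1, fun _ => ((g.s ^ 2 : ℝ) : ℂ), fun _ => none, fun f h0 => ?_⟩
      rw [Fin.sum_univ_one, Complex.conj_ofReal]
      exact l_pot t g h0
    · obtain ⟨_, n, q, κ, -, h2⟩ := hc _ _ p.h p.h' p.a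
      exact ⟨n, κ g, fun i => some (q i), fun f h0 => (h2 g f h0).2⟩
  tra := by
    rintro (_ | p) y f h0
    · simpa using! l_pot t ⟨⟨1, GF.one, y, one_pos, H496.isLor_one⟩, false⟩ h0
    · exact EG.Let.tra t.e0 p.h y h0
  dil := by
    rintro (_ | p)
    · refine ⟨2, 1, fun _ => none, fun s hs => ⟨fun _ => ((s ^ 2 : ℝ) : ℂ),
        fun _ => by simp [abs_of_pos (one_pos.trans_le hs)], fun f h0 => ?_⟩⟩
      rw [Fin.sum_univ_one, Complex.conj_ofReal]
      exact l_pot t ⟨⟨s, GF.one, 0, one_pos.trans_le hs, H496.isLor_one⟩, false⟩ h0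
    · obtain ⟨e, n, q, κ, h3, h2⟩ := hc _ _ p.h p.h' p.a
      exact ⟨e, n, fun i => some (q i), fun s hs =>
        let g : Sh c.toCg := ⟨⟨s, GF.one, 0, one_pos.trans_le hs, H496.isLor_one⟩, false⟩
        ⟨κ g, h3 g hs rfl, fun f h0 => (h2 g f h0).2⟩⟩

open Classical in
/-- the labels of a field -/
def dec (c : Cg D) (B : Fld D) : Σ n : ℕ, Fin n → Lb c :=
  if h : ∃ q : Σ n : ℕ, Fin n → Lb c, ∀ f v, IsTest f → B f v = ∑ i, (q.2 i).B f v then h.choose
  else ⟨0, Fin.elim0⟩

theorem dec_spec {c : Cg D} {B : Fld D} (hB : c.Q.fld B) :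
    ∀ f v, IsTest f → B f v = ∑ i, ((dec c B).2 i).B f v := by
  have h : ∃ q : Σ n : ℕ, Fin n → Lb c, ∀ f v, IsTest f → B f v = ∑ i, (q.2 i).B f v :=
    let ⟨p, _, _, h⟩ := ex_split hB
    ⟨⟨2, ![p false, p true]⟩, fun f v hf => by simpa using h f v hf⟩
  rw [dec, dif_pos h]
  exact h.choose_spec

/-- the extension of the field `B` -/
def ee (x : Lt c (Option (Lb c.toCg))) (B : Fld D) : Fld x.Dn := fun f v =>
  ∑ i, x.o (some ((dec c.toCg B).2 i)) f v

theorem fin_row (t : E2 c) (hc : COV0 c.toCg) : FIN c := by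
  let x := lx t.toE0 t.cov
  have t1 : E1 x := { t.toE0 with ops := ops_row t x }
  have E := ext_row t1 (tmp_row t1 (jb_row t1))
  have w := wp_row t1 E
  have F := fs_row w
  have V' := cv_row t1 E w F
  have r := rec_row t.toE0 F V'
  have gd := Rq.gd t.sg V'
  have h2 : ∀ p : Lb c.toCg, x.Is (some p) p.B p.B' := fun p =>
    ⟨p.h, p.h', p.a, fun _ _ => ⟨rfl, rfl⟩⟩
  have adj : ∀ B B' f (v : x.Dn) (u : D), c.Q.fld B → IsAdj B B' → IsTest f → Cyc c.Q u →
      inner ℂ (ee x B f v : Completion D) (u : Completion D) =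
        inner ℂ (v : Completion D) (B' (bar f) u : Completion D) := by
    intro B B' f v u hB hA hf hu
    have e : B' (bar f) u = ∑ i, ((dec c.toCg B).2 i).B' (bar f) u :=
      ext_inner_left ℂ fun y => by
        rw [← hA f y u hf, dec_spec hB f y hf, sum_inner, inner_sum]
        exact Finset.sum_congr rfl fun i _ => ((dec c.toCg B).2 i).a f y u hf
    rw [e, STRa.coe_sum, inner_sum, ee, Submodule.coe_sum, sum_inner]
    exact Finset.sum_congr rfl fun i _ => F.aff _ _ _ f v u (h2 _) hf hu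
  have eq : ∀ (p : Lb c.toCg) f v, IsTest f → x.o (some p) f v = ee x p.B f v := fun p f v hf =>
    ext_C c.Q fun y hy => by rw [F.aff _ _ _ f v y (h2 p) hf hy, adj _ _ f v y p.h p.a hf hy]
  have agree : ∀ B f (v : x.Dn) (u : D), c.Q.fld B → IsTest f → Cyc c.Q u →
      (v : Completion D) = u → (ee x B f v : Completion D) = (B f u : D) := by
    intro B f v u hB hf hu e
    obtain ⟨B', -, hA⟩ := c.Q.adj B hB
    refine (cs_dense c.Q).eq_of_inner_left ℂ fun y => ?_
    rw [adj B B' f v y hB hA hf y.2, e, Completion.inner_coe, Completion.inner_coe, hA f u y hf]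
  have herm : ∀ B B', c.Q.fld B → c.Q.fld B' → IsAdj B B' → IsAdj (ee x B) (ee x B') :=
    fun B B' a b d f v u hf => by
      have tb := Ap.test_bar hf
      have e : ee x B' (bar f) u = ∑ i, x.o (x.dag (some ((dec c.toCg B).2 i))) (bar f) u :=
        ext_C c.Q fun y hy => by
          rw [adj B' B _ u y b (H755.adj_symm d) tb hy, dec_spec a _ y (Ap.test_bar tb),
            STRa.coe_sum, inner_sum, Submodule.coe_sum, sum_inner]
          refine Finset.sum_congr rfl fun i _ => ?_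
          let p := (dec c.toCg B).2 i
          exact (F.aff (x.dag (some p)) p.B' p.B _ u y
            ⟨p.h', p.h, H755.adj_symm p.a, fun _ _ => ⟨rfl, rfl⟩⟩ tb hy).symm
      rw [e, ee, sum_inner, inner_sum]
      exact Finset.sum_congr rfl fun i _ => F.herm _ f v u hf
  have cyc : ∀ S : Submodule ℂ x.Dn, (∀ v : x.Dn, (v : Completion D) = c.Om → v ∈ S) →
      (∀ p f v, IsTest f → v ∈ S → x.o (some p) f v ∈ S) → ∀ u, Cyc c.Q u →
      ∃ v ∈ S, (v : Completion D) = u := fun S a1 a2 u hu =>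
    (hu (cs c.Q ⊓ (S.map x.Dn.subtype).comap
      (Completion.toComplL : D →L[ℂ] Completion D).toLinearMap)
      ⟨cyc_vac, ⟨c.Om, F.vac⟩, a1 _ rfl, rfl⟩ (by
        rintro B f u hB hf ⟨h, v, hv, e⟩
        exact ⟨cyc_fld hB hf h, ee x B f v, S.sum_mem fun i _ => a2 _ f v hf hv,
          agree B f v u hB hf h e⟩)).2
  have cyc' : ∀ P : Option (Lb c.toCg) → Prop, (∀ p, P (some p)) → ∀ S : Submodule ℂ x.Dn,
      (∀ v : x.Dn, (v : Completion D) = c.Om → v ∈ S) →
      (∀ a f v, P a → IsTest f → v ∈ S → x.o a f v ∈ S) → Dense (S : Set x.Dn) :=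
    fun P hP S a1 a2 v => by
      rw [closure_subtype]
      refine closure_mono ?_ (cs_dense c.Q v)
      rintro _ ⟨u, rfl⟩
      exact cyc S a1 (fun p f v hf hv => a2 _ f v (hP p) hf hv) u u.2
  have ud := fun s L a v hs hL => Rq.ud V' (s := s) (L := L) hs hL a v
  have ex : ∀ (P : Option (Lb c.toCg) → Prop) (Q' : Theory x.Dn), (∀ p, P (some p)) →
      (Q'.vac : Completion D) = c.Om → Q'.U = x.Ud → (∀ B, Q'.fld B ↔ x.Fs P B) →
      (∀ B, Q'.bose B ↔ x.Fs P B ∧ ∀ f v, IsTest f → B f (x.Gd v) = x.Gd (B f v)) →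
      Gr Q' x.Gd → ExtC c.Q c.Γ Q' x.Gd (ee x) := fun P Q' hP a1 a2 a3 a4 a5 =>
    ⟨a5, fun u hu =>
      let ⟨v, _, e⟩ := cyc ⊤ (fun _ _ => trivial) (fun _ _ _ _ _ => trivial) u hu; e ▸ v.2,
      a1, gd, fun s L a v hs hL => by rw [a2, ud s L a v hs hL, Ug_apply _ hs hL],
      fun B _ => (a3 _).2 ⟨_, _, fun i => hP _, rfl⟩, fun B hB => (a4 _).2
        ⟨⟨_, _, fun i => hP _, rfl⟩, fun f v hf => ext_C c.Q fun y hy => by
          have hB1 := c.Q.bose_fld _ hB
          obtain ⟨B', -, hA⟩ := c.Q.adj B hB1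
          have pa := t.bas.padj false B B' hA (fun f v hf =>
            (c.hN.bose B f v hB hf).trans (one_smul _ _).symm) _ y (Ap.test_bar hf)
          rw [show sg false = 1 from rfl, one_smul] at pa
          rw [adj B B' f _ y hB1 hA hf hy, gd, gd, (G.gd c.toCg).gi, (G.gd c.toCg).gi,
            c.hN.ext, c.hN.ext, adj B B' f _ _ hB1 hA hf (cyc_G hy), pa]⟩, herm, agree⟩
  obtain ⟨Q0, a1, a2, a3, a4, a5⟩ := r (· ≠ none) (fun a ha => by
    cases a with
    | none => exact absurd rfl ha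
    | some p => exact Option.some_ne_none _) (cyc' _ fun p => Option.some_ne_none p)
  obtain ⟨Q1, b1, b2, b3, b4, b5⟩ := r (fun _ => True) (fun _ _ => trivial)
    (cyc' _ fun _ => trivial)
  have s0 := str0 c.hT hc (ex _ Q0 (fun p => Option.some_ne_none p) a1 a2 a3 a4 a5) fun A hA => by
    obtain ⟨n, b, hb, rfl⟩ := (a3 A).1 hA
    choose p hp using fun i => Option.ne_none_iff_exists'.1 (hb i)
    exact ⟨n, fun i => (p i).B, fun i => (p i).h, fun f v hf =>
      Finset.sum_congr rfl fun i _ => by rw [hp, eq _ f v hf]⟩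
  have enl : IsEnl Q0 Q1 := ⟨Subtype.ext (b1.trans a1.symm), b2.trans a2.symm,
    fun A hA => (b3 A).2 (((a3 A).1 hA).imp fun n h => h.imp fun b h => ⟨fun _ => trivial, h.2⟩),
    fun A hA => (b4 A).2 (((a4 A).1 hA).imp_left fun h => h.imp fun n h => h.imp fun b h =>
      ⟨fun _ => trivial, h.2⟩)⟩
  refine ⟨x.Dn, Q1, x.Gd, ee x, x.o none, ex _ Q1 (fun _ => trivial) b1 b2 b3 b4 b5,
    afw_row t E w F b1 b3, H746.isStress_enl enl s0, ⟨(b4 _).2 ⟨Rq.fs_one trivial,
      fun f v hf => Subtype.ext ?_⟩, F.herm none, ?_⟩, ?_, fun f hf => ?_, fun A hA => ?_⟩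
  · refine (Rq.par t.sg V' none hf v).trans ?_
    rw [gd]
    exact one_smul _ _
  · intro s L a f v hs hL hf
    apply Subtype.ext
    have := V'.cov none ⟨⟨s, L, a, hs, hL⟩, false⟩ 1 (fun _ => ((s ^ 2 : ℝ) : ℂ)) (fun _ => none)
      f v (x.Ud s L a v) (fun g hg => by
        rw [Fin.sum_univ_one, Complex.conj_ofReal]
        exact l_pot t.toE0 ⟨⟨s, L, a, hs, hL⟩, false⟩ hg) hf (ud s L a v hs hL)
    rw [b2, this, Submodule.coe_smul, ud _ _ _ _ hs hL, Fin.sum_univ_one,
      show (4 - 2 : ℝ) = (2 : ℕ) by norm_num, Real.rpow_natCast]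
    rfl
  · have hc : ∀ f v, In Set.univ f →
        GF.tr (fun m n => ee x (c.T m n)) f v = (3 : ℂ) • x.o none (box f) v := by
      intro f v hf
      let ι := Option (Σ m : Ix, Fin (dec c.toCg (c.T m m)).1)
      let κ : ι → ℂ := fun i => i.elim (-3) fun j => eta j.1
      let b : ι → Option (Lb c.toCg) := fun i =>
        i.elim none fun j => some ((dec c.toCg (c.T j.1 j.1)).2 j.2)
      let g : ι → Fn := fun i => i.elim (box f) fun _ => f
      let e := (Fintype.equivFin ι).symm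
      have z := V'.zero _ (fun i => κ (e i)) (fun i => b (e i)) (fun i => g (e i)) v
        (fun i => by
          cases h : e i with
          | none => exact Ap.in_box hf
          | some j => exact hf) (by
          rw [e.sum_comp fun i => κ i • x.φ (b i) (g i), Fintype.sum_option, Fintype.sum_sigma]
          simp only [κ, b, g, Option.elim, neg_smul, ← Finset.smul_sum]
          rw [neg_add_eq_zero]
          refine (c.hl.trace f hf.1).trans ?_
          rw [GF.tr, STRa.coe_sum]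
          refine Finset.sum_congr rfl fun m _ => ?_
          rw [Completion.coe_smul, dec_spec (c.Q.bose_fld _ (c.hT.bose m m)) f _ hf.1, STRa.coe_sum]
          rfl)
      rw [e.sum_comp fun i => κ i • x.o (b i) (g i) v, Fintype.sum_option, Fintype.sum_sigma] at z
      simp only [κ, b, g, Option.elim, neg_smul, ← Finset.smul_sum] at z
      exact (neg_add_eq_zero.1 z).symm
    rintro _ v ⟨f, rfl⟩
    obtain ⟨P, hP⟩ := Fin'.box_clm
    obtain ⟨-, u, -, -, u2, -, u4⟩ := ST.exists_cut f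
    have c1 : Continuous fun g : Sch => GF.tr (fun m n => ee x (c.T m n)) (ev g) v :=
      continuous_finset_sum _ fun m _ =>
        (continuous_finset_sum _ fun i _ =>
          F.cont (some ((dec c.toCg (c.T m m)).2 i)) v).const_smul (eta m : ℂ)
    have c2 : Continuous fun g : Sch => (3 : ℂ) • x.o none (box (ev g)) v := by
      simp only [← hP]
      exact ((F.cont none v).comp P.continuous).const_smul (3 : ℂ)
    exact tendsto_nhds_unique ((c1.tendsto f).comp u4) (((c2.tendsto f).comp u4).congr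
      fun n => (hc _ v ⟨⟨u n, rfl⟩, u2 n, Set.subset_univ _⟩).symm)
  · obtain ⟨g, rfl⟩ := hf
    obtain ⟨-, u, -, -, u2, -, u4⟩ := ST.exists_cut g
    have c1 : Continuous fun g : Sch => (x.o none (ev g) Q1.vac : Completion D) :=
      continuous_subtype_val.comp (F.cont none _)
    refine tendsto_nhds_unique ((c1.tendsto g).comp u4) (((c.hl.cont.tendsto g).comp u4).congr
      fun n => ?_)
    have hi : In Set.univ (ev (u n)) := ⟨⟨u n, rfl⟩, u2 n, Set.subset_univ _⟩
    show c.l _ = (x.o none _ _ : Completion D)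
    rw [F.oW none _ [] _ hi.1 (fun _ h => nomatch h) (b1.trans w.nil.symm),
      E.cw _ (List.forall_mem_singleton.2 hi)]
    exact (t1.ops.vac none _ hi).symm
  · obtain ⟨n, b, -, rfl⟩ := (b3 A).1 hA
    refine ⟨n, fun i => x.o (b i), fun i => ?_, fun _ _ => rfl⟩
    dsimp only
    cases b i with
    | none => exact .inl rfl
    | some p => exact .inr ⟨p.B, p.h, eq p⟩

section ext

variable {c : Cg D} {D' : Submodule ℂ (Completion D)} {Q' : Theory D'} {G' : D' → D'}
  {e : Fld D → Fld D'} (hc : COV0 c) (E : ExtC c.Q c.Γ Q' G' e) {Q'' : Theory D'}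
  (n : IsEnl Q' Q'')
include E

theorem ext_odd {B : Fld D} (h : Fer c.Q c.G B) : Fer Q' G' (e B) := by
  refine ⟨E.fld _ h.1, fun f v hf => ext_C c.Q fun y hy => ?_⟩
  obtain ⟨B', b, hA⟩ := c.Q.adj B h.1
  have pa := EG.Bas.padj true B B' hA (fun f v hf => (h.2 f v hf).trans (neg_one_smul ℂ _).symm) _ y
    (Ap.test_bar hf)
  rw [show sg true = -1 from rfl, neg_one_smul] at pa
  rw [ext_aff E h.1 b hA hf _ hy, Submodule.coe_neg, inner_neg_left, E.G, E.G, (gd c).gi,
    (gd c).gi, c.hN.ext, c.hN.ext, ext_aff E h.1 b hA hf _ (cyc_G hy), pa, Completion.coe_neg,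
    inner_neg_right, neg_neg]

theorem ext_sum {B : Fld D} (hB : c.Q.fld B) {m : ℕ} {C : Fin m → Fld D} (hC : ∀ i, c.Q.fld (C i))
    (h : ∀ f v, IsTest f → B f v = ∑ i, C i f v) {f : Fn} (hf : IsTest f) (v : D') :
    e B f v = ∑ i, e (C i) f v := ext_C c.Q fun y hy => by
  obtain ⟨B', b, d⟩ := c.Q.adj B hB
  choose C' b' d' using fun i => c.Q.adj _ (hC i)
  have : B' (bar f) y = ∑ i, C' i (bar f) y := ext_inner_left ℂ fun z => by
    rw [← d f z y hf, h f z hf, sum_inner, inner_sum]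
    exact Finset.sum_congr rfl fun i _ => d' i f z y hf
  rw [ext_aff E hB b d hf v hy, this, STRa.coe_sum, inner_sum, Submodule.coe_sum, sum_inner]
  exact Finset.sum_congr rfl fun i _ => (ext_aff E (hC i) (b' i) (d' i) hf v hy).symm

include hc n

/-- scaling laws pass to the extension -/
theorem ext_scl {B : Fld D} (hB : c.Q.fld B) {F : Finset (ℂ × ℕ)} {C : ℂ × ℕ → Fld D}
    (h : Scl c.Q B F C) (hb : Q''.bose (e B) → c.Q.bose B) : Scl Q'' (e B) F fun p => e (C p) := by
  refine ⟨fun p => ⟨n.fld _ (E.fld _ (h.1 p).1), fun b => n.bose _ (E.bos _ ((h.1 p).2 (hb b)))⟩,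
    fun s f v hs hf => ?_⟩
  rw [n.U, ← Finset.sum_coe_sort]
  exact ext_cov hc E ⟨s, _, 0, hs, H496.isLor_one⟩ hB (fun i : F => (h.1 i).1) (fun g w hg =>
    (h.2 s g w hs hg).trans (Finset.sum_coe_sort _ _).symm) hf v

theorem desc_cmp (hF : FSL c.Q) (g : Gr Q'' G') {τ : Ix → Ix → Fld D'}
    (h : ∀ (p : Bool) (k : Rp) (Φ : Fin k.n → Fld D') μ, (∀ ν, ∃ F B, Scl Q'' (Φ ν) F B) →
      IsMl Q'' k Φ → (∀ a, if p then Fer Q'' G' (Φ a) else Q''.bose (Φ a)) →
      DescS Q'' G' τ p (Φ μ)) {p : Bool} {C : Fld D} (hC : EG.H.Cmp c p C) :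
    ∃ C', DescS Q'' G' τ p C' ∧ ∀ f v, IsTest f → e C f v = C' f v := by
  obtain ⟨k, Φ, a, m, rfl⟩ := hC
  have key : ∀ b, ∃ B, c.Q.fld B ∧ (if p then Fer Q'' G' (e B) else Q''.bose (e B)) ∧
      (∀ f v, IsTest f → Φ b f v = B f v) ∧ ∃ F C, Scl Q'' (e B) F C := fun b => by
    cases p
    · obtain ⟨B, h1, h2⟩ := EG.Bas.even (m.mf.1 b) (m.par b)
      obtain ⟨F, C, h3⟩ := hF B (c.Q.bose_fld _ h1)
      exact ⟨B, c.Q.bose_fld _ h1, n.bose _ (E.bos _ h1), h2, F, _,
        ext_scl hc E n (c.Q.bose_fld _ h1) h3 fun _ => h1⟩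
    · have h1 := ext_odd E (EG.Bas.odd (m.mf.1 b) (m.par b))
      refine ⟨Φ b, m.mf.1 b, ⟨n.fld _ h1.1, h1.2⟩, fun _ _ _ => rfl, ?_⟩
      by_cases hb : Q''.bose (e (Φ b))
      · refine ⟨∅, fun _ => e (Φ b), fun _ => ⟨n.fld _ h1.1, id⟩, fun s f v _ hf => ?_⟩
        have z : G' (e (Φ b) f (G' (Q''.U s GF.one 0 v))) = 0 :=
          (smul_eq_zero.1 ((two_smul ℂ _).trans (add_eq_zero_iff_eq_neg.2
            ((g.bose _ f _ hb hf).symm.trans (h1.2 f _ hf))))).resolve_left two_ne_zero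
        rwa [← g.bose _ f _ hb hf, g.inv] at z
      · obtain ⟨F, C, h3⟩ := hF _ (m.mf.1 b)
        exact ⟨F, _, ext_scl hc E n (m.mf.1 b) h3 fun a => absurd a hb⟩
  choose Ψ h1 h2 h3 h4 using key
  refine ⟨e (Ψ a), h p k (fun b => e (Ψ b)) a h4 (fun b L f v hL hf => ?_) h2,
    fun f v hf => ?_⟩
  · rw [n.U]
    exact ext_cov hc E ⟨1, L, 0, one_pos, hL⟩ (h1 b) h1 (fun g w hg => by
      have := m.mf.2 b L g w hL hg
      simp only [h3 _ _ _ hg, h3 _ _ _ (Ap.test_sim one_pos hL 0 hg)] at this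
      exact this) hf v
  · simpa using ext_sum E (m.mf.1 a) (C := fun _ : Fin 1 => Ψ a) (fun _ => h1 a)
      (fun f v hf => by simpa using h3 a f v hf) hf v

end ext

/-- **the extension is conformal** -/
theorem fin_conf (h : FIN c) (hc : COV0 c.toCg) (mx : MIX c.toCg) (hM : MfAll c.Q) (hF : FSL c.Q) :
    ∃ (D' : Submodule ℂ (Completion D)) (Q' : Theory D') (G' : D' → D') (e : Fld D → Fld D')
      (L : Fld D'), ExtC c.Q c.Γ Q' G' e ∧ AfW c.N Q' (↑) ∧ Q'.IsStress (fun m n => e (c.T m n)) ∧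
      Q'.IsScalar L 2 ∧
      (∀ f v, IsTest f → tr (fun m n => e (c.T m n)) f v = (3 : ℂ) • L (box f) v) ∧
      ∀ Q'' : Theory D', IsEnl Q' Q'' → IsImpr Q'' (fun m n => e (c.T m n))
        (improve (fun m n => e (c.T m n)) L) ∧ ConfAct Q'' (improve (fun m n => e (c.T m n)) L) ∧
        (Gr Q'' G' → CFS Q'' G' (improve (fun m n => e (c.T m n)) L) ∧
        ∀ B, Q'.fld B → ∃ (n : ℕ) (p : Fin n → Bool) (C : Fin n → Fld D'),
          (∀ i, DescS Q'' G' (improve (fun m n => e (c.T m n)) L) (p i) (C i)) ∧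
          ∀ f v, IsTest f → B f v = ∑ i, C i f v) := by
  obtain ⟨D', Q', G', e, L, h1, h0, h2, h3, h4, -, h6⟩ := h
  refine ⟨D', Q', G', e, L, h1, h0, h2, h3, h4, fun Q'' n => ?_⟩
  obtain ⟨h7, h8⟩ := scal_row D' Q' _ L h2 h3 h4 Q'' n
  refine ⟨h7, h8, fun g => ?_⟩
  have hT'' := H746.isStress_enl n h2
  have hL'' := scalar_enl n h3
  let M : D' →ₗ[ℂ] D' :=
    { toFun := G'
      map_add' := fun v w => ext_inner_right ℂ fun y => by simp only [g.herm, inner_add_left]
      map_smul' := fun z v => ext_inner_right ℂ fun y => by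
        simp only [g.herm, inner_smul_left, RingHom.id_apply] }
  have ev : ∀ m n f v, IsTest f → improve (fun m n => e (c.T m n)) L m n f (G' v) =
      G' (improve (fun m n => e (c.T m n)) L m n f v) := fun m n f v hf => by
    show _ = M _
    simp only [improve, map_add, map_sub, map_smul, map_sum, g.bose _ _ v (hT''.bose m n) hf,
      fun k l => g.bose _ _ v hL''.1 (Ap.test_pd k (Ap.test_pd l hf))]
    rfl
  let k : CA.G.Cx D' := ⟨Q'', _, G', isT_of_impr h7 hT'',
    fun m n k l f g v hf hg h => sub_eq_zero.1 (h7.self m n k l f g v hf hg h), h7.cov,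
    ⟨_, hT''.bose o o⟩, g.inv, g.herm, ev, g.GU,
    fun C hC => by
      obtain ⟨C1, C2, a1, a2, e⟩ := g.split C hC
      refine ⟨2, ![1, -1], ![C1, C2], fun j => ?_, fun k v hk => ?_⟩
      · fin_cases j
        exacts [Q''.bose_fld _ a1, a2.1]
      · rw [e k _ hk, g.bose C1 k v a1 hk, a2.2 k v hk, show G' _ = M _ from rfl, map_add, map_neg]
        simp [M, g.inv],
    g.mul, fun F w hF => by
      have hv : (Q''.vac : Completion D) = c.Om := by rw [n.vac]; exact h1.vac
      have gv : G' Q''.vac = Q''.vac := Subtype.ext (by rw [h1.G, hv, EG.SGx.gv])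
      have b3 := mx (smt (improve (fun m n => e (c.T m n)) L) F Q''.vac : D') w (by
        rw [← h1.G, show G' _ = M _ from rfl]
        simp only [smt, map_sum]
        refine congrArg _ (Finset.sum_congr rfl fun m _ => Finset.sum_congr rfl fun n _ => ?_)
        exact (ev m n _ _ (hF m n).isTest).symm.trans (by rw [gv]))
      rw [← hv, ← Submodule.coe_inner, ← Submodule.coe_inner] at b3
      refine b3.congr' (eventually_nhdsWithin_of_forall fun r hr => ?_)
      obtain ⟨p1, p2⟩ := CA.lsc_pos hr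
      show inner ℂ _ (Ue _ _ _ _ _) = inner ℂ _ (Q''.U _ _ _ _)
      rw [← h1.U _ _ _ _ p1 p2, n.U]
      rfl⟩
  obtain ⟨x, f0, al⟩ := CA.G.all_thm k
  have tl : CA.G.Tl k := fun _ _ => CA.G.clf k g
  have cf : CFS Q'' G' (improve (fun m n => e (c.T m n)) L) := CA.G.cfs' al tl
  refine ⟨cf, fun B hB => ?_⟩
  obtain ⟨m, C, hC, h⟩ := h6 B hB
  have key : ∀ i, ∃ (r : ℕ) (p : Fin r → Bool) (C' : Fin r → Fld D'),
      (∀ j, DescS Q'' G' (improve (fun m n => e (c.T m n)) L) (p j) (C' j)) ∧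
      ∀ f v, IsTest f → C i f v = ∑ j, C' j f v := fun i => by
    rcases hC i with h | ⟨C', a, b⟩
    · exact ⟨1, fun _ => false, fun _ => L, fun _ => EG.desc_scal cf hL'',
        fun _ _ _ => by simp [h]⟩
    · obtain ⟨r, q, hq⟩ := EG.H.md (EG.e0_thm _) hM C' a
      choose A a1 a2 using fun j => desc_cmp hc h1 n hF g (CA.G.descM al tl) (q j).h
      exact ⟨r, fun j => (q j).e, A, a1, fun f v hf => (b f v hf).trans
        ((ext_sum h1 a (fun j => EG.H.Le.fld (q j).h) hq hf v).trans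
          (Finset.sum_congr rfl fun j _ => a2 j f v hf))⟩
  choose r p C' b1 b2 using key
  let E := (Fintype.equivFin (Σ i, Fin (r i))).symm
  refine ⟨_, fun j => p (E j).1 (E j).2, fun j => C' (E j).1 (E j).2, fun j => b1 _ _,
    fun f v hf => (h f v).trans ?_⟩
  rw [E.sum_comp fun j => C' j.1 j.2 f v, Fintype.sum_sigma]
  exact Finset.sum_congr rfl fun i _ => b2 i f v hf

end

end Vale.Agent.N352.G.X
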