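import Vale.Agent.N352.X.Lt
import Vale.Agent.P352X.EH.TMP
import Vale.Agent.P352X.Api2b

/-!
# N352, block X: rows JB TMP CV EXT (helper71)
-/

set_option linter.all false

open MeasureTheory Filter Topology Metric
open scoped SchwartzMap ComplexConjugate ContDiff

namespace Vale.Agent.N352.G.X

open Vale.Agent.P352 Vale.Agent.P352.GF Vale.Agent.P352.BW Vale.Agent.P352.H246
open Vale.Agent.P352.H496 Vale.Agent.P352.H755 Vale.Agent.P352.H15
open Vale.Agent.P352.SubConf (IsAdj)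
open Vale.Agent.P352X Vale.Agent.P352X.EB
open UniformSpace (Completion)

noncomputable section

variable {D : Type*} [NormedAddCommGroup D] [InnerProductSpace ℂ D] {c : Ctx D} {Λ : Type*}
  {x : Lt c Λ}

namespace Jq

open EG.H.JBp (sn0 sn_mono snw_cons snw0 snw_mono snw_snoc ubp mkL)


theorem inn (t : E1 x) (f : Sch) : In Set.univ (cutf 0 (ev f)) :=
  ⟨(t.ana.inn 0 _ ⟨f, rfl⟩).1, (t.ana.inn 0 _ ⟨f, rfl⟩).2.1, Set.subset_univ _⟩

theorem ap_cons (p : Λ × Sch) (u : List (Λ × Sch)) (v : Completion D) :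
    x.ap (cutw 0 (evw (p :: u))) v = x.op p.1 (cutf 0 (ev p.2)) (x.ap (cutw 0 (evw u)) v) := rfl

theorem ap_snoc (u : List (Λ × Sch)) (p : Λ × Sch) (v : Completion D) :
    x.ap (cutw 0 (evw (u ++ [p]))) v = x.ap (cutw 0 (evw u)) (x.op p.1 (cutf 0 (ev p.2)) v) := by
  simp [Lt.ap, evw, cutw, List.foldr_append]

theorem ap_mem (t : E1 x) (u : List (Λ × Sch)) {v : Completion D} (hv : D1 c v) :
    D1 c (x.ap (cutw 0 (evw u)) v) := by
  induction u with
  | nil => exact hv
  | cons p u ih => exact t.ops.mem _ _ _ (inn t _) ih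

theorem ap_lin (t : E1 x) (u : List (Λ × Sch)) (z : ℂ) {v w : Completion D} (hv : D1 c v)
    (hw : D1 c w) : x.ap (cutw 0 (evw u)) (v + z • w) =
      x.ap (cutw 0 (evw u)) v + z • x.ap (cutw 0 (evw u)) w := by
  induction u with
  | nil => rfl
  | cons p u ih =>
    rw [ap_cons, ap_cons, ap_cons, ih, t.ops.add _ _ _ _ (inn t _) (ap_mem t u hv)
      (t.ops.d_smul _ _ (ap_mem t u hw)), t.ops.smul _ _ _ _ (inn t _) (ap_mem t u hw)]

/-- the word can be moved to the other side -/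
theorem ap_herm (t : E1 x) (u : List (Λ × Sch)) {w : Completion D} (hw : D1 c w) :
    ∃ w', ∀ v, D1 c v → inner ℂ w (x.ap (cutw 0 (evw u)) v) = inner ℂ w' v := by
  induction u generalizing w with
  | nil => exact ⟨w, fun v _ => rfl⟩
  | cons p u ih =>
    obtain ⟨w', h⟩ := ih (t.ops.mem (x.dag p.1) _ w (inn t p.2).bar hw)
    refine ⟨w', fun v hv => ?_⟩
    rw [ap_cons, ← h v hv, ← inner_conj_symm, t.ops.herm _ _ _ _ (inn t _) (ap_mem t u hv) hw,
      inner_conj_symm]

theorem op_lin (t : E1 x) (a : Λ) {v : Completion D} (hv : D1 c v) (f g : Sch) (z : ℂ) :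
    x.op a (cutf 0 (ev (f + z • g))) v =
      x.op a (cutf 0 (ev f)) v + z • x.op a (cutf 0 (ev g)) v := by
  rw [← t.ops.lin a _ _ z v (inn t f) (inn t g) hv]
  congr 1
  funext y
  simp [cutf, ev]
  ring

/-- the local vectors -/
def S1 (t : E1 x) : Submodule ℂ (Completion D) where
  carrier := {v | D1 c v}
  add_mem' := fun h h' => t.ops.d_add _ _ h h'
  zero_mem' := t.ops.d_zero
  smul_mem' := fun z _ h => t.ops.d_smul z _ h

/-- the last slot -/
def Ψ (t : E1 x) (a : Λ) {v : Completion D} (hv : D1 c v) (u : List (Λ × Sch)) : Sch →ₗ[ℂ] S1 t :=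
  mkL (fun f => ⟨x.ap (cutw 0 (evw u)) (x.op a (cutf 0 (ev f)) v),
      ap_mem t u (t.ops.mem _ _ _ (inn t f) hv)⟩) fun f g z => Subtype.ext (by
    show x.ap _ _ = x.ap _ _ + z • x.ap _ _
    rw [op_lin t a hv, ap_lin t u z (t.ops.mem _ _ _ (inn t f) hv) (t.ops.mem _ _ _ (inn t g) hv)])

theorem Ψ_apply (t : E1 x) (a : Λ) {v : Completion D} (hv : D1 c v) (u : List (Λ × Sch)) (f : Sch) :
    (Ψ t a hv u f : Completion D) = x.ap (cutw 0 (evw u)) (x.op a (cutf 0 (ev f)) v) := rfl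

theorem Ψ_cont (t : E1 x) (a : Λ) {v : Completion D} (hv : D1 c v) (u : List (Λ × Sch)) :
    Continuous (Ψ t a hv u) := by
  haveI := t.ana.barr
  refine cont_of_weak (Ψ t a hv u) dense_univ fun z _ => ?_
  obtain ⟨w', h⟩ := ap_herm t u (w := z.1) z.2
  have e : (fun f => inner ℂ z (Ψ t a hv u f)) =
      fun f : Sch => inner ℂ w' (x.op a (cutf 0 (ev f)) v) := by
    funext f
    rw [Submodule.coe_inner, Ψ_apply, h _ (t.ops.mem _ _ _ (inn t f) hv)]
  rw [e]
  exact continuous_const.inner (t.ops.cont a 0 v hv)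

end Jq

open EG.H.JBp (sn0 sn_mono snw_cons snw0 snw_mono snw_snoc ubp mkL) in
open Jq in
theorem jb_row (t : E1 x) : JB x := by
  intro ls
  induction ls using List.reverseRecOn with
  | nil =>
    intro v _
    refine ⟨0, ‖v‖, norm_nonneg _, fun u hu => ?_⟩
    obtain rfl := List.map_eq_nil_iff.1 hu
    simp [snw, Lt.ap, cutw, evw]
  | append_singleton ls a ih =>
    intro v hv
    haveI := t.ana.baire
    obtain ⟨m, k, C, hC, h⟩ := ubp
      (fun u : {u : List (Λ × Sch) // u.map Prod.fst = ls} => Ψ t a hv u.1)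
      (fun u => Ψ_cont t a hv u.1) (fun m u => m * snw m u.1) fun f => by
        obtain ⟨m, C, hC, h⟩ := ih _ (t.ops.mem a _ v (inn t f) hv)
        refine ⟨max m ⌈C⌉₊, fun u => (h u.1 u.2).trans ?_⟩
        refine mul_le_mul ((Nat.le_ceil C).trans ?_) (snw_mono (le_max_left _ _) _) (snw0 _ _)
          (Nat.cast_nonneg _)
        exact_mod_cast le_max_right _ _
    refine ⟨max m k, C * m, by positivity, fun u hu => ?_⟩
    obtain ⟨u', w, rfl, hu', hw⟩ := List.map_eq_append_iff.1 hu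
    obtain ⟨p, w', rfl, hp, hw'⟩ := List.map_eq_cons_iff.1 hw
    obtain rfl := List.map_eq_nil_iff.1 hw'
    subst hp
    have h1 := h ⟨u', hu'⟩ p.2
    rw [ap_snoc, snw_snoc]
    refine (le_of_eq rfl).trans (h1.trans ?_)
    have h2 : snw m u' * sn k p.2 ≤ snw (max m k) u' * sn (max m k) p.2 :=
      mul_le_mul (snw_mono (le_max_left _ _) _) (sn_mono (le_max_right _ _) _) (sn0 _ _) (snw0 _ _)
    calc C * (m * snw m u') * sn k p.2 = C * m * (snw m u' * sn k p.2) := by ring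
      _ ≤ _ := mul_le_mul_of_nonneg_left h2 (by positivity)
namespace Tq

open EG.H.Tmp (sn0 snw_cons snw0 CS BS slots inn dl dl_act rl rl_mem rl_fst rl_snw)

theorem ap_cons (p : Λ × Sch) (u : List (Λ × Sch)) (v : Completion D) :
    x.ap (evw (p :: u)) v = x.op p.1 (ev p.2) (x.ap (evw u) v) := rfl

theorem ap_app (u w : List (Λ × Sch)) (v : Completion D) :
    x.ap (evw (u ++ w)) v = x.ap (evw u) (x.ap (evw w) v) := by
  simp [Lt.ap, evw, List.foldr_append]

theorem ap_mem (o : OPS x) {u : List (Λ × Sch)} (hu : CS u) {v : Completion D} (hv : D1 c v) :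
    D1 c (x.ap (evw u) v) := by
  induction u with
  | nil => exact hv
  | cons p u ih =>
    obtain ⟨h1, h2⟩ := List.forall_mem_cons.1 hu
    exact o.mem _ _ _ (inn h1) (ih h2)

theorem ap_add (o : OPS x) {u : List (Λ × Sch)} (hu : CS u) {v w : Completion D} (hv : D1 c v)
    (hw : D1 c w) : x.ap (evw u) (v + w) = x.ap (evw u) v + x.ap (evw u) w := by
  induction u with
  | nil => rfl
  | cons p u ih =>
    obtain ⟨h1, h2⟩ := List.forall_mem_cons.1 hu
    rw [ap_cons, ap_cons, ap_cons, ih h2,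
      o.add _ _ _ _ (inn h1) (ap_mem o h2 hv) (ap_mem o h2 hw)]

theorem sub (o : OPS x) (u : List (Λ × Sch)) (a : Λ) (f g : Sch) (w : List (Λ × Sch)) (hu : CS u)
    (hf : HasCompactSupport f) (hg : HasCompactSupport g) (hw : CS w) :
    ‖x.ap (evw (u ++ (a, f + g) :: w)) c.Om‖ ≤
      ‖x.ap (evw (u ++ (a, f) :: w)) c.Om‖ + ‖x.ap (evw (u ++ (a, g) :: w)) c.Om‖ := by
  have hv := ap_mem o hw o.d_vac
  have e : ev (f + g) = fun y => ev f y + 1 * ev g y := by
    funext y
    simp [ev]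
  have h := o.lin a (ev f) (ev g) 1 _ (inn hf) (inn hg) hv
  rw [one_smul, ← e] at h
  simp only [ap_app, ap_cons]
  rw [h, ap_add o hu (o.mem _ _ _ (inn hf) hv) (o.mem _ _ _ (inn hg) hv)]
  exact norm_add_le _ _

theorem op_sum (o : OPS x) (a : Λ) {f : Fn} (hf : In Set.univ f) {ι : Type} (s : Finset ι)
    (κ : ι → ℂ) {v : ι → Completion D} (hv : ∀ i, D1 c (v i)) : D1 c (∑ i ∈ s, κ i • v i) ∧
      x.op a f (∑ i ∈ s, κ i • v i) = ∑ i ∈ s, κ i • x.op a f (v i) := by
  classical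
  induction s using Finset.induction_on with
  | empty => simpa using ⟨o.d_zero, by simpa using o.smul a f 0 0 hf o.d_zero⟩
  | insert i s hi ih =>
    have := o.d_smul (κ i) _ (hv i)
    simp only [Finset.sum_insert hi]
    exact ⟨o.d_add _ _ this ih.1, by rw [o.add _ _ _ _ hf this ih.1, ih.2, o.smul _ _ _ _ hf (hv i)]⟩

theorem dil (t : E1 x) (ls : List Λ) : ∃ (e : ℕ) (ι : Type) (_ : Fintype ι) (b : ι → List Λ),
    (∀ i, (b i).length = ls.length) ∧ ∀ (s : ℝ) (hs : 1 ≤ s) (P : Sch → Sch),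
    (∀ f, ev (P f) = (dl c.toCg s hs).pull (ev f)) → ∃ κ : ι → ℂ, (∀ i, ‖κ i‖ ≤ s ^ e) ∧
      ∀ u : List (Λ × Sch), u.map Prod.fst = ls → CS u → x.ap (evw u) c.Om =
        ∑ i, κ i • (dl c.toCg s hs).U c.toCg (x.ap (evw (rl P (b i) u)) c.Om) := by
  induction ls with
  | nil =>
    refine ⟨0, Unit, inferInstance, fun _ => [], fun _ => rfl, fun s hs P _ =>
      ⟨fun _ => 1, fun _ => by simp, fun u hu _ => ?_⟩⟩
    obtain rfl := List.map_eq_nil_iff.1 hu
    rw [Fintype.sum_unique, one_smul]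
    exact (t.sg.vac _).1.symm
  | cons a ls ih =>
    obtain ⟨e, ι, _, b, hb, ih⟩ := ih
    obtain ⟨e', n, b', he'⟩ := x.dil a
    refine ⟨e' + e, ι × Fin n, inferInstance, fun i => b' i.2 :: b i.1, fun i => by simp [hb],
      fun s hs P hP => ?_⟩
    obtain ⟨κ, hκ, h4⟩ := ih s hs P hP
    obtain ⟨κ', hκ', h5⟩ := he' s hs
    refine ⟨fun i => κ i.1 * κ' i.2, fun i => ?_, fun u hu hc => ?_⟩
    · rw [norm_mul, add_comm, pow_add]
      exact mul_le_mul (hκ _) (hκ' _) (norm_nonneg _) (by positivity)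
    obtain ⟨p, w, rfl, hp, hw⟩ := List.map_eq_cons_iff.1 hu
    obtain ⟨a', f⟩ := p
    obtain rfl : a' = a := hp
    obtain ⟨h1, h2⟩ := List.forall_mem_cons.1 hc
    have hv : ∀ i, D1 c (x.ap (evw (rl P (b i) w)) c.Om) := fun i =>
      ap_mem t.ops (fun q hq => by
        obtain ⟨p, p1, p2⟩ := rl_mem hq
        have := (t.sg.inn (dl c.toCg s hs) _ _ (inn (h2 p p1))).2.1
        rwa [← hP, ← p2] at this) t.ops.d_vac
    rw [ap_cons, h4 w hw h2, (op_sum t.ops _ (inn h1) _ _ fun i => t.ops.d_U _ _ (hv i)).2,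
      Fintype.sum_prod_type]
    refine Finset.sum_congr rfl fun i _ => ?_
    rw [t.ops.cov a' (dl c.toCg s hs) n κ' b' _ _ h5 (inn h1) (hv i), Finset.smul_sum]
    refine Finset.sum_congr rfl fun j _ => ?_
    rw [smul_smul, ← hP]
    rfl

theorem ball (t : E1 x) (j : JB x) (ls : List Λ) : ∃ (m M : ℕ) (κ : ℝ), 0 ≤ κ ∧
    ∀ (R : ℝ) (u : List (Λ × Sch)), 1 ≤ R → u.map Prod.fst = ls → BS R u →
      ‖x.ap (evw u) c.Om‖ ≤ κ * R ^ M * snw m u := by
  obtain ⟨e, ι, _, b, hb, he⟩ := dil t ls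
  choose m' C hC j using fun i => j (b i) _ t.ops.d_vac
  let m := Finset.univ.sup m'
  obtain ⟨C', hC', hd⟩ := t.ana.dil m
  have hS : 0 ≤ ∑ i, C i := Finset.sum_nonneg fun i _ => hC i
  refine ⟨m, e + m * ls.length, (∑ i, C i) * C' ^ ls.length, by positivity,
    fun R u hR hu hB => ?_⟩
  obtain ⟨P, hP⟩ := t.sg.clm (dl c.toCg R hR)
  obtain ⟨κ, hκ, h⟩ := he R hR P hP
  have h5 : u.length = ls.length := by rw [← hu, List.length_map]
  have h1 : ∀ i, cutw 0 (evw (rl P (b i) u)) = evw (rl P (b i) u) := fun i => by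
    simp only [cutw, evw, List.map_map]
    refine List.map_congr_left fun q hq => Prod.ext rfl (t.ana.eq 0 _ fun y hy => ?_)
    obtain ⟨p, hp, e⟩ := rl_mem hq
    simp only [Function.comp, e, hP] at hy
    have h2 := (t.sg.inn (dl c.toCg R hR) _ _ ⟨⟨p.2, rfl⟩, hB.cs p hp, hB p hp⟩).2.2 hy
    rw [Set.mem_preimage, dl_act, mem_closedBall_zero_iff, norm_smul,
      Real.norm_of_nonneg (by linarith)] at h2
    rw [mem_closedBall_zero_iff]
    have : ‖y‖ ≤ 1 := le_of_mul_le_mul_left (by linarith) (by linarith : 0 < R)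
    simpa using this
  rw [h u hu hB.cs, Finset.sum_mul, Finset.sum_mul, Finset.sum_mul]
  refine (norm_sum_le _ _).trans (Finset.sum_le_sum fun i _ => ?_)
  have l := (hb i).trans h5.symm
  have h2 := j i _ (rl_fst (P := P) l)
  rw [h1] at h2
  have h4 := (EG.H.JBp.snw_mono (Finset.le_sup (f := m') (Finset.mem_univ i)) _).trans
    (rl_snw (P := P) (by positivity) (fun f => hd R f (P f) hR fun y => congrFun (hP f) y) l)
  have := hC i
  have := snw0 m u
  rw [norm_smul, ContinuousLinearMap.norm_map_of_mem_unitary (t.sg.uni _)]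
  calc _ ≤ R ^ e * (C i * ((C' * R ^ m) ^ u.length * snw m u)) :=
        mul_le_mul (hκ i) (h2.trans (by gcongr)) (norm_nonneg _) (by positivity)
    _ = _ := by rw [h5, mul_pow, ← pow_mul, pow_add]; ring

end Tq

open EG.H.Tmp (sn0 snw_cons snw0 CS BS slots inn dl dl_act rl rl_mem rl_fst rl_snw) in
open Tq in
theorem tmp_row (t : E1 x) (j : JB x) : TMP x := by
  intro ls
  obtain ⟨m, M, κ, hκ, h⟩ := Tq.ball t j ls
  obtain ⟨m', C, hC, h'⟩ := slots (Λ := Λ) t.dy m M
  refine ⟨m', C ^ ls.length * κ, by positivity, fun u hu hc => ?_⟩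
  exact h' ls (fun u => ‖x.ap (evw u) c.Om‖) κ hκ (Tq.sub t.ops) h u hu fun p hp =>
    (hc (p.1, ev p.2) (List.mem_map.2 ⟨p, hp, rfl⟩)).2.1
namespace Cq

/-- the span of the words with compact support -/
def Cp (x : Lt c Λ) : Submodule ℂ (Completion D) :=
  Submodule.span ℂ {z | ∃ u, CW u ∧ z = x.ap u c.Om}

theorem ap_cons (a : Λ) (f : Fn) (u : Wd Λ) (v : Completion D) :
    x.ap ((a, f) :: u) v = x.op a f (x.ap u v) := rfl

theorem cw_cons {a : Λ} {f : Fn} {u : Wd Λ} : CW ((a, f) :: u) ↔ In Set.univ f ∧ CW u :=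
  List.forall_mem_cons

theorem tw_cons {a : Λ} {f : Fn} {u : Wd Λ} : TW ((a, f) :: u) ↔ IsTest f ∧ TW u :=
  List.forall_mem_cons

theorem tw_of {u : Wd Λ} (h : CW u) : TW u := fun p hp => (h p hp).1

theorem d1_ap (o : OPS x) : ∀ u, CW u → D1 c (x.ap u c.Om)
  | [], _ => o.d_vac
  | (a, f) :: u, h => o.mem a f _ (cw_cons.1 h).1 (d1_ap o u (cw_cons.1 h).2)

theorem d1 (o : OPS x) {v : Completion D} (hv : v ∈ Cp x) : D1 c v := by
  induction hv using Submodule.span_induction with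
  | mem z hz => obtain ⟨u, hu, rfl⟩ := hz; exact d1_ap o u hu
  | zero => exact o.d_zero
  | add y z _ _ hy hz => exact o.d_add y z hy hz
  | smul a y _ hy => exact o.d_smul a y hy

theorem op_zero (o : OPS x) (a : Λ) {f : Fn} (hf : In Set.univ f) : x.op a f 0 = 0 := by
  have := o.smul a f 0 0 hf o.d_zero
  rwa [zero_smul, zero_smul] at this

theorem op_mem (o : OPS x) (a : Λ) {f : Fn} (hf : In Set.univ f) {v : Completion D}
    (hv : v ∈ Cp x) : x.op a f v ∈ Cp x := by
  induction hv using Submodule.span_induction with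
  | mem z hz =>
    obtain ⟨u, hu, rfl⟩ := hz
    exact Submodule.subset_span ⟨(a, f) :: u, cw_cons.2 ⟨hf, hu⟩, rfl⟩
  | zero => rw [op_zero o a hf]; exact zero_mem _
  | add y z hy hz h1 h2 => rw [o.add a f y z hf (d1 o hy) (d1 o hz)]; exact add_mem h1 h2
  | smul s y hy h1 => rw [o.smul a f s y hf (d1 o hy)]; exact Submodule.smul_mem _ _ h1

theorem inv_U (s : SG c.toCg) (g : Sh c.toCg) (v : Completion D) : g.inv.U c.toCg (g.U c.toCg v) = v := by
  rw [s.U_inv]
  exact congrArg (fun L : Completion D →L[ℂ] Completion D => L v) (s.uni g).1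

theorem U_inv (s : SG c.toCg) (g : Sh c.toCg) (v : Completion D) : g.U c.toCg (g.inv.U c.toCg v) = v := by
  rw [s.U_inv]
  exact congrArg (fun L : Completion D →L[ℂ] Completion D => L v) (s.uni g).2

theorem inner_U (s : SG c.toCg) (g : Sh c.toCg) (y v : Completion D) :
    inner ℂ y (g.U c.toCg v) = inner ℂ (g.inv.U c.toCg y) v := by
  rw [s.U_inv, ContinuousLinearMap.star_eq_adjoint, ContinuousLinearMap.adjoint_inner_left]

theorem U_ap (t : E1 x) (g : Sh c.toCg) : ∀ u, CW u → g.U c.toCg (x.ap u c.Om) ∈ Cp x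
  | [], h => by
    have : g.U c.toCg (x.ap [] c.Om) = x.ap [] c.Om := (t.sg.vac g).1
    rw [this]
    exact Submodule.subset_span ⟨[], h, rfl⟩
  | (a, f) :: u, h => by
    have ih := U_ap t g u (cw_cons.1 h).2
    obtain ⟨n, κ, b, hb⟩ := x.cov a g.inv
    have h1 := t.ops.cov a g.inv n κ b f _ hb (cw_cons.1 h).1 (d1 t.ops ih)
    rw [inv_U t.sg] at h1
    rw [ap_cons, h1, map_sum]
    refine Submodule.sum_mem _ fun i _ => ?_
    rw [map_smul, U_inv t.sg]
    exact Submodule.smul_mem _ _ (op_mem t.ops _ (t.sg.inn g.inv Set.univ f (cw_cons.1 h).1) ih)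

theorem U_mem (t : E1 x) (g : Sh c.toCg) {v : Completion D} (hv : v ∈ Cp x) : g.U c.toCg v ∈ Cp x := by
  induction hv using Submodule.span_induction with
  | mem z hz => obtain ⟨u, hu, rfl⟩ := hz; exact U_ap t g u hu
  | zero => rw [map_zero]; exact zero_mem _
  | add y z _ _ h1 h2 => rw [map_add]; exact add_mem h1 h2
  | smul s y _ h1 => rw [map_smul]; exact Submodule.smul_mem _ _ h1

theorem le_Dn (e : EXT x) : Cp x ≤ x.Dn :=
  Submodule.span_mono fun _ ⟨u, hu, hz⟩ => ⟨u, tw_of hu, hz.trans (e.cw u hu).symm⟩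

theorem in_cut (t : E1 x) (R : ℕ) {f : Fn} (hf : IsTest f) : In Set.univ (cutf R f) :=
  ⟨(t.ana.inn R f hf).1, (t.ana.inn R f hf).2.1, Set.subset_univ _⟩

theorem Dn_le (t : E1 x) (e : EXT x) : x.Dn ≤ (Cp x).topologicalClosure := by
  refine Submodule.span_le.2 ?_
  rintro _ ⟨u, hu, rfl⟩
  refine mem_closure_of_tendsto (e.lim u hu) (Eventually.of_forall fun R => ?_)
  refine Submodule.subset_span ⟨cutw R u, fun p hp => ?_, rfl⟩
  obtain ⟨q, hq, rfl⟩ := List.mem_map.1 hp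
  exact in_cut t R (hu q hq)

theorem o_eq (t : E1 x) (e : EXT x) (fs : FS x) (a : Λ) {f : Fn} (hf : In Set.univ f)
    {v : Completion D} (hv : v ∈ Cp x) :
    (x.o a f ⟨v, le_Dn e hv⟩ : Completion D) = x.op a f v := by
  induction hv using Submodule.span_induction with
  | mem z hz =>
    obtain ⟨u, hu, rfl⟩ := hz
    rw [fs.oW a f u _ hf.1 (tw_of hu) (e.cw u hu).symm, e.cw _ (cw_cons.2 ⟨hf, hu⟩), ap_cons]
  | zero =>
    have := fs.smul a f 0 0
    rw [zero_smul, zero_smul] at this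
    rw [op_zero t.ops a hf]
    exact congrArg Subtype.val this
  | add y z hy hz h1 h2 =>
    rw [t.ops.add a f y z hf (d1 t.ops hy) (d1 t.ops hz), ← h1, ← h2]
    exact congrArg Subtype.val (fs.add a f ⟨y, le_Dn e hy⟩ ⟨z, le_Dn e hz⟩)
  | smul s y hy h1 =>
    rw [t.ops.smul a f s y hf (d1 t.ops hy), ← h1]
    exact congrArg Subtype.val (fs.smul a f s ⟨y, le_Dn e hy⟩)

theorem adj (fs : FS x) (a : Λ) {f : Fn} (hf : IsTest f) (y v : x.Dn) :
    inner ℂ (x.o a f v : Completion D) (y : Completion D) =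
      inner ℂ (v : Completion D) (x.o (x.dag a) (bar f) y : Completion D) :=
  fs.herm a f v y hf

/-- covariance on the words with compact support -/
theorem cov0 (t : E1 x) (e : EXT x) (fs : FS x) (a : Λ) (g : Sh c.toCg) {n : ℕ} (κ : Fin n → ℂ)
    (b : Fin n → Λ) (hc : x.Cv a g κ b) {f : Fn} (hf : IsTest f) {v : Completion D}
    (hv : v ∈ Cp x) : (x.o a f ⟨g.U c.toCg v, le_Dn e (U_mem t g hv)⟩ : Completion D) =
      ∑ i, κ i • g.U c.toCg (x.o (b i) (g.pull f) ⟨v, le_Dn e hv⟩) := by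
  obtain ⟨F, rfl⟩ := hf
  obtain ⟨P, hP⟩ := t.sg.clm g
  have c1 : Continuous fun F : Sch =>
      (x.o a (ev F) ⟨g.U c.toCg v, le_Dn e (U_mem t g hv)⟩ : Completion D) :=
    continuous_subtype_val.comp (fs.cont a _)
  have c2 : Continuous fun F : Sch =>
      ∑ i, κ i • g.U c.toCg (x.o (b i) (g.pull (ev F)) ⟨v, le_Dn e hv⟩) := by
    refine continuous_finset_sum _ fun i _ => ?_
    simp only [← hP]
    exact ((g.U c.toCg).continuous.comp (continuous_subtype_val.comp
      ((fs.cont (b i) _).comp P.continuous))).const_smul (κ i)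
  refine tendsto_nhds_unique ((c1.tendsto F).comp (t.ana.lim F))
    (((c2.tendsto F).comp (t.ana.lim F)).congr fun R => ?_)
  have h1 := in_cut t R (f := ev F) ⟨F, rfl⟩
  simp only [Function.comp_apply]
  rw [Ap.ev_sch h1.1, o_eq t e fs a h1 (U_mem t g hv), t.ops.cov a g n κ b _ v hc h1 (d1 t.ops hv)]
  exact Finset.sum_congr rfl fun i _ => by
    rw [o_eq t e fs (b i) (t.sg.inn g Set.univ _ h1) hv]

theorem eq_zero {z : Completion D} (hz : z ∈ (Cp x).topologicalClosure)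
    (h : ∀ y ∈ Cp x, inner ℂ z y = 0) : z = 0 := by
  have h1 : IsClosed {y : Completion D | inner ℂ z y = 0} :=
    isClosed_eq (by fun_prop) continuous_const
  exact inner_self_eq_zero.1 (closure_minimal (fun y hy => h y hy) h1 hz)

theorem cov (t : E1 x) (e : EXT x) (fs : FS x) (a : Λ) (g : Sh c.toCg) {n : ℕ} (κ : Fin n → ℂ)
    (b : Fin n → Λ) {f : Fn} (v w : x.Dn) (hc : x.Cv a g κ b) (hf : IsTest f)
    (hw : (w : Completion D) = g.U c.toCg v) :
    (x.o a f w : Completion D) = ∑ i, κ i • g.U c.toCg (x.o (b i) (g.pull f) v) := by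
  have hU : ∀ z ∈ (Cp x).topologicalClosure, g.U c.toCg z ∈ (Cp x).topologicalClosure := fun z hz =>
    map_mem_closure (g.U c.toCg).continuous hz fun y hy => U_mem t g hy
  refine sub_eq_zero.1 (eq_zero (x := x) (sub_mem (Dn_le t e (x.o a f w).2)
    (Submodule.sum_mem _ fun i _ => Submodule.smul_mem _ _ (hU _ (Dn_le t e (x.o _ _ v).2))))
    fun y hy => ?_)
  have hy' := U_mem t g.inv hy
  have key : ∀ (v w : x.Dn), (w : Completion D) = g.U c.toCg v →
      inner ℂ ((x.o a f w : Completion D) - ∑ i, κ i • g.U c.toCg (x.o (b i) (g.pull f) v)) y =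
      inner ℂ (g.U c.toCg v) (x.o (x.dag a) (bar f) ⟨y, le_Dn e hy⟩ : Completion D) -
        ∑ i, conj (κ i) * inner ℂ (v : Completion D)
          (x.o (x.dag (b i)) (bar (g.pull f)) ⟨g.inv.U c.toCg y, le_Dn e hy'⟩ : Completion D) := by
    intro v w hw
    rw [inner_sub_left, adj fs a hf ⟨y, le_Dn e hy⟩ w, hw, sum_inner]
    congr 1
    refine Finset.sum_congr rfl fun i _ => ?_
    rw [inner_smul_left, ← adj fs (b i) (t.sg.test g f hf), ← inner_conj_symm, inner_U t.sg,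
      inner_conj_symm]
  rw [key v w hw]
  have h1 : IsClosed {v : Completion D |
      inner ℂ (g.U c.toCg v) (x.o (x.dag a) (bar f) ⟨y, le_Dn e hy⟩ : Completion D) -
        ∑ i, conj (κ i) * inner ℂ v
          (x.o (x.dag (b i)) (bar (g.pull f)) ⟨g.inv.U c.toCg y, le_Dn e hy'⟩ : Completion D) = 0} :=
    isClosed_eq (by fun_prop) continuous_const
  refine closure_minimal (fun z hz => ?_) h1 (Dn_le t e v.2)
  have := key ⟨z, le_Dn e hz⟩ ⟨g.U c.toCg z, le_Dn e (U_mem t g hz)⟩ rfl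
  rw [cov0 t e fs a g κ b hc hf hz, sub_self, inner_zero_left] at this
  exact this.symm

theorem U_W (t : E1 x) (e : EXT x) (w : WP x) (fs : FS x) (g : Sh c.toCg) :
    ∀ u, TW u → g.U c.toCg (x.W u) ∈ x.Dn
  | [], _ => by rw [w.nil, (t.sg.vac g).1]; exact fs.vac
  | (a, f) :: u, h => by
    have ih := U_W t e w fs g u (tw_cons.1 h).2
    have hm : x.W u ∈ x.Dn := Submodule.subset_span ⟨u, (tw_cons.1 h).2, rfl⟩
    obtain ⟨n, κ, b, hb⟩ := x.cov a g.inv
    have h1 := cov t e fs a g.inv κ b ⟨_, ih⟩ ⟨_, hm⟩ hb (tw_cons.1 h).1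
      (inv_U t.sg g _).symm
    rw [← fs.oW a f u ⟨_, hm⟩ (tw_cons.1 h).1 (tw_cons.1 h).2 rfl, h1, map_sum]
    refine Submodule.sum_mem _ fun i _ => ?_
    rw [map_smul, U_inv t.sg]
    exact Submodule.smul_mem _ _ (x.o _ _ _).2

end Cq

open Cq in
theorem cv_row (t : E1 x) (e : EXT x) (w : WP x) (fs : FS x) : CV x where
  mem g v hv := by
    induction hv using Submodule.span_induction with
    | mem z hz => obtain ⟨u, hu, rfl⟩ := hz; exact U_W t e w fs g u hu
    | zero => rw [map_zero]; exact zero_mem _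
    | add y z _ _ h1 h2 => rw [map_add]; exact add_mem h1 h2
    | smul s y _ h1 => rw [map_smul]; exact Submodule.smul_mem _ _ h1
  cov a g n κ b f v w hc hf hw := cov t e fs a g κ b v w hc hf hw
  zero n κ b f v hf h0 := by
    set y : x.Dn := ∑ i, κ i • x.o (b i) (f i) v with hy
    have key : ∀ v : x.Dn, inner ℂ ((∑ i, κ i • x.o (b i) (f i) v : x.Dn) : Completion D)
        (y : Completion D) = ∑ i, conj (κ i) * inner ℂ (v : Completion D)
          (x.o (x.dag (b i)) (bar (f i)) y : Completion D) := by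
      intro v
      rw [Submodule.coe_sum, sum_inner]
      refine Finset.sum_congr rfl fun i _ => ?_
      rw [Submodule.coe_smul, inner_smul_left, adj fs (b i) (hf i).1]
    have h1 : IsClosed {v : Completion D | ∑ i, conj (κ i) * inner ℂ v
        (x.o (x.dag (b i)) (bar (f i)) y : Completion D) = 0} :=
      isClosed_eq (by fun_prop) continuous_const
    have h2 : ∑ i, conj (κ i) * inner ℂ (v : Completion D)
        (x.o (x.dag (b i)) (bar (f i)) y : Completion D) = 0 := by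
      refine closure_minimal (fun z hz => ?_) h1 (Dn_le t e v.2)
      have h3 := key ⟨z, le_Dn e hz⟩
      have h4 : ((∑ i, κ i • x.o (b i) (f i) ⟨z, le_Dn e hz⟩ : x.Dn) : Completion D) = 0 := by
        rw [Submodule.coe_sum, ← t.ops.zero n κ b f z hf h0 (d1 t.ops hz)]
        exact Finset.sum_congr rfl fun i _ => by
          rw [Submodule.coe_smul, o_eq t e fs (b i) (hf i) hz]
      rw [h4, inner_zero_left] at h3
      exact h3.symm
    rw [← key v, ← hy] at h2
    exact Subtype.ext (inner_self_eq_zero.1 h2)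
namespace Xq

open Cq

theorem sn_cont (m : ℕ) : Continuous fun f : Sch => sn m f := by
  simp only [Api4.sn_eq]
  exact ST.continuous_sn m

theorem sn_nn (m : ℕ) (f : Sch) : 0 ≤ sn m f := apply_nonneg _ _

theorem sn_zero (m : ℕ) : sn m (0 : Sch) = 0 := map_zero _

theorem snw_nil (m : ℕ) : snw m ([] : List (Λ × Sch)) = 1 := rfl

theorem snw_cons (m : ℕ) (q : Λ × Sch) (u : List (Λ × Sch)) :
    snw m (q :: u) = sn m q.2 * snw m u := by simp [snw]

theorem snw_append (m : ℕ) (p u : List (Λ × Sch)) : snw m (p ++ u) = snw m p * snw m u := by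
  simp [snw]

theorem snw_nn (m : ℕ) : ∀ u : List (Λ × Sch), 0 ≤ snw m u
  | [] => zero_le_one
  | q :: u => by rw [snw_cons]; exact mul_nonneg (sn_nn m _) (snw_nn m u)

/-- the cutoff in Schwartz space -/
def ct (R : ℕ) (f : Sch) : Sch := sch (cutf R (ev f))

/-- the cutoff of a word -/
def cw (R : ℕ) (u : List (Λ × Sch)) : List (Λ × Sch) := u.map fun q => (q.1, ct R q.2)

/-- the distance of two cutoffs of a word -/
def dl (m R R' : ℕ) : List (Λ × Sch) → ℝ
  | [] => 0
  | q :: u => sn m (ct R q.2 - ct R' q.2) * snw m (cw R u) + sn m (ct R' q.2) * dl m R R' u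

theorem ev_ct (t : E1 x) (R : ℕ) (f : Sch) : ev (ct R f) = cutf R (ev f) :=
  Ap.ev_sch (in_cut t R ⟨f, rfl⟩).1

theorem evw_cw (t : E1 x) (R : ℕ) (u : List (Λ × Sch)) : evw (cw R u) = cutw R (evw u) := by
  simp only [evw, cw, cutw, List.map_map]
  exact List.map_congr_left fun q _ => by simp [ev_ct t]

theorem cw_cw (t : E1 x) (R : ℕ) (u : List (Λ × Sch)) : CW (evw (cw R u)) := by
  intro p hp
  obtain ⟨q, hq, rfl⟩ := List.mem_map.1 hp
  obtain ⟨r, -, rfl⟩ := List.mem_map.1 hq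
  simp only [ev_ct t]
  exact in_cut t R ⟨r.2, rfl⟩

theorem cw_fst (R : ℕ) (u : List (Λ × Sch)) : (cw R u).map Prod.fst = u.map Prod.fst := by
  simp [cw, List.map_map, Function.comp_def]

theorem snw_lim (t : E1 x) (m : ℕ) :
    ∀ u : List (Λ × Sch), Tendsto (fun R => snw m (cw R u)) atTop (𝓝 (snw m u))
  | [] => tendsto_const_nhds
  | q :: u => by
    have h := (((sn_cont m).tendsto q.2).comp (t.ana.lim q.2)).mul (snw_lim t m u)
    rw [snw_cons]
    exact h.congr fun R => (snw_cons m (q.1, ct R q.2) (cw R u)).symm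

theorem dl_lim (t : E1 x) (m : ℕ) : ∀ u : List (Λ × Sch),
    Tendsto (fun R : ℕ × ℕ => dl m R.1 R.2 u) (atTop ×ˢ atTop) (𝓝 0)
  | [] => tendsto_const_nhds
  | q :: u => by
    have h1 : Tendsto (fun R : ℕ × ℕ => ct R.1 q.2) (atTop ×ˢ atTop) (𝓝 q.2) :=
      (t.ana.lim q.2).comp tendsto_fst
    have h2 : Tendsto (fun R : ℕ × ℕ => ct R.2 q.2) (atTop ×ˢ atTop) (𝓝 q.2) :=
      (t.ana.lim q.2).comp tendsto_snd
    have h3 := ((sn_cont m).tendsto _).comp (h1.sub h2)
    have h := (h3.mul ((snw_lim t m u).comp tendsto_fst)).add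
      ((((sn_cont m).tendsto _).comp h2).mul (dl_lim t m u))
    rw [sub_self, sn_zero, zero_mul, mul_zero, add_zero] at h
    exact h

theorem d1_ap' (o : OPS x) {v : Completion D} (hv : D1 c v) : ∀ u, CW u → D1 c (x.ap u v)
  | [], _ => hv
  | (a, f) :: u, h => o.mem a f _ (cw_cons.1 h).1 (d1_ap' o hv u (cw_cons.1 h).2)

theorem ap_lin (o : OPS x) (z : ℂ) {v w : Completion D} (hv : D1 c v) (hw : D1 c w) :
    ∀ u, CW u → x.ap u (v + z • w) = x.ap u v + z • x.ap u w
  | [], _ => rfl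
  | (a, f) :: u, h => by
    obtain ⟨h1, h2⟩ := cw_cons.1 h
    rw [ap_cons, ap_cons, ap_cons, ap_lin o z hv hw u h2,
      o.add a f _ _ h1 (d1_ap' o hv u h2) (o.d_smul z _ (d1_ap' o hw u h2)),
      o.smul a f z _ h1 (d1_ap' o hw u h2)]

theorem ap_append (p u : Wd Λ) (v : Completion D) : x.ap (p ++ u) v = x.ap p (x.ap u v) :=
  List.foldr_append

theorem evw_append (p u : List (Λ × Sch)) : evw (p ++ u) = evw p ++ evw u := List.map_append

theorem cw_append {p u : Wd Λ} (hp : CW p) (hu : CW u) : CW (p ++ u) := fun q hq =>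
  (List.mem_append.1 hq).elim (hp q) (hu q)

theorem in_sub {f g : Sch} (hf : In Set.univ (ev f)) (hg : In Set.univ (ev g)) :
    In Set.univ (ev (f - g)) :=
  ⟨⟨_, rfl⟩, HasCompactSupport.sub hf.2.1 hg.2.1, Set.subset_univ _⟩

theorem tele (t : E1 x) {ls : List Λ} {m : ℕ} {C : ℝ}
    (hC : ∀ u : List (Λ × Sch), u.map Prod.fst = ls → CW (evw u) →
      ‖x.ap (evw u) c.Om‖ ≤ C * snw m u) (R R' : ℕ) :
    ∀ u p : List (Λ × Sch), (p ++ u).map Prod.fst = ls → CW (evw p) →
      ‖x.ap (evw (p ++ cw R u)) c.Om - x.ap (evw (p ++ cw R' u)) c.Om‖ ≤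
        C * (snw m p * dl m R R' u)
  | [], p, _, _ => by simp [cw, dl]
  | q :: u, p, h, hp => by
    have i1 : In Set.univ (ev (ct R q.2)) := by rw [ev_ct t]; exact in_cut t R ⟨_, rfl⟩
    have i2 : In Set.univ (ev (ct R' q.2)) := by rw [ev_ct t]; exact in_cut t R' ⟨_, rfl⟩
    have i3 := in_sub i1 i2
    have hu := cw_cw t R u
    have hv := d1_ap t.ops _ hu
    have ih := tele t hC R R' u (p ++ [(q.1, ct R' q.2)]) (by simpa using h)
      (by rw [evw_append]; exact cw_append hp (cw_cons.2 ⟨i2, fun _ h => by simp [evw] at h⟩))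
    have h1 := hC (p ++ (q.1, ct R q.2 - ct R' q.2) :: cw R u)
      (by rw [← h]; simp [cw_fst]) (by rw [evw_append]; exact cw_append hp (cw_cons.2 ⟨i3, hu⟩))
    have e1 : x.op q.1 (ev (ct R q.2 - ct R' q.2)) (x.ap (evw (cw R u)) c.Om) =
        x.op q.1 (ev (ct R q.2)) (x.ap (evw (cw R u)) c.Om) +
          (-1 : ℂ) • x.op q.1 (ev (ct R' q.2)) (x.ap (evw (cw R u)) c.Om) := by
      rw [← t.ops.lin q.1 _ _ (-1) _ i1 i2 hv]
      congr 1
      funext y
      simp [ev, sub_eq_add_neg]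
    have e2 : x.ap (evw (p ++ (q.1, ct R q.2 - ct R' q.2) :: cw R u)) c.Om =
        x.ap (evw (p ++ cw R (q :: u))) c.Om -
          x.ap (evw (p ++ [(q.1, ct R' q.2)] ++ cw R u)) c.Om := by
      rw [List.append_assoc, evw_append, evw_append, evw_append, ap_append, ap_append, ap_append,
        sub_eq_add_neg (x.ap _ _), ← neg_one_smul ℂ (x.ap _ _)]
      exact (congrArg (x.ap (evw p)) e1).trans (ap_lin t.ops (-1) (t.ops.mem _ _ _ i1 hv)
        (t.ops.mem _ _ _ i2 hv) _ hp)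
    have e3 : p ++ [(q.1, ct R' q.2)] ++ cw R' u = p ++ cw R' (q :: u) := by simp [cw]
    rw [e2] at h1
    rw [e3] at ih
    refine (norm_sub_le_norm_sub_add_norm_sub _ _ _).trans ((add_le_add h1 ih).trans (le_of_eq ?_))
    simp only [snw_append, snw_cons, snw_nil, dl]
    ring

theorem lim0 (t : E1 x) (b : TMP x) (u : List (Λ × Sch)) :
    Tendsto (fun R => x.ap (cutw R (evw u)) c.Om) atTop (𝓝 (x.W (evw u))) := by
  obtain ⟨m, C, -, hC⟩ := b (u.map Prod.fst)
  refine CauchySeq.tendsto_limUnder ?_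
  rw [cauchySeq_iff_tendsto_dist_atTop_0, ← prod_atTop_atTop_eq]
  have h := (dl_lim t m u).const_mul C
  rw [mul_zero] at h
  refine squeeze_zero (fun _ => dist_nonneg) (fun R => ?_) h
  have := tele t hC R.1 R.2 u [] rfl fun _ h => by simp [evw] at h
  simp only [List.nil_append, snw_nil, one_mul, evw_cw t] at this
  rwa [dist_eq_norm]

theorem ex_evw {u : Wd Λ} (h : TW u) : ∃ U, evw U = u := by
  refine ⟨u.map fun q => (q.1, sch q.2), ?_⟩
  simp only [evw, List.map_map]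
  conv_rhs => rw [← List.map_id u]
  exact List.map_congr_left fun q hq => by simp [Ap.ev_sch (h q hq)]

theorem cut_ev (t : E1 x) : ∀ u : Wd Λ, CW u → ∀ᶠ R in atTop, cutw R u = u
  | [], _ => Eventually.of_forall fun _ => rfl
  | (a, f) :: u, h => by
    obtain ⟨h1, h2⟩ := cw_cons.1 h
    obtain ⟨r, hr⟩ := h1.2.1.isCompact.isBounded.subset_closedBall 0
    filter_upwards [cut_ev t u h2, eventually_ge_atTop ⌈r⌉₊] with R hR hR'
    have : cutf R f = f := t.ana.eq R f (hr.trans (Metric.closedBall_subset_closedBall (by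
      have := Nat.ceil_le.1 hR'
      linarith)))
    change (a, cutf R f) :: cutw R u = _
    rw [this, hR]

end Xq

open Xq in
theorem ext_row (t : E1 x) (b : TMP x) : EXT x := by
  have lim : ∀ u, TW u → Tendsto (fun R => x.ap (cutw R u) c.Om) atTop (𝓝 (x.W u)) := by
    intro u hu
    obtain ⟨U, rfl⟩ := ex_evw hu
    exact lim0 t b U
  refine ⟨lim, fun u hu => ?_, fun ls => ?_⟩
  · refine tendsto_nhds_unique (lim u (Cq.tw_of hu)) (tendsto_const_nhds.congr' ?_)
    exact (cut_ev t u hu).mono fun R hR => by simp only [hR]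
  · obtain ⟨m, C, h0, hC⟩ := b ls
    refine ⟨m, C, h0, fun u hu => ?_⟩
    refine le_of_tendsto_of_tendsto' (lim0 t b u).norm ((snw_lim t m u).const_mul C) fun R => ?_
    rw [← evw_cw t]
    exact hC _ ((cw_fst R u).trans hu) (cw_cw t R u)
end

end Vale.Agent.N352.G.X
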