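import Vale.Agent.N352.X.Defs
import Vale.Agent.P352X.EG.LET
import Vale.Agent.P352X.EG.MU1
import Vale.Agent.P352NA.LOC

/-!
# N352, block X: letters, short words, polynomial families (helper71)
-/

set_option linter.all false

open MeasureTheory Filter Topology Set
open scoped SchwartzMap ComplexConjugate

namespace Vale.Agent.N352.G.X

open Vale.Agent.P352 Vale.Agent.P352.GF Vale.Agent.P352.BW Vale.Agent.P352.H246
open Vale.Agent.P352.H496 Vale.Agent.P352.H755 Vale.Agent.P352.H15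
open Vale.Agent.P352.SubConf (IsAdj)
open Vale.Agent.P352X Vale.Agent.P352X.EB
open Vale.Agent.P352X.EB.NA (rv_append rv_cons rv_rv length_rv rv_eq_nil cp cp_append cp_afs
  rc_le rc_rh rc_be rc_cph cph_cpt bar_pb in_pb rf rf_at)
open UniformSpace (Completion)
open Bornology (IsBounded)

noncomputable section

section

variable {D : Type*} [NormedAddCommGroup D] [InnerProductSpace ℂ D] {c : Ctx D}
  {K K' : Set V} {ξ ξ' η η' ζ ζ' : Completion D} {σ : List Bool}
  {u v w : List (Completion D × Completion D)} {p : Completion D × Completion D}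

/-! ## the product relation -/

/-- the identity -/
def g1 (c : Ctx D) : Sh c.toCg := ⟨⟨1, GF.one, 0, one_pos, H496.isLor_one⟩, false⟩

theorem g1_act (z : V) : (g1 c).act z = z := (sim_ut 0 z).trans (add_zero z)

theorem g1_U (G : GRP c) : (g1 c).U c.toCg = 1 := G.ut0

theorem Rl.mono (h : Rl c.toCg K ξ η ζ) (e : K ⊆ K') : Rl c.toCg K' ξ η ζ :=
  fun g a => h g fun x b => a x (e b)

theorem Rl.U (s : SG c.toCg) (h : Rl c.toCg K ξ η ζ) (g : Sh c.toCg) :
    Rl c.toCg (g.act '' K) (g.U c.toCg ξ) (g.U c.toCg η) (g.U c.toCg ζ) := fun k hk => by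
  have := h (k.mul g) fun x hx => by
    rw [s.act_mul]
    exact hk _ ⟨x, hx, rfl⟩
  rwa [s.U_mul] at this

theorem Rl.std (G : GRP c) (h : Rl c.toCg K ξ η ζ) (e : K ⊆ W0) : Prd (M0 c.toCg) c.Om ξ η ζ := by
  have := h (g1 c) fun x hx => by rw [g1_act]; exact e hx
  rwa [g1_U G] at this

theorem Rl.vac (s : SG c.toCg) : Rl c.toCg K c.Om η η := fun g _ x _ => by rw [(s.vac g).1]

theorem Rl.lin_r (z : ℂ) (h : Rl c.toCg K ξ η ζ) (h' : Rl c.toCg K ξ η' ζ') :
    Rl c.toCg K ξ (η + z • η') (ζ + z • ζ') := fun g a x hx => by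
  simp only [map_add, map_smul, inner_add_right, inner_smul_right, h g a x hx, h' g a x hx]

theorem Rl.lin_l (z : ℂ) (h : Rl c.toCg K ξ η ζ) (h' : Rl c.toCg K ξ' η ζ') :
    Rl c.toCg K (ξ + conj z • ξ') η (ζ + z • ζ') := fun g a x hx => by
  simp only [map_add, map_smul, inner_add_right, inner_smul_right, inner_add_left, inner_smul_left,
    h g a x hx, h' g a x hx, Complex.conj_conj]

theorem Rl.zero_r : Rl c.toCg K ξ 0 0 := fun g a x hx => by simp

theorem Rl.zero_l : Rl c.toCg K 0 η 0 := fun g a x hx => by simp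

theorem Rl.uniq (s : SG c.toCg) (hK : IsBounded K) (h : Rl c.toCg K ξ η ζ) (h' : Rl c.toCg K ξ η ζ') : ζ = ζ' :=
  (EG.Mu1.eq s hK h).symm.trans (EG.Mu1.eq s hK h')

theorem Rl.inner (s : SG c.toCg) (hK : IsBounded K) (h : Rl c.toCg K ξ η ζ) :
    inner ℂ c.Om ζ = inner ℂ ξ η := by
  obtain ⟨g, hg⟩ := s.ex K hK
  exact EG.MU2.prd s (h g hg) (EG.Cm.one s)

theorem rl_afs (t : E0 c) {X X' : D → D} (h : T.Afs (c.N K) X X') (y : D) :
    Rl c.toCg K (X' c.Q.vac : D) y (X y : D) := fun g a x hx => by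
  have := afs_left h ((EG.Cm.of t.sg hx).comm t.sg a) c.Q.vac y
  simp only [ContinuousLinearMap.mul_apply, star_inner] at this
  rwa [show g.U c.toCg (c.Q.vac : D) = c.Om from (t.sg.vac g).1] at this

/-! ## letters -/

namespace Tr

theorem mono (h : Tr c K ξ ξ') (e : K ⊆ K') : Tr c K' ξ ξ' := by
  induction h with
  | zero => exact .zero
  | fld B B' f a b d hf => exact .fld B B' f a b d (Ap.in_mono hf e)
  | add _ _ _ _ _ _ a b => exact .add _ _ _ _ a b
  | smul z _ _ _ a => exact .smul z _ _ a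

theorem symm (h : Tr c K ξ ξ') : Tr c K ξ' ξ := by
  induction h with
  | zero => exact .zero
  | fld B B' f a b d hf =>
    have := Tr.fld B' B (bar f) b a (H755.adj_symm d) hf.bar
    rwa [Ap.bar_bar] at this
  | add _ _ _ _ _ _ a b => exact .add _ _ _ _ a b
  | smul z _ _ _ a =>
    have := Tr.smul (conj z) _ _ a
    rwa [Complex.conj_conj] at this

theorem sum {ι : Type*} (s : Finset ι) {f f' : ι → Completion D} (h : ∀ i ∈ s, Tr c K (f i) (f' i)) :
    Tr c K (∑ i ∈ s, f i) (∑ i ∈ s, f' i) := by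
  classical
  induction s using Finset.induction_on with
  | empty => exact .zero
  | insert i s hi ih =>
    simp only [Finset.sum_insert hi]
    exact .add _ _ _ _ (h i (Finset.mem_insert_self _ _))
      (ih fun j hj => h j (Finset.mem_insert_of_mem hj))

theorem al (h : Tr c K ξ ξ') :
    ∃ X X', Al c.Q K X X' ∧ ξ = (X c.Q.vac : D) ∧ ξ' = (X' c.Q.vac : D) := by
  induction h with
  | zero => exact ⟨_, _, .smul 0 _ _ .one, by simp [Completion.coe_zero], by simp [Completion.coe_zero]⟩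
  | fld B B' f a b d hf => exact ⟨_, _, .fld B B' f _ _ a b d hf .one, rfl, rfl⟩
  | add _ _ _ _ _ _ a b =>
    obtain ⟨X, X', a1, rfl, rfl⟩ := a
    obtain ⟨Y, Y', b1, rfl, rfl⟩ := b
    exact ⟨_, _, .add _ _ _ _ a1 b1, (Completion.coe_add _ _).symm, (Completion.coe_add _ _).symm⟩
  | smul z _ _ _ a =>
    obtain ⟨X, X', a1, rfl, rfl⟩ := a
    exact ⟨_, _, .smul z _ _ a1, (Completion.coe_smul _ _).symm, (Completion.coe_smul _ _).symm⟩

end Tr

theorem in_inv (s : SG c.toCg) (g : Sh c.toCg) {f : Fn} (hf : In K f) : In (g.act '' K) (g.inv.pull f) :=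
  Ap.in_mono (s.inn g.inv K f hf) fun y hy => ⟨_, hy, s.act_inv g y⟩

theorem U_vac (t : E0 c) (g : Sh c.toCg) {n : ℕ} {κ : Fin n → ℂ} {η : Fin n → Completion D}
    (h : ξ = ∑ i, κ i • g.inv.U c.toCg (η i)) : g.U c.toCg ξ = ∑ i, κ i • η i := by
  simp only [h, map_sum, map_smul, t.sg.U_inv, EG.MU2.us t.sg]

theorem Tr.U (t : E0 c) (hc : COV c.toCg) (h : Tr c K ξ ξ') (g : Sh c.toCg) :
    Tr c (g.act '' K) (g.U c.toCg ξ) (g.U c.toCg ξ') := by
  induction h with
  | zero => simpa using Tr.zero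
  | fld B B' f a b d hf =>
    obtain ⟨-, n, q, κ, -, h2⟩ := hc B B' a b d
    rw [U_vac t g (h2 g.inv f hf.1).1, U_vac t g (h2 g.inv _ hf.bar.1).2]
    exact Tr.sum _ fun i _ => .smul _ _ _
      (.fld _ _ _ (q i).h (q i).h' (q i).a (in_inv t.sg g hf))
  | add _ _ _ _ _ _ a b => simpa only [map_add] using Tr.add _ _ _ _ a b
  | smul z _ _ _ a => simpa only [map_smul] using Tr.smul z _ _ a

theorem l_zero : c.l (fun _ => 0) = 0 := by simpa using c.hl.lin _ _ 1 Ap.sw_zero Ap.sw_zero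

theorem l_smul (z : ℂ) {f : Fn} (hf : IsTest f) : c.l (fun x => z * f x) = z • c.l f := by
  simpa [l_zero] using c.hl.lin (fun _ => 0) f z Ap.sw_zero hf

theorem l_pot (t : E0 c) (g : Sh c.toCg) {f : Fn} (hf : IsTest f) :
    c.l f = ((g.s ^ 2 : ℝ) : ℂ) • g.U c.toCg (c.l (g.pull f)) := by
  have h := EG.Let.tw t.sg g (e := false)
    ((Sq.l_even c.hT c.hl (t.sg.test g f hf)).trans (one_smul _ _).symm)
  rw [Bool.and_false, show sg false = 1 from rfl, one_smul] at h
  rw [← h, show Ug c.Q g.s g.L g.a (c.l (g.pull f)) = _ from t.grp.pot _ _ _ f g.hs g.hL hf,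
    ← Complex.coe_smul, smul_smul, ← Complex.ofReal_mul, mul_inv_cancel₀ (pow_pos g.hs 2).ne',
    Complex.ofReal_one, one_smul]

theorem l_U (t : E0 c) (g : Sh c.toCg) {f : Fn} (hf : IsTest f) :
    g.U c.toCg (c.l f) = c.l fun x => ((g.inv.s ^ 2 : ℝ) : ℂ) * g.inv.pull f x := by
  rw [l_pot t g.inv hf, map_smul, l_smul _ (t.sg.test _ _ hf), t.sg.U_inv, EG.MU2.us t.sg]

theorem tr_box {f : Fn} (hf : In K f) : Tr c K (c.l (box f)) (c.l (bar (box f))) := by
  have e : ∀ f, IsTest f → c.l (box f) = ∑ k, (3⁻¹ * eta k : ℂ) •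
      ((c.T k k f c.Q.vac : D) : Completion D) := fun f hf => by
    rw [← inv_smul_smul₀ (three_ne_zero (α := ℂ)) (c.l _), c.hl.trace f hf, GF.tr,
      ← Completion.coe_toComplL (𝕜 := ℂ)]
    simp only [map_sum, map_smul, Finset.smul_sum, smul_smul]
  rw [← Dd.box_bar (Ap.in_dc hf).1, e _ hf.1, e _ hf.bar.1]
  refine Tr.sum _ fun k _ => ?_
  have b := c.Q.bose_fld _ (c.hT.bose k k)
  simpa [map_ofNat] using Tr.smul (3⁻¹ * eta k) _ _ (.fld _ _ f b b (c.hT.herm k k) hf)

namespace Ty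

variable {e : Bool}

theorem mono (h : Ty c K e p) (a : K ⊆ K') : Ty c K' e p := by
  cases e
  · exact Tr.mono h a
  · exact h.imp fun _ h => ⟨Ap.in_mono h.1 a, h.2⟩

theorem swap (h : Ty c K e p) : Ty c K e p.swap := by
  cases e
  · exact Tr.symm h
  · obtain ⟨f, a, rfl⟩ := h
    exact ⟨bar f, a.bar, by rw [Ap.bar_bar]; rfl⟩

theorem U (t : E0 c) (hc : COV c.toCg) (h : Ty c K e p) (g : Sh c.toCg) :
    Ty c (g.act '' K) e (g.U c.toCg p.1, g.U c.toCg p.2) := by
  cases e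
  · exact Tr.U t hc h g
  · obtain ⟨f, a, rfl⟩ := h
    refine ⟨_, Ap.in_cmul ((g.inv.s ^ 2 : ℝ) : ℂ) (in_inv t.sg g a), ?_⟩
    rw [l_U t g a.1, l_U t g a.bar.1, Ap.bar_rmul (fun _ => g.inv.s ^ 2)]
    rfl

theorem rl (t : E0 c) (hc : COV c.toCg) (h : Ty c K e p) : Rl c.toCg K p.2 c.Om p.1 := by
  cases e
  · obtain ⟨X, X', a, h1, h2⟩ := Tr.al h
    rw [h1, h2]
    exact rl_afs t (t.grp.affa _ _ _ a) _
  · intro g hg x hx
    obtain ⟨f, a, e⟩ := h.U t hc g
    have := t.prw _ (Ap.in_mono a (by rintro _ ⟨y, hy, rfl⟩; exact hg y hy))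
    rw [(t.sg.vac g).1, (Prod.mk.inj e).1, (Prod.mk.inj e).2, pr_iff'.1 this x hx, inner_star]

theorem wv_one (t : E0 c) (hc : COV c.toCg) (hK : IsBounded K) (h : Ty c K e p) : wv c [p] = p.1 :=
  EG.Mu1.eq t.sg hK (h.rl t hc)

end Ty

/-! ## words -/

/-- the image of a word under a similitude -/
def mp (c : Ctx D) (g : Sh c.toCg) (w : List (Completion D × Completion D)) :
    List (Completion D × Completion D) := w.map fun p => (g.U c.toCg p.1, g.U c.toCg p.2)

theorem rv_mp (g : Sh c.toCg) (w : List (Completion D × Completion D)) : rv (mp c g w) = mp c g (rv w) := by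
  simp [rv, mp, List.map_reverse, Function.comp_def]

theorem wv_nil : wv c [] = c.Om := rfl

theorem wv_cons (p : Completion D × Completion D) (v) : wv c (p :: v) = ml c.toCg p.2 (wv c v) := rfl

namespace Tw

theorem mono (h : Tw c K σ w) (a : K ⊆ K') : Tw c K' σ w := List.Forall₂.imp (fun _ _ b => b.mono a) h

theorem length (h : Tw c K σ w) : σ.length = w.length := List.Forall₂.length_eq h

theorem append {τ : List Bool} (h : Tw c K σ u) (h' : Tw c K τ v) : Tw c K (σ ++ τ) (u ++ v) :=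
  List.rel_append h h'

theorem take (h : Tw c K σ w) (i : ℕ) : Tw c K (σ.take i) (w.take i) := List.forall₂_take i h

theorem drop (h : Tw c K σ w) (i : ℕ) : Tw c K (σ.drop i) (w.drop i) := List.forall₂_drop i h

theorem rev (h : Tw c K σ w) : Tw c K σ.reverse (rv w) :=
  List.rel_reverse (List.forall₂_map_right_iff.2 (List.Forall₂.imp (fun _ _ b => b.swap) h))

theorem U (t : E0 c) (hc : COV c.toCg) (h : Tw c K σ w) (g : Sh c.toCg) : Tw c (g.act '' K) σ (mp c g w) :=
  List.forall₂_map_right_iff.2 (List.Forall₂.imp (fun _ _ b => b.U t hc g) h)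

theorem split (h : Tw c K σ (u ++ v)) :
    Tw c K (σ.take u.length) u ∧ Tw c K (σ.drop u.length) v :=
  ⟨by simpa using h.take u.length, by simpa using h.drop u.length⟩

end Tw

end

section

variable {D : Type*} [NormedAddCommGroup D] [InnerProductSpace ℂ D] {c : Ctx D}
  {K K' : Set V} {ξ ξ' η η' ζ ζ' : Completion D} {σ τ : List Bool} {n m : ℕ}
  {u v w : List (Completion D × Completion D)} {p q r : Completion D × Completion D}

/-- words with at most `n` potentials and at most `m` letters -/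
structure Ok (c : Ctx D) (n m : ℕ) (K : Set V) (w : List (Completion D × Completion D)) : Prop where
  cpt : IsCompact K
  ty : ∃ σ, σ.count true ≤ n ∧ Tw c K σ w
  len : w.length ≤ m

/-- all short words split -/
def Shw (c : Ctx D) (n m : ℕ) : Prop := ∀ K w, Ok c n m K w → Sp c K w

namespace Ok

theorem mono (h : Ok c n m K w) (hK : IsCompact K') (e : K ⊆ K') : Ok c n m K' w :=
  ⟨hK, h.ty.imp fun _ a => ⟨a.1, a.2.mono e⟩, h.len⟩

theorem take (h : Ok c n m K w) (i : ℕ) : Ok c n (min i m) K (w.take i) :=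
  ⟨h.cpt, let ⟨σ, a, b⟩ := h.ty; ⟨σ.take i, ((List.take_sublist _ _).count_le _).trans a, b.take i⟩,
    by rw [List.length_take]; exact min_le_min_left _ h.len⟩

theorem drop (h : Ok c n m K w) (i : ℕ) : Ok c n (m - i) K (w.drop i) :=
  ⟨h.cpt, let ⟨σ, a, b⟩ := h.ty; ⟨σ.drop i, ((List.drop_sublist _ _).count_le _).trans a, b.drop i⟩,
    by rw [List.length_drop]; exact Nat.sub_le_sub_right h.len _⟩

theorem le {m' : ℕ} (h : Ok c n m K w) (e : w.length ≤ m') : Ok c n m' K w := ⟨h.cpt, h.ty, e⟩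

theorem left (h : Ok c n m K (u ++ v)) : Ok c n m K u := by
  have := h.take u.length
  rw [List.take_left] at this
  exact this.le (this.len.trans (min_le_right _ _))

theorem right (h : Ok c n m K (u ++ v)) : Ok c n m K v := by
  have := h.drop u.length
  rw [List.drop_left] at this
  exact this.le (this.len.trans (Nat.sub_le _ _))

theorem tail (h : Ok c n m K (p :: v)) : Ok c n m K v := right (u := [p]) h

theorem head (h : Ok c n m K (p :: v)) : ∃ e, Ty c K e p := by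
  obtain ⟨σ, -, b⟩ := h.ty
  cases b with
  | cons a _ => exact ⟨_, a⟩

theorem rev (h : Ok c n m K w) : Ok c n m K (rv w) :=
  ⟨h.cpt, let ⟨σ, a, b⟩ := h.ty; ⟨σ.reverse, by rwa [List.count_reverse], b.rev⟩,
    by rw [length_rv]; exact h.len⟩

theorem U (t : E0 c) (hc : COV c.toCg) (h : Ok c n m K w) (g : Sh c.toCg) : Ok c n m (g.act '' K) (mp c g w) :=
  ⟨h.cpt.image g.cont, h.ty.imp fun _ a => ⟨a.1, a.2.U t hc g⟩, by
    rw [mp, List.length_map]; exact h.len⟩

theorem bd (h : Ok c n m K w) : IsBounded K := h.cpt.isBounded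

end Ok

namespace Shw

variable (t : E0 c) (hc : COV c.toCg) (s : Shw c n m)
include t hc s

theorem step (h : Ok c n m K (p :: v)) : Rl c.toCg K p.2 (wv c v) (wv c (p :: v)) := by
  obtain ⟨e, a⟩ := h.head
  have := s K _ h [p] v rfl
  rwa [show rv [p] = [p.swap] from rfl, a.swap.wv_one t hc h.bd] at this

theorem wv_U (h : Ok c n m K w) (g : Sh c.toCg) : wv c (mp c g w) = g.U c.toCg (wv c w) := by
  induction w with
  | nil => exact (t.sg.vac g).1.symm
  | cons p v ih =>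
    have := Rl.U t.sg (s.step t hc h) g
    rw [← ih h.tail] at this
    exact EG.Mu1.eq t.sg (t.sg.bdd g K h.bd) this

theorem lin (z : ℂ) (h1 : Ok c n m K (u ++ p :: v)) (h2 : Ok c n m K (u ++ q :: v))
    (h3 : Ok c n m K (u ++ r :: v)) (e : r.2 = p.2 + conj z • q.2) :
    wv c (u ++ r :: v) = wv c (u ++ p :: v) + z • wv c (u ++ q :: v) := by
  have a : wv c (r :: v) = wv c (p :: v) + z • wv c (q :: v) := by
    refine Rl.uniq t.sg h3.bd (s.step t hc h3.right) ?_
    rw [e]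
    exact Rl.lin_l z (s.step t hc h1.right) (s.step t hc h2.right)
  refine Rl.uniq t.sg h3.bd (s K _ h3 u _ rfl) ?_
  rw [a]
  exact Rl.lin_r z (s K _ h1 u _ rfl) (s K _ h2 u _ rfl)

end Shw

/-! ## words of true letters -/

/-- the word of a list of operators -/
def vw (c : Ctx D) (xs : List ((D → D) × (D → D))) : List (Completion D × Completion D) :=
  xs.map fun x => ((x.1 c.Q.vac : D), (x.2 c.Q.vac : D))

theorem rv_vw (xs : List ((D → D) × (D → D))) : rv (vw c xs) = vw c (rv xs) := by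
  simp [rv, vw, List.map_reverse, Function.comp_def]

theorem wv_vw (t : E0 c) (hK : IsBounded K) {xs : List ((D → D) × (D → D))}
    (h : ∀ x ∈ xs, T.Afs (c.N K) x.1 x.2) : wv c (vw c xs) = (cp xs c.Q.vac : D) := by
  induction xs with
  | nil => rfl
  | cons x xs ih =>
    show ml c.toCg _ (wv c (vw c xs)) = _
    rw [ih fun y hy => h y (List.mem_cons_of_mem _ hy)]
    exact EG.Mu1.eq t.sg hK (rl_afs t (h x List.mem_cons_self) _)

theorem ex_vw (t : E0 c) (h : Tw c K σ w) (h0 : σ.count true = 0) :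
    ∃ xs, (∀ x ∈ xs, T.Afs (c.N K) x.1 x.2) ∧ w = vw c xs := by
  induction h with
  | nil => exact ⟨[], by simp, rfl⟩
  | @cons e p σ w a _ ih =>
    cases e
    · obtain ⟨xs, b, rfl⟩ := ih (by simpa using h0)
      obtain ⟨X, X', a1, a2, a3⟩ := Tr.al a
      refine ⟨(X, X') :: xs, fun x hx => ?_, congrArg (· :: _) (Prod.ext a2 a3)⟩
      rcases List.mem_cons.1 hx with rfl | hx
      exacts [t.grp.affa _ _ _ a1, b x hx]
    · simp at h0

theorem sp_true (t : E0 c) (hK : IsBounded K) (h : Tw c K σ w) (h0 : σ.count true = 0) :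
    Sp c K w := by
  obtain ⟨xs, b, rfl⟩ := ex_vw t h h0
  intro u v e
  obtain ⟨x1, x2, rfl, rfl, rfl⟩ := List.map_eq_append_iff.1 e
  have b1 : ∀ x ∈ x1, T.Afs (c.N K) x.1 x.2 := fun x hx => b x (List.mem_append_left _ hx)
  have b2 : ∀ x ∈ x2, T.Afs (c.N K) x.1 x.2 := fun x hx => b x (List.mem_append_right _ hx)
  have b3 : ∀ x ∈ rv x1, T.Afs (c.N K) x.1 x.2 := fun x hx => by
    obtain ⟨y, hy, rfl⟩ := List.mem_map.1 (List.mem_reverse.1 hx)
    exact afs_symm (b1 y hy)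
  show Rl c.toCg K (wv c (rv (vw c x1))) (wv c (vw c x2)) _
  rw [rv_vw, wv_vw t hK b3, wv_vw t hK b2, wv_vw t hK b, cp_append]
  exact rl_afs t (cp_afs b1) _

theorem sp_one (t : E0 c) (hc : COV c.toCg) (h : Ok c n 1 K w) : Sp c K w := by
  intro u v e
  rcases u with _ | ⟨p, u⟩
  · obtain rfl : w = v := e
    exact Rl.vac t.sg
  · have l := h.len
    rw [e, List.length_append, List.length_cons] at l
    obtain rfl : u = [] := List.length_eq_zero_iff.1 (by omega)
    obtain rfl : v = [] := List.length_eq_zero_iff.1 (by omega)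
    subst e
    obtain ⟨e, a⟩ := Ok.head h
    show Rl c.toCg K (wv c [p.swap]) c.Om (wv c [p])
    rw [a.wv_one t hc h.bd, a.swap.wv_one t hc h.bd]
    exact a.rl t hc

/-! ## proper splittings -/

/-- `ζ` is the product for all proper splittings, tested with the algebra of `C` -/
def Sw (c : Ctx D) (C : Set V) (w : List (Completion D × Completion D)) (ζ : Completion D) : Prop :=
  ∀ Z, Nw c.toCg C Z → ∀ i, 0 < i → i < w.length →
    inner ℂ (Z c.Om) ζ = inner ℂ (Z (wv c (rv (w.take i)))) (wv c (w.drop i))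

/-- all proper splittings are products -/
def Pp (c : Ctx D) (K : Set V) (w : List (Completion D × Completion D)) : Prop :=
  ∀ u v, u ≠ [] → v ≠ [] → w = u ++ v → Rl c.toCg K (wv c (rv u)) (wv c v) (wv c w)

theorem pp_of (t : E0 c) (hc : COV c.toCg) (s : Shw c n m) (h : Ok c n (m + 1) K w)
    (H : ∀ g : Sh c.toCg, g.Adm K → ∃ ζ, Sw c W1 (mp c g w) ζ) : Pp c K w := by
  have key : ∀ u v, u ≠ [] → v ≠ [] → w = u ++ v → ∀ (g : Sh c.toCg) ζ, Sw c W1 (mp c g w) ζ →
      Prd (M0 c.toCg) c.Om (g.U c.toCg (wv c (rv u))) (g.U c.toCg (wv c v)) ζ := by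
    rintro u v hu hv rfl g ζ a x hx
    have l := h.len
    have l1 := List.length_pos_iff.2 hu
    have l2 := List.length_pos_iff.2 hv
    rw [List.length_append] at l
    have := a x ((t.dual x).1 hx) u.length l1 (by simp [mp, l2])
    rwa [mp, ← List.map_take, ← List.map_drop, List.take_left, List.drop_left,
      show List.map _ u = mp c g u from rfl, show List.map _ v = mp c g v from rfl, rv_mp,
      s.wv_U t hc (h.left.le (by omega)).rev, s.wv_U t hc (h.right.le (by omega))] at this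
  rintro u v hu hv e g hg
  obtain ⟨p, u, rfl⟩ := List.exists_cons_of_ne_nil hu
  obtain ⟨b, a⟩ := Ok.head (e ▸ h)
  have k := key [p] (u ++ v) (by simp) (by simp [hv]) e
  rw [show rv [p] = [p.swap] from rfl, a.swap.wv_one t hc h.bd] at k
  obtain ⟨ζ, hζ⟩ := EG.Mu1.glue t.e0 h.bd fun g hg => (H g hg).imp (k g)
  obtain ⟨ζ', h'⟩ := H g hg
  rw [show wv c w = ζ from e ▸ EG.Mu1.eq t.sg h.bd hζ, EG.Mu1.prd_uniq t.sg (hζ g hg) (k g ζ' h')]
  exact key _ _ hu hv e g ζ' h'

theorem sp_of (t : E0 c) (h2 : 2 ≤ w.length) (h : Pp c K w) (h' : Pp c K (rv w)) : Sp c K w := by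
  intro u v e
  by_cases hu : u = []
  · subst hu
    obtain rfl : w = v := e
    exact Rl.vac t.sg
  by_cases hv : v ≠ []
  · exact h u v hu hv e
  obtain rfl := not_not.1 hv
  rw [List.append_nil] at e
  subst e
  obtain ⟨p, v, rfl⟩ := List.exists_cons_of_ne_nil hu
  have hv : v ≠ [] := List.length_pos_iff.1 (by rw [List.length_cons] at h2; omega)
  intro g hg x hx
  have a := h [p] v (by simp) hv rfl g hg x hx
  have b := h' (rv v) (rv [p]) (by rwa [Ne, rv_eq_nil]) (by simp [rv]) (rv_append [p] v) g hg _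
    (star_mem hx)
  rw [rv_rv, star_inner, star_inner] at b
  rw [a, wv_nil, (t.sg.vac g).1, ← inner_conj_symm, ← b, inner_conj_symm]
end

variable {D : Type*} [NormedAddCommGroup D] [InnerProductSpace ℂ D] {c : Ctx D}
  {K K' : Set V} {ξ ξ' η η' ζ ζ' : Completion D} {σ τ : List Bool} {n m N N' : ℕ} {T s : ℝ}
  {u v w : List (Completion D × Completion D)} {p : Completion D × Completion D} {z : V}

theorem prd_sk (t : E0 c) (hs : 0 ≤ s) (h : Prd (M0 c.toCg) c.Om ξ η ζ) :
    Prd (M0 c.toCg) c.Om (c.SK s ξ) (c.SK s η) (c.SK s ζ) := fun x hx => by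
  simpa only [ContinuousLinearMap.mul_apply, star_inner, c.K_vac] using h _ (t.skc s hs _ hx)

/-- polynomial families of letters -/
structure Fa (c : Ctx D) (K : Set V) (T : ℝ) (N : ℕ) (e : Bool)
    (q : ℝ → Completion D × Completion D) : Prop where
  ty : ∀ s ∈ Icc 0 T, Ty c (cph s '' K) e (q s)
  p1 : Pol N (Icc 0 T) fun s => c.SK s (q s).1
  p2 : Pol N (Icc 0 T) fun s => c.SK s (q s).2

namespace Fa

variable {e : Bool} {q : ℝ → Completion D × Completion D}

theorem mono (h : Fa c K T N e q) (a : K ⊆ K') (b : N ≤ N') : Fa c K' T N' e q :=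
  ⟨fun s hs => (h.ty s hs).mono (image_mono a), h.p1.mono b, h.p2.mono b⟩

theorem swap (h : Fa c K T N e q) : Fa c K T N e fun s => (q s).swap :=
  ⟨fun s hs => (h.ty s hs).swap, h.p2, h.p1⟩

end Fa

theorem sk_l (t : E0 c) {f : Fn} (hf : In K f) (h : ∀ z ∈ K, z ∈ Rc s 0) (hs : 0 ≤ s) :
    c.SK s (c.l (pb 2 (-s) f)) = c.l f := by
  rw [t.flow _ s (Ap.in_mono (in_pb 2 hf fun z hz => rc_rh (h z hz)) (by
    rintro _ ⟨z, hz, rfl⟩
    exact (Ap.mem_W.1 (rc_cph (h z hz))).1.trans_eq be_zero)) hs]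
  congr 1
  funext z
  by_cases hz : 0 < rh s z
  · rw [Ch0.pb_pb hz, add_neg_cancel, Ch0.pb_zero]
  · rw [pb, if_neg hz, image_eq_zero_of_notMem_tsupport fun a => hz (rc_rh (h z (hf.2.2 a)))]

/-- the family of a potential -/
def lf (c : Ctx D) (f : Fn) (s : ℝ) : Completion D × Completion D :=
  (c.l (pb 2 (-s) f), c.l (bar (pb 2 (-s) f)))

theorem lf_zero (f : Fn) : lf c f 0 = (c.l f, c.l (bar f)) := by
  rw [lf, neg_zero, Ch0.pb_zero]

theorem fa_l (t : E0 c) {f : Fn} (hf : In K f) (h : ∀ z ∈ K, z ∈ Rc T 0) :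
    Fa c K T 0 true (lf c f) :=
  ⟨fun s hs => ⟨_, in_pb 2 hf fun z hz => rc_rh (rc_le hs (h z hz)), rfl⟩,
    (NA.Pol.const _).congr fun s hs => sk_l t hf (fun z hz => rc_le hs (h z hz)) hs.1,
    (NA.Pol.const _).congr fun s hs => by
      rw [lf, bar_pb]
      exact sk_l t hf.bar (fun z hz => rc_le hs (h z hz)) hs.1⟩

theorem fa_zero : Fa c K T N false fun _ => (0, 0) :=
  ⟨fun _ _ => Tr.zero, by simpa using NA.Pol.zero, by simpa using NA.Pol.zero⟩

theorem Fa.lin {q q' : ℝ → Completion D × Completion D} (h : Fa c K T N false q)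
    (h' : Fa c K T N false q') (a : ℂ) :
    Fa c K T N false fun s => ((q s).1 + a • (q' s).1, (q s).2 + conj a • (q' s).2) :=
  ⟨fun s hs => Tr.add _ _ _ _ (h.ty s hs) (Tr.smul _ _ _ (h'.ty s hs)),
    by simpa only [map_add, map_smul] using h.p1.add (h'.p1.smul a),
    by simpa only [map_add, map_smul] using h.p2.add (h'.p2.smul (conj a))⟩

theorem Fa.sum {ι : Type*} (S : Finset ι) (κ : ι → ℂ) {q : ι → ℝ → Completion D × Completion D}
    (h : ∀ i ∈ S, Fa c K T N false (q i)) :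
    Fa c K T N false fun s => (∑ i ∈ S, κ i • (q i s).1, ∑ i ∈ S, conj (κ i) • (q i s).2) :=
  ⟨fun s hs => Tr.sum _ fun i hi => Tr.smul _ _ _ ((h i hi).ty s hs),
    by simpa only [map_sum, map_smul] using NA.Pol.sum S fun i hi => (h i hi).p1.smul (κ i),
    by simpa only [map_sum, map_smul] using NA.Pol.sum S fun i hi => (h i hi).p2.smul (conj (κ i))⟩

section

variable (t : E0 c) (hc : COV c.toCg) (pf : PF c)
include t hc pf

theorem fa_tr (h : Tr c K ξ ξ') : ∃ N, ∀ (g : Sh c.toCg) T, (∀ z ∈ K, g.act z ∈ Rc T 0) →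
    ∃ q, Fa c (g.act '' K) T N false q ∧ q 0 = (g.U c.toCg ξ, g.U c.toCg ξ') := by
  induction h with
  | zero => exact ⟨0, fun g T _ => ⟨_, fa_zero, by simp⟩⟩
  | fld B B' f a b d hf =>
    obtain ⟨-, n, q, κ, -, h2⟩ := hc B B' a b d
    choose N hN using fun i => pf (q i)
    refine ⟨Finset.univ.sup N, fun g T hT => ?_⟩
    have hi := in_inv t.sg g hf
    have hK : ∀ z ∈ g.act '' K, z ∈ Rc T 0 := by
      rintro _ ⟨z, hz, rfl⟩
      exact hT z hz
    choose η η' e1 e2 e3 e4 e5 using fun i => hN i T _ (Ap.in_mono hi hK)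
    refine ⟨_, Fa.sum Finset.univ (κ g.inv) (q := fun i s => (η i s, η' i s)) fun i _ =>
      Fa.mono ⟨e3 i, e4 i, e5 i⟩ hi.2.2 (Finset.le_sup (Finset.mem_univ i)), ?_⟩
    rw [U_vac t g (h2 g.inv f hf.1).1, U_vac t g (h2 g.inv _ hf.bar.1).2]
    simp only [e1, e2]
    rfl
  | add _ _ _ _ _ _ a b =>
    obtain ⟨N, a⟩ := a
    obtain ⟨N', b⟩ := b
    refine ⟨max N N', fun g T hT => ?_⟩
    obtain ⟨q, a1, a2⟩ := a g T hT
    obtain ⟨q', b1, b2⟩ := b g T hT
    exact ⟨_, (a1.mono subset_rfl (le_max_left _ _)).lin (b1.mono subset_rfl (le_max_right _ _)) 1,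
      by simp [a2, b2]⟩
  | smul z _ _ _ a =>
    obtain ⟨N, a⟩ := a
    refine ⟨N, fun g T hT => ?_⟩
    obtain ⟨q, a1, a2⟩ := a g T hT
    exact ⟨_, fa_zero.lin a1 z, by simp [a2]⟩

theorem fa_ty {e : Bool} (h : Ty c K e p) : ∃ N, ∀ (g : Sh c.toCg) T, (∀ z ∈ K, g.act z ∈ Rc T 0) →
    ∃ q, Fa c (g.act '' K) T N e q ∧ q 0 = (g.U c.toCg p.1, g.U c.toCg p.2) := by
  cases e
  · exact fa_tr t hc pf h
  · refine ⟨0, fun g T hT => ?_⟩
    obtain ⟨f, a, b⟩ := h.U t hc g
    exact ⟨_, fa_l t a (by rintro _ ⟨z, hz, rfl⟩; exact hT z hz), (lf_zero f).trans b.symm⟩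

theorem fa_tw (h : Tw c K σ w) : ∃ N, ∀ (g : Sh c.toCg) T, (∀ z ∈ K, g.act z ∈ Rc T 0) →
    ∃ ws, List.Forall₂ (Fa c (g.act '' K) T N) σ ws ∧ ws.map (· 0) = mp c g w := by
  induction h with
  | nil => exact ⟨0, fun g T _ => ⟨[], .nil, rfl⟩⟩
  | cons a _ b =>
    obtain ⟨N, a⟩ := fa_ty t hc pf a
    obtain ⟨N', b⟩ := b
    refine ⟨max N N', fun g T hT => ?_⟩
    obtain ⟨q, a1, a2⟩ := a g T hT
    obtain ⟨ws, b1, b2⟩ := b g T hT
    exact ⟨q :: ws, .cons (a1.mono subset_rfl (le_max_left _ _))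
      (b1.imp fun _ _ k => k.mono subset_rfl (le_max_right _ _)), by
        rw [List.map_cons, a2, b2]; rfl⟩

end

/-- polynomial families of words -/
structure Fw (c : Ctx D) (n m : ℕ) (K : Set V) (T : ℝ) (N : ℕ)
    (ws : List (ℝ → Completion D × Completion D)) : Prop where
  cpt : IsCompact K
  reg : ∀ z ∈ K, z ∈ Rc T 0
  ty : ∃ σ, σ.count true ≤ n ∧ List.Forall₂ (Fa c K T N) σ ws
  len : ws.length ≤ m

theorem tw_at {ws : List (ℝ → Completion D × Completion D)} (h : List.Forall₂ (Fa c K T N) σ ws)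
    (hs : s ∈ Icc 0 T) : Tw c (cph s '' K) σ (ws.map (· s)) :=
  List.forall₂_map_right_iff.2 (h.imp fun _ _ k => k.ty s hs)

namespace Fw

variable {ws : List (ℝ → Completion D × Completion D)}

theorem cp (h : Fw c n m K T N ws) (hs : s ∈ Icc 0 T) : IsCompact (cph s '' K) :=
  cph_cpt h.cpt fun z hz => rc_rh (rc_le hs (h.reg z hz))

theorem sub (h : Fw c n m K T N ws) (hs : s ∈ Icc 0 T) : cph s '' K ⊆ W0 := by
  rintro _ ⟨z, hz, rfl⟩
  exact rc_cph (rc_le hs (h.reg z hz))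

theorem ok (h : Fw c n m K T N ws) (hs : s ∈ Icc 0 T) : Ok c n m (cph s '' K) (ws.map (· s)) :=
  ⟨h.cp hs, h.ty.imp fun _ a => ⟨a.1, tw_at a.2 hs⟩, by rw [List.length_map]; exact h.len⟩

theorem take {m' : ℕ} (h : Fw c n m K T N ws) {i : ℕ} (hi : i ≤ m') : Fw c n m' K T N (ws.take i) :=
  ⟨h.cpt, h.reg, let ⟨σ, a, b⟩ := h.ty
    ⟨σ.take i, ((List.take_sublist _ _).count_le _).trans a, List.forall₂_take i b⟩,
    (List.length_take_le _ _).trans hi⟩

theorem drop {m' : ℕ} (h : Fw c n m K T N ws) {i : ℕ} (hi : ws.length - i ≤ m') :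
    Fw c n m' K T N (ws.drop i) :=
  ⟨h.cpt, h.reg, let ⟨σ, a, b⟩ := h.ty
    ⟨σ.drop i, ((List.drop_sublist _ _).count_le _).trans a, List.forall₂_drop i b⟩,
    by rwa [List.length_drop]⟩

theorem rev (h : Fw c n m K T N ws) : Fw c n m K T N (rf ws) :=
  ⟨h.cpt, h.reg, let ⟨σ, a, b⟩ := h.ty
    ⟨σ.reverse, by rwa [List.count_reverse], List.rel_reverse
      (List.forall₂_map_right_iff.2 (b.imp fun _ _ k => k.swap))⟩, by simpa [rf] using h.len⟩

theorem pol (t : E0 c) (hc : COV c.toCg) (S : Shw c n m) (hT : 0 < T) (h : Fw c n m K T N ws) :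
    Pol (N * ws.length) (Icc 0 T) fun s => c.SK s (wv c (ws.map (· s))) := by
  induction ws with
  | nil => exact (NA.Pol.const c.Om).congr fun s _ => c.K_vac s
  | cons q ws ih =>
    have h' : Fw c n m K T N ws := h.drop (i := 1) ((Nat.sub_le _ _).trans h.len)
    obtain ⟨σ, -, b⟩ := h.ty
    obtain ⟨e, a⟩ : ∃ e, Fa c K T N e q := by
      cases b with
      | cons a _ => exact ⟨_, a⟩
    refine NA.Pol.weak hT subset_rfl t.sg.dense ?_
    rintro _ ⟨x, hx, rfl⟩
    rw [List.length_cons, mul_add, mul_one, add_comm]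
    exact ((a.p2.map x.toLinearMap).inn (ih h')).congr fun s hs =>
      prd_sk t hs.1 (Rl.std t.grp (S.step t hc (h.ok hs)) (h.sub hs)) x hx

end Fw

end

end Vale.Agent.N352.G.X
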